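import Vale.Agent.P092EN.Amp
import Vale.Agent.P092.H515.LatSl
import Vale.Agent.P092.H678.O.Cmp

/-!
P092, descent (helper22): legs for the couplings give overlap.
-/

set_option linter.all false

open scoped InnerProductSpace ENNReal NNReal
open Filter Topology ContinuousLinearMap TopologicalSpace MeasureTheory

namespace Vale.Agent.P092EN

open Vale.Agent.P092 Vale.Agent.P092.RC Vale.Agent.P092.H333.Amp Vale.Agent.P092CP
open Vale.Agent.P092.H790 Vale.Agent.P092.H85 Vale.Agent.P092.H103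
open Vale.Agent.P092.H34.Ind (Wset)

/-- the coupling induced from a fibre -/
def Inst : Prop :=
  ∀ {E G : Type} [Group E] [TopologicalSpace E] [IsTopologicalGroup E] [LocallyCompactSpace E]
    [SecondCountableTopology E] [T2Space E] [MeasurableSpace E] [BorelSpace E]
    [Group G] [TopologicalSpace G] [IsTopologicalGroup G] [LocallyCompactSpace G]
    [SecondCountableTopology G] [T2Space G] [MeasurableSpace G] [BorelSpace G]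
    {Λ : Subgroup E} [DiscreteTopology Λ] [MeasurableSpace (E ⧸ Λ)] [BorelSpace (E ⧸ Λ)]
    {ν : Measure (E ⧸ Λ)} [IsProbabilityMeasure ν] [Countable Λ]
    (hν : ∀ g : E, ν.map (fun x => g • x) = ν)
    {Γ : Subgroup G} [DiscreteTopology Γ] [MeasurableSpace (G ⧸ Γ)] [BorelSpace (G ⧸ Γ)]
    {ν' : Measure (G ⧸ Γ)} [IsProbabilityMeasure ν'] [Countable Γ]
    (hν' : ∀ g : G, ν'.map (fun x => g • x) = ν')
    (μ : Measure E) [μ.IsHaarMeasure] (μ' : Measure G) [μ'.IsHaarMeasure]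
    {ℋ : Type} [NormedAddCommGroup ℋ] [InnerProductSpace ℂ ℋ] [CompleteSpace ℋ]
    {V : Λ →* (ℋ →L[ℂ] ℋ)} {R : Γ →* (ℋ →L[ℂ] ℋ)} {sc : Set (ℋ →L[ℂ] ℋ)} {Q P : ℋ →L[ℂ] ℋ}
    {η ξ : ℋ} {κ : ℝ≥0} (h : Fib V R sc Q η P ξ κ),
    ∃ C : Cpl μ μ' (Wset (cdat ν' hν') (Wset (cdat ν hν) sc)),
      (∀ g, C.s.π g = (H34.Ind.pi (cdat ν hν) h.s.adj g).compLpL 2 ν') ∧
      ∀ g, C.t.π g = iro hν' (H34.Ind.lam (cdat ν hν) R) g

/-- **Every coupling of the source `E` with the target `G` has a leg.** -/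
def HasLeg {E G : Type} [Group E] [TopologicalSpace E] [MeasurableSpace E] [Group G]
    [TopologicalSpace G] [IsTopologicalGroup G] [LocallyCompactSpace G] [MeasurableSpace G]
    [BorelSpace G] (μ : Measure E) (μ' : Measure G) : Prop :=
  ∀ (K : Type) [NormedAddCommGroup K] [InnerProductSpace ℂ K] [CompleteSpace K]
    (W : Set (K →L[ℂ] K)) (C : Cpl μ μ' W),
    ∃ (S Y : Type) (_ : Group S) (_ : TopologicalSpace Y) (_ : CompactSpace Y) (_ : T2Space Y)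
      (_ : MulAction G Y) (_ : ContinuousSMul G Y) (ι : S →* E) (D : Set (K →L[ℂ] K))
      (Φ : C(Y, ℂ) →⋆ₐ[ℂ] (K →L[ℂ] K)), CULeg C.s.π C.t.π W D ι Φ ∧ NS G Y

variable {E : Type} [Group E] [TopologicalSpace E] [IsTopologicalGroup E] [LocallyCompactSpace E]
  [SecondCountableTopology E] [T2Space E] [MeasurableSpace E] [BorelSpace E]
  {Λ : Subgroup E} [DiscreteTopology Λ] [MeasurableSpace (E ⧸ Λ)] [BorelSpace (E ⧸ Λ)]
  {ν : Measure (E ⧸ Λ)} [IsProbabilityMeasure ν] [Countable Λ]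
  (hν : ∀ g : E, ν.map (fun x => g • x) = ν)
  {ℋ : Type} [NormedAddCommGroup ℋ] [InnerProductSpace ℂ ℋ] [CompleteSpace ℋ]
  {V : Λ →* (ℋ →L[ℂ] ℋ)} {μ : Measure E} [μ.IsHaarMeasure]

section one

variable {G : Type} [Group G] [TopologicalSpace G] [IsTopologicalGroup G] [LocallyCompactSpace G]
  [SecondCountableTopology G] [T2Space G] [MeasurableSpace G] [BorelSpace G]
  {Γ : Subgroup G} [DiscreteTopology Γ] [MeasurableSpace (G ⧸ Γ)] [BorelSpace (G ⧸ Γ)]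
  {ν' : Measure (G ⧸ Γ)} [IsProbabilityMeasure ν'] [Countable Γ]
  (hν' : ∀ g : G, ν'.map (fun x => g • x) = ν') {μ' : Measure G} [μ'.IsHaarMeasure]
  {R : Γ →* (ℋ →L[ℂ] ℋ)} {sc : Set (ℋ →L[ℂ] ℋ)} {Q P : ℋ →L[ℂ] ℋ} {η ξ : ℋ} {κ : ℝ≥0}

include hν' in
theorem uleg_of_fib (hI : Inst) (h : Fib V R sc Q η P ξ κ) (l : HasLeg μ μ') :
    ∃ (S Y : Type) (_ : Group S) (_ : TopologicalSpace Y) (_ : CompactSpace Y) (_ : T2Space Y)
      (_ : MulAction Γ Y) (_ : ContinuousConstSMul Γ Y) (ι : S →* E) (D : Set _)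
      (Φ : C(Y, ℂ) →⋆ₐ[ℂ] _), ULeg (H34.Ind.pi (cdat ν hν) h.s.adj) (H34.Ind.lam (cdat ν hν) R)
        (Wset (cdat ν hν) sc) D ι Φ := by
  obtain ⟨C, e1, e2⟩ := hI hν hν' μ μ' h
  obtain ⟨S, Y, _, _, _, _, _, _, ι, D, Φ, h1, h2⟩ := l _ _ C
  haveI := h.sep
  haveI : Fact ((2 : ℝ≥0∞) ≠ ∞) := ⟨ENNReal.ofNat_ne_top⟩
  haveI : SecondCountableTopology (Lp ℋ 2 (cdat ν hν).μ) :=
    inferInstanceAs (SecondCountableTopology (Lp ℋ 2 ν))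
  obtain ⟨I, _, ⟨b⟩⟩ := H678.OV.exists_cb (Lp ℋ 2 (cdat ν hν).μ)
  have d : Dat hν' (H34.Ind.pi (cdat ν hν) h.s.adj) (H34.Ind.lam (cdat ν hν) R)
      (Wset (cdat ν hν) sc) C.s.π C.t.π (Wset (cdat ν' hν') (Wset (cdat ν hν) sc)) :=
    ⟨H34.Ind.adjoint_pi _ _, H34.Ind.adjoint_lam _ h.t.adj, H34.Ind.pi_lam _ _ h.comm,
      fun w hw => H34.Ind.adjoint_mem_Wset _ h.adj hw,
      fun w hw γ => (H34.Ind.lam_comm_Wset _ h.t.scR γ hw).symm, e1, e2,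
      fun T => ⟨fun hT => ⟨fun A hA => hT _ (Or.inl ⟨A, hA, rfl⟩),
        fun w hw => hT _ (Or.inr ⟨w, hw, rfl⟩)⟩, fun hT => by
          rintro _ (⟨A, hA, rfl⟩ | ⟨w, hw, rfl⟩)
          · exact hT.1 A hA
          · exact hT.2 w hw⟩, C.irr⟩
  obtain ⟨D₁, Φ₁, h3⟩ := d.uleg b h1 (h2.nf hν')
  exact ⟨S, Y, _, _, inferInstance, inferInstance, _, inferInstance, ι, D₁, Φ₁, h3⟩

end one

theorem wset_amp {D L Γ Q : Type} [Group D] [Group L] [Countable L] [Group Γ] [Group Q] [Fintype Q]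
    (d : CData D L) (R : Γ →* (ℋ →L[ℂ] ℋ)) : Wset d (ampW Q (Set.range R)) =
      Wset d (Set.range sg) ∪ Set.range (H34.Ind.lam d (ampH Q R)) := by
  ext T
  constructor
  · rintro (h | ⟨_, ⟨_, ⟨g, rfl⟩, rfl⟩ | h, rfl⟩)
    · exact Or.inl (Or.inl h)
    · exact Or.inr ⟨g, rfl⟩
    · exact Or.inl (Or.inr ⟨_, h, rfl⟩)
  · rintro ((h | ⟨_, h, rfl⟩) | ⟨g, rfl⟩)
    · exact Or.inl h
    · exact Or.inr ⟨_, Or.inr h, rfl⟩
    · exact Or.inr ⟨_, Or.inl ⟨_, ⟨g, rfl⟩, rfl⟩, rfl⟩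

variable {G₁ : Type} [Group G₁] [TopologicalSpace G₁] [IsTopologicalGroup G₁]
  [LocallyCompactSpace G₁] [SecondCountableTopology G₁] [T2Space G₁] [MeasurableSpace G₁]
  [BorelSpace G₁] {Γ₁ : Subgroup G₁} [DiscreteTopology Γ₁] [MeasurableSpace (G₁ ⧸ Γ₁)]
  [BorelSpace (G₁ ⧸ Γ₁)] {ν₁ : Measure (G₁ ⧸ Γ₁)} [IsProbabilityMeasure ν₁] [Countable Γ₁]
  (hν₁ : ∀ g : G₁, ν₁.map (fun x => g • x) = ν₁) {μ₁ : Measure G₁} [μ₁.IsHaarMeasure]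
  {G₂ : Type} [Group G₂] [TopologicalSpace G₂] [IsTopologicalGroup G₂]
  [LocallyCompactSpace G₂] [SecondCountableTopology G₂] [T2Space G₂] [MeasurableSpace G₂]
  [BorelSpace G₂] {Γ₂ : Subgroup G₂} [DiscreteTopology Γ₂] [MeasurableSpace (G₂ ⧸ Γ₂)]
  [BorelSpace (G₂ ⧸ Γ₂)] {ν₂ : Measure (G₂ ⧸ Γ₂)} [IsProbabilityMeasure ν₂] [Countable Γ₂]
  (hν₂ : ∀ g : G₂, ν₂.map (fun x => g • x) = ν₂) {μ₂ : Measure G₂} [μ₂.IsHaarMeasure]
  {R₁ : Γ₁ →* (ℋ →L[ℂ] ℋ)} {R₂ : Γ₂ →* (ℋ →L[ℂ] ℋ)}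

include hν hν₁ hν₂ in
/-- **The end**, three groups. -/
theorem over_of_hasLeg (hI : Inst) (h : Sys3 V R₁ R₂) (l₁ : HasLeg μ μ₁) (l₂ : HasLeg μ μ₂) :
    Over3 V R₁ R₂ := by
  obtain ⟨I, _, ⟨b⟩⟩ := h.tri.basis
  haveI := H34.separable_of_basis b
  haveI : SecondCountableTopology ℋ := UniformSpace.secondCountable_of_separable _
  obtain ⟨Q, _, _, ⟨_, _, _, _, _, f₁⟩, _, _, _, _, _, f₂⟩ := h.exists_fib
  obtain ⟨S₁, Y₁, _, _, _, _, _, _, ι₁, D₁, Φ₁, u₁⟩ := uleg_of_fib hν hν₁ hI f₁ l₁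
  obtain ⟨S₂, Y₂, _, _, _, _, _, _, ι₂, D₂, Φ₂, u₂⟩ := uleg_of_fib hν hν₂ hI f₂ l₂
  rw [wset_amp] at u₁ u₂
  have s : ∀ {A : Type} [Group A] (R : A →* (ℋ →L[ℂ] ℋ)), ∀ a ∈ Set.range (sg (Q := Q) (K := ℋ)),
      ∀ v, a * ampH Q R v = ampH Q R v * a := by
    rintro A _ R _ ⟨f, rfl⟩ v
    exact (amp_sg _ f).symm
  exact (over_of_ulegs hν (h.tri.amplify (Q := Q)) (fun S hS => Or.inl ⟨S, hS, rfl⟩)
    (fun g x hx => H34.Ind.conj_mem_Wset _ _ (s V) g hx)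
    (fun γ w hw => H34.Ind.lam_comm_Wset _ (s R₁) γ hw)
    (fun γ w hw => H34.Ind.lam_comm_Wset _ (s R₂) γ hw) u₁ u₂).unamp

omit hν in
/-- **The core statement** of a group all of whose self-couplings have a leg. -/
theorem overStmt_of_hasLeg (hI : Inst) (l : HasLeg μ μ) : H678.OV.OverStmt E := by
  intro Γ hΓ hicc ℋ _ _ _ V R₁ R₂ hy
  rcases finite_or_infinite Γ with hf | hf
  · obtain ⟨u, hu⟩ := (tri3_of_sys hy).ne
    refine ⟨1, fun _ => u, ‖u‖ ^ 2, by positivity, fun g => ⟨0, 0, 1, 1, ?_⟩⟩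
    obtain rfl : g = 1 := by
      by_contra hg
      exact hicc g hg (Set.toFinite _)
    rw [map_one, map_one, map_one]
    change _ ≤ ‖⟪u, u⟫_ℂ‖
    rw [inner_self_eq_norm_sq_to_K, norm_pow, RCLike.norm_ofReal, abs_norm]
  · haveI hd : DiscreteTopology Γ := hΓ.disc
    letI : MeasurableSpace (E ⧸ Γ) := borel _
    haveI : BorelSpace (E ⧸ Γ) := ⟨rfl⟩
    haveI hc : Countable Γ := H515.countable_lat Γ
    obtain ⟨ν, hP', hν⟩ := H515.IsLattice.exists_prob (Λ := Γ) ⟨hΓ.disc, hΓ.covol⟩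
    exact over_of_hasLeg hν hν hν hI (sys3_of_sys hicc hy) l l

end Vale.Agent.P092EN
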