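import Vale.Agent.P092EN.Cnt
import Vale.Agent.P092.H264.AmpA

/-!
P092, soft end (helper22), in the fibre: joint eigenvectors of an almost everywhere commuting
family, finite stabilisers, overlap.
-/

set_option linter.all false

open scoped InnerProductSpace
open Filter Topology ContinuousLinearMap MeasureTheory

namespace Vale.Agent.P092EN

variable {ℋ : Type} [NormedAddCommGroup ℋ] [InnerProductSpace ℂ ℋ] [CompleteSpace ℋ]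
  {S : Type} [MeasurableSpace S] {ν : Measure S} {I : Type} {A : I → S → (ℋ →L[ℂ] ℋ)}

/-- `u` and `w` are joint eigenvectors with the same eigenvalues -/
def Ev (ν : Measure S) (A : I → S → (ℋ →L[ℂ] ℋ)) (u w : ℋ) : Prop :=
  ∀ᵐ s ∂ν, ∀ i, ∃ c : ℂ, A i s u = c • u ∧ A i s w = c • w

/-- `U` permutes the family -/
def Sym (ν : Measure S) (A : I → S → (ℋ →L[ℂ] ℋ)) (U : ℋ →L[ℂ] ℋ) : Prop :=
  ∃ (σ : I → I) (φ : S → S), Measure.QuasiMeasurePreserving φ ν ν ∧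
    ∀ᵐ s ∂ν, ∀ i, A i s * U = U * A (σ i) (φ s)

variable {u w x : ℋ} {U : ℋ →L[ℂ] ℋ}

theorem Ev.symm (h : Ev ν A u w) : Ev ν A w u :=
  h.mono fun _ hs i => (hs i).imp fun _ hc => hc.symm

theorem Ev.left (h : Ev ν A u w) : Ev ν A u u :=
  h.mono fun _ hs i => (hs i).imp fun _ hc => ⟨hc.1, hc.1⟩

theorem Ev.trans (h : Ev ν A u w) (h' : Ev ν A w x) (hw : w ≠ 0) : Ev ν A u x := by
  filter_upwards [h, h'] with s h1 h2 i
  obtain ⟨c, c1, c2⟩ := h1 i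
  obtain ⟨d, d1, d2⟩ := h2 i
  have e : c = d := smul_left_injective ℂ hw (c2.symm.trans d1)
  exact ⟨c, c1, e ▸ d2⟩

theorem Ev.of_inner (sa : ∀ᵐ s ∂ν, ∀ i, adjoint (A i s) = A i s) (hu : Ev ν A u u)
    (hw : Ev ν A w w) (h : ⟪u, w⟫_ℂ ≠ 0) : Ev ν A u w := by
  filter_upwards [sa, hu, hw] with s h0 h1 h2 i
  obtain ⟨c, c1, -⟩ := h1 i
  obtain ⟨d, d1, -⟩ := h2 i
  have hi : ∀ a b, ⟪A i s a, b⟫_ℂ = ⟪a, A i s b⟫_ℂ := fun a b => by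
    rw [← adjoint_inner_right, h0]
  have hu0 : ⟪u, u⟫_ℂ ≠ 0 := fun e => h (by rw [inner_self_eq_zero.1 e, inner_zero_left])
  have e1 := hi u u
  rw [c1, inner_smul_left, inner_smul_right] at e1
  have e2 := hi u w
  rw [c1, d1, inner_smul_left, inner_smul_right, mul_right_cancel₀ hu0 e1] at e2
  exact ⟨c, c1, by rw [mul_right_cancel₀ h e2]; exact d1⟩

theorem Ev.map (hU : Sym ν A U) (h : Ev ν A u w) : Ev ν A (U u) (U w) := by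
  obtain ⟨σ, φ, hφ, h1⟩ := hU
  filter_upwards [h1, hφ.ae h] with s h2 h3 i
  obtain ⟨c, c1, c2⟩ := h3 (σ i)
  have e : ∀ a, A i s (U a) = U (A (σ i) (φ s) a) := fun a =>
    congrArg (fun T : ℋ →L[ℂ] ℋ => T a) (h2 i)
  exact ⟨c, by rw [e, c1, map_smul], by rw [e, c2, map_smul]⟩

theorem Ev.comm (hU : ∀ᵐ s ∂ν, ∀ i, A i s * U = U * A i s) (h : Ev ν A u u) : Ev ν A u (U u) := by
  filter_upwards [hU, h] with s h2 h3 i
  obtain ⟨c, c1, -⟩ := h3 i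
  have e : A i s (U u) = U (A i s u) := congrArg (fun T : ℋ →L[ℂ] ℋ => T u) (h2 i)
  exact ⟨c, c1, by rw [e, c1, map_smul]⟩

theorem sym_of_comm (hU : ∀ᵐ s ∂ν, ∀ i, A i s * U = U * A i s) : Sym ν A U :=
  ⟨id, id, Measure.QuasiMeasurePreserving.id ν, hU⟩

/-- the atom of `u` -/
def atom (ν : Measure S) (A : I → S → (ℋ →L[ℂ] ℋ)) (hu : u ≠ 0) (h : Ev ν A u u) :
    Submodule ℂ ℋ where
  carrier := {w | Ev ν A u w}
  add_mem' := fun {a b} (ha : Ev ν A u a) (hb : Ev ν A u b) => by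
    change Ev ν A u (a + b)
    filter_upwards [ha, hb] with s h1 h2 i
    obtain ⟨c, c1, c2⟩ := h1 i
    obtain ⟨d, d1, d2⟩ := h2 i
    have e : c = d := smul_left_injective ℂ hu (c1.symm.trans d1)
    exact ⟨c, c1, by rw [map_add, c2, d2, e, smul_add]⟩
  zero_mem' := h.mono fun _ hs i => (hs i).imp fun _ hc => ⟨hc.1, by rw [map_zero, smul_zero]⟩
  smul_mem' := fun z a (ha : Ev ν A u a) => Eventually.mono ha fun _ hs i => (hs i).imp fun _ hc =>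
    ⟨hc.1, by rw [map_smul, hc.2, smul_comm]⟩

theorem atom_closed (hu : u ≠ 0) (h : Ev ν A u u) : IsClosed (atom ν A hu h : Set ℋ) := by
  refine IsSeqClosed.isClosed fun a w ha hw => ?_
  have h1 : ∀ᵐ s ∂ν, ∀ n, ∀ i, ∃ c : ℂ, A i s u = c • u ∧ A i s (a n) = c • a n :=
    ae_all_iff.2 fun n => (ha n : Ev ν A u (a n))
  change Ev ν A u w
  filter_upwards [h1] with s hs i
  obtain ⟨c, c1, -⟩ := hs 0 i
  refine ⟨c, c1, ?_⟩
  have h2 : ∀ n, A i s (a n) = c • a n := fun n => by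
    obtain ⟨d, d1, d2⟩ := hs n i
    rw [smul_left_injective ℂ hu (c1.symm.trans d1)]
    exact d2
  exact tendsto_nhds_unique (((A i s).continuous.tendsto w).comp hw)
    ((hw.const_smul c).congr fun n => (h2 n).symm)

/-- a joint eigenvector in an invariant space of finite dimension -/
theorem exists_ev_fin (cm : ∀ᵐ s ∂ν, ∀ᵐ s' ∂ν, ∀ i j, A i s * A j s' = A j s' * A i s) :
    ∀ (n : ℕ) (M : Submodule ℂ ℋ), FiniteDimensional ℂ M → Module.finrank ℂ M = n → M ≠ ⊥ →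
      (∀ᵐ s ∂ν, ∀ i, ∀ m ∈ M, A i s m ∈ M) → ∃ u, u ≠ 0 ∧ Ev ν A u u := by
  intro n
  induction n using Nat.strong_induction_on with
  | _ n ih =>
    intro M hM hn h0 hinv
    by_cases hsc : ∀ᵐ s ∂ν, ∀ i, ∃ c : ℂ, ∀ m ∈ M, A i s m = c • m
    · obtain ⟨u, hu, hu0⟩ := Submodule.exists_mem_ne_zero_of_ne_bot h0
      exact ⟨u, hu0, hsc.mono fun s hs i => (hs i).imp fun c hc => ⟨hc u hu, hc u hu⟩⟩
    · obtain ⟨s, h1, h2, h3⟩ := ((not_eventually.1 hsc).and_eventually (hinv.and cm)).exists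
      push Not at h1
      obtain ⟨i, hi⟩ := h1
      haveI : Nontrivial M := Submodule.nontrivial_iff_ne_bot.2 h0
      obtain ⟨c, hc⟩ := Module.End.exists_eigenvalue ((A i s : ℋ →ₗ[ℂ] ℋ).restrict (h2 i))
      obtain ⟨v, hv⟩ := hc.exists_hasEigenvector
      have hv1 : A i s v = c • (v : ℋ) := congrArg Subtype.val hv.apply_eq_smul
      obtain ⟨M', hM'⟩ : ∃ M' : Submodule ℂ ℋ,
          M' = M ⊓ Module.End.eigenspace (A i s : ℋ →ₗ[ℂ] ℋ) c := ⟨_, rfl⟩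
      have hmem : ∀ m, m ∈ M' ↔ m ∈ M ∧ A i s m = c • m := fun m => by
        rw [hM', Submodule.mem_inf, Module.End.mem_eigenspace_iff]
        rfl
      have hle : M' ≤ M := fun m hm => ((hmem m).1 hm).1
      have hlt : M' < M := lt_of_le_of_ne hle fun e => by
        obtain ⟨m, hm, hm2⟩ := hi c
        exact hm2 ((hmem m).1 (e ▸ hm)).2
      refine ih _ (hn ▸ Submodule.finrank_lt_finrank_of_lt hlt) M'
        (Submodule.finiteDimensional_of_le hle) rfl (fun e => ?_) ?_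
      · have h4 : (v : ℋ) ∈ M' := (hmem _).2 ⟨v.2, hv1⟩
        rw [e, Submodule.mem_bot] at h4
        exact hv.2 (Subtype.ext h4)
      · filter_upwards [hinv, h3] with s' h4 h5 j m hm
        obtain ⟨m1, m2⟩ := (hmem m).1 hm
        refine (hmem _).2 ⟨h4 j m m1, ?_⟩
        have e : A i s (A j s' m) = A j s' (A i s m) :=
          congrArg (fun T : ℋ →L[ℂ] ℋ => T m) (h5 i j)
        rw [e, m2, map_smul]

theorem isSym {T : ℋ →L[ℂ] ℋ} (hT : adjoint T = T) : (T : ℋ →ₗ[ℂ] ℋ).IsSymmetric := by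
  intro u v
  change ⟪T u, v⟫_ℂ = ⟪u, T v⟫_ℂ
  rw [← adjoint_inner_right, hT]

/-- a joint eigenvector, from a compact operator in the commutant -/
theorem exists_ev (cm : ∀ᵐ s ∂ν, ∀ᵐ s' ∂ν, ∀ i j, A i s * A j s' = A j s' * A i s)
    {T : ℋ →L[ℂ] ℋ} (h0 : T ≠ 0) (hT : adjoint T = T) (hc : IsCompactOperator T)
    (hA : ∀ᵐ s ∂ν, ∀ i, T * A i s = A i s * T) : ∃ u, ‖u‖ = 1 ∧ Ev ν A u u := by
  obtain ⟨μ, hμ0, hμ⟩ : ∃ μ : ℂ, μ ≠ 0 ∧ Module.End.HasEigenvalue (T : Module.End ℂ ℋ) μ := by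
    by_contra hn
    push Not at hn
    refine h0 ((ContinuousLinearMap.eq_zero_of_forall_hasEigenvalue_eq_zero hc
      (isSym hT)).1 fun z hz => ?_)
    by_contra hz0
    exact hn z hz0 hz
  obtain ⟨u, hu0, hu⟩ := exists_ev_fin cm _ (Module.End.eigenspace (T : ℋ →ₗ[ℂ] ℋ) μ)
    (ContinuousLinearMap.finite_dimensional_eigenspace hc μ hμ0) rfl hμ (by
      filter_upwards [hA] with s hs i m hm
      rw [Module.End.mem_eigenspace_iff] at hm ⊢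
      have e : T (A i s m) = A i s (T m) := congrArg (fun B : ℋ →L[ℂ] ℋ => B m) (hs i)
      have hm' : T m = μ • m := hm
      change T (A i s m) = _
      rw [e, hm', map_smul])
  have hn : ‖u‖ ≠ 0 := norm_ne_zero_iff.2 hu0
  refine ⟨((‖u‖⁻¹ : ℝ) : ℂ) • u, ?_, ?_⟩
  · rw [norm_smul, Complex.norm_real, norm_inv, norm_norm, inv_mul_cancel₀ hn]
  · exact Ev.left (Ev.symm ((atom ν A hu0 hu).smul_mem _ hu))

section grp

variable {Λ Γ₁ Γ₂ : Type} [Group Λ] [Group Γ₁] [Group Γ₂]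

/-- the representation of the product -/
noncomputable def prd (R₁ : Γ₁ →* (ℋ →L[ℂ] ℋ)) (R₂ : Γ₂ →* (ℋ →L[ℂ] ℋ))
    (h : ∀ g k, R₁ g * R₂ k = R₂ k * R₁ g) : Γ₁ × Γ₂ →* (ℋ →L[ℂ] ℋ) :=
  MonoidHom.noncommCoprod R₁ R₂ h

variable {V : Λ →* (ℋ →L[ℂ] ℋ)} {R₁ : Γ₁ →* (ℋ →L[ℂ] ℋ)} {R₂ : Γ₂ →* (ℋ →L[ℂ] ℋ)}

theorem prd_apply (h : ∀ g k, R₁ g * R₂ k = R₂ k * R₁ g) (x : Γ₁ × Γ₂) :
    prd R₁ R₂ h x = R₁ x.1 * R₂ x.2 := rfl

theorem prd_adj (h : ∀ g k, R₁ g * R₂ k = R₂ k * R₁ g) (h₁ : ∀ g, adjoint (R₁ g) = R₁ g⁻¹)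
    (h₂ : ∀ g, adjoint (R₂ g) = R₂ g⁻¹) (x : Γ₁ × Γ₂) :
    adjoint (prd R₁ R₂ h x) = prd R₁ R₂ h x⁻¹ := by
  rw [prd_apply, prd_apply, ← star_eq_adjoint, star_mul, star_eq_adjoint, star_eq_adjoint, h₁, h₂,
    ← h]
  rfl

theorem ne_ap {G : Type} [Group G] (ρ : G →* (ℋ →L[ℂ] ℋ)) (g : G) (hu : u ≠ 0) : ρ g u ≠ 0 :=
  fun e => hu (by rw [← inv_ap ρ g u, e, map_zero])

/-- **The stabiliser of the eigenvalues is finite.** -/
theorem stab_finite [(ae ν).NeBot] (adjV : ∀ g, adjoint (V g) = V g⁻¹)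
    (adj₁ : ∀ g, adjoint (R₁ g) = R₁ g⁻¹) (adj₂ : ∀ g, adjoint (R₂ g) = R₂ g⁻¹)
    (c₁ : ∀ g h, V g * R₁ h = R₁ h * V g) (c₂ : ∀ g h, V g * R₂ h = R₂ h * V g)
    (c₁₂ : ∀ g h, R₁ g * R₂ h = R₂ h * R₁ g) (fr : Fr V R₂)
    (sa : ∀ᵐ s ∂ν, ∀ i, adjoint (A i s) = A i s) (sV : ∀ v, Sym ν A (V v))
    (s₁ : ∀ γ, Sym ν A (R₁ γ)) (s₂ : ∀ δ, ∀ᵐ s ∂ν, ∀ i, A i s * R₂ δ = R₂ δ * A i s)
    (mov : ∀ L : Subgroup Γ₁, (Subgroup.normalizer (L : Set Γ₁)).FiniteIndex → Infinite L →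
      ∃ (n : ℕ) (l : Fin n → Γ₁) (ix : Fin n → I), (∀ j, l j ∈ L) ∧ ∀ᵐ s ∂ν,
        ∑ j, A (ix j) s = 1 ∧ ∀ j, A (ix j) s * (R₁ (l j) * A (ix j) s * R₁ (l j)⁻¹) = 0)
    (hu : u ≠ 0) (h : Ev ν A u u) : {γ | Ev ν A u (R₁ γ u)}.Finite := by
  let L : Subgroup Γ₁ :=
    { carrier := {γ | Ev ν A u (R₁ γ u)}
      one_mem' := by
        change Ev ν A u (R₁ 1 u)
        rw [map_one]
        exact h
      mul_mem' := fun {a b} ha hb => by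
        change Ev ν A u (R₁ (a * b) u)
        rw [mul_ap]
        exact Ev.trans ha (Ev.map (s₁ a) hb) (ne_ap R₁ a hu)
      inv_mem' := fun {a} ha => by
        have h1 := Ev.map (s₁ a⁻¹) ha
        rw [inv_ap] at h1
        exact h1.symm }
  have hL : ∀ γ, γ ∈ L ↔ Ev ν A u (R₁ γ u) := fun γ => Iff.rfl
  have hc₁ : ∀ g k a, V g (R₁ k a) = R₁ k (V g a) := fun g k a =>
    congrArg (fun T : ℋ →L[ℂ] ℋ => T a) (c₁ g k)
  have tr : ∀ {a b : ℋ} (l : Γ₁), a ≠ 0 → Ev ν A a b → Ev ν A a (R₁ l a) → Ev ν A b (R₁ l b) :=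
    fun l ha h1 h2 => (h1.symm.trans h2 ha).trans (Ev.map (s₁ l) h1) (ne_ap R₁ l ha)
  have hN : ∀ g v, Ev ν A (R₁ g u) (V v u) → g ∈ Subgroup.normalizer (L : Set Γ₁) := by
    intro g v hg
    rw [Subgroup.mem_set_normalizer_iff'']
    intro l
    change Ev ν A u (R₁ l u) ↔ Ev ν A u (R₁ (g⁻¹ * l * g) u)
    constructor
    · intro h1
      have h2 := Ev.map (sV v) h1
      rw [hc₁] at h2
      have h3 := Ev.map (s₁ g⁻¹) (tr l (ne_ap V v hu) hg.symm h2)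
      rwa [inv_ap, ← mul_ap, ← mul_ap] at h3
    · intro h1
      have h2 := Ev.map (s₁ g) h1
      rw [mul_ap, mul_ap, ap_inv] at h2
      have h3 := Ev.map (sV v⁻¹) (tr l (ne_ap R₁ g hu) hg h2)
      rwa [← hc₁, inv_ap, inv_ap] at h3
  obtain ⟨ι, _, ξ, hξ⟩ := fr
  obtain ⟨L₀, hL₀⟩ := cnt (ρ := prd V R₂ c₂) (U := R₁) (ξ := ξ) (prd_adj c₂ adjV adj₂) adj₁
    (fun x l => by rw [prd_apply, mul_assoc, ← c₁₂, ← mul_assoc, c₁, mul_assoc]) hξ hu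
  have hfi : (Subgroup.normalizer (L : Set Γ₁)).FiniteIndex := by
    haveI : Finite (Γ₁ ⧸ Subgroup.normalizer (L : Set Γ₁)) := by
      refine Finite.of_surjective
        (fun l : L₀ => ((l : Γ₁) : Γ₁ ⧸ Subgroup.normalizer (L : Set Γ₁))) fun q => ?_
      obtain ⟨γ, rfl⟩ := QuotientGroup.mk_surjective q
      obtain ⟨l₀, h1, x, h2⟩ := hL₀ γ
      refine ⟨⟨l₀, h1⟩, QuotientGroup.eq.2 (hN _ x.1 ?_)⟩
      have h3 : Ev ν A (R₁ l₀ u) (R₂ x.2 (R₁ l₀ u)) := Ev.comm (s₂ x.2) (Ev.map (s₁ l₀) h)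
      have h4 := Ev.map (sV x.1) h3
      have h5 : Ev ν A (R₁ γ u) (V x.1 (R₂ x.2 (R₁ l₀ u))) :=
        Ev.of_inner sa (Ev.map (s₁ γ) h) h4.symm.left h2
      have h6 := Ev.map (s₁ l₀⁻¹) (h5.trans h4.symm (ne_ap V _ (ne_ap R₂ _ (ne_ap R₁ _ hu))))
      rwa [← mul_ap, hc₁, inv_ap] at h6
    exact Subgroup.finiteIndex_of_finite_quotient
  by_contra hinf
  obtain ⟨n, l, ix, h1, h2⟩ := mov L hfi (Set.infinite_coe_iff.2 hinf)
  have h3 : ∀ᵐ s ∂ν, ∀ j, ∀ i, ∃ c : ℂ, A i s u = c • u ∧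
      A i s (R₁ (l j)⁻¹ u) = c • R₁ (l j)⁻¹ u :=
    ae_all_iff.2 fun j => (hL _).1 (L.inv_mem (h1 j))
  obtain ⟨s, ⟨h4, h5⟩, h6⟩ := (h2.and h3).exists
  have h7 : ∀ j, A (ix j) s u = 0 := fun j => by
    obtain ⟨c, c1, c2⟩ := h6 j (ix j)
    have e : A (ix j) s (R₁ (l j) (A (ix j) s (R₁ (l j)⁻¹ u))) = 0 :=
      congrArg (fun T : ℋ →L[ℂ] ℋ => T u) (h5 j)
    rw [c2, map_smul, ap_inv, map_smul, c1, smul_smul, smul_eq_zero, mul_self_eq_zero] at e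
    rw [c1, e.resolve_right hu, zero_smul]
  have h8 := congrArg (fun T : ℋ →L[ℂ] ℋ => T u) h4
  simp only [ContinuousLinearMap.sum_apply, h7, Finset.sum_const_zero,
    ContinuousLinearMap.one_apply] at h8
  exact hu h8.symm

/-- an atom with finite stabiliser gives overlap -/
theorem over_of_atom (h : Tri3 V R₁ R₂) (sa : ∀ᵐ s ∂ν, ∀ i, adjoint (A i s) = A i s)
    (sV : ∀ v, Sym ν A (V v)) (s₁ : ∀ γ, Sym ν A (R₁ γ)) (s₂ : ∀ δ, Sym ν A (R₂ δ))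
    (hu1 : ‖u‖ = 1) (hu : Ev ν A u u)
    (hfin : {x : Γ₁ × Γ₂ | Ev ν A u (R₁ x.1 (R₂ x.2 u))}.Finite) : Over3 V R₁ R₂ := by
  classical
  have hu0 : u ≠ 0 := fun e => by rw [e, norm_zero] at hu1; exact zero_ne_one hu1
  obtain ⟨ι, _, ξ, hξ⟩ := h.f₁₂
  obtain ⟨ρ, hρ⟩ : ∃ ρ, ρ = prd R₁ R₂ h.comm₁₂ := ⟨_, rfl⟩
  have hρa : ∀ x, adjoint (ρ x) = ρ x⁻¹ := by rw [hρ]; exact prd_adj _ h.adj₁ h.adj₂
  have hρe : ∀ x a, ρ x a = R₁ x.1 (R₂ x.2 a) := fun x a => by rw [hρ]; rfl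
  have hξ' : ∀ η, HasSum (fun p : ι × Γ₁ × Γ₂ => ‖⟪ρ p.2 (ξ p.1), η⟫_ℂ‖ ^ 2) (‖η‖ ^ 2) :=
    fun η => by simp only [hρe]; exact hξ η
  have hρs : ∀ x {a b : ℋ}, Ev ν A a b → Ev ν A (ρ x a) (ρ x b) := fun x a b hab => by
    rw [hρe, hρe]
    exact Ev.map (s₁ _) (Ev.map (s₂ _) hab)
  obtain ⟨Z, hZ⟩ : ∃ Z, Z = atom ν A hu0 hu := ⟨_, rfl⟩
  have hmem : ∀ w, w ∈ Z ↔ Ev ν A u w := fun w => by rw [hZ]; rfl
  haveI : CompleteSpace Z := by rw [hZ]; exact (atom_closed hu0 hu).completeSpace_coe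
  have hPa : adjoint Z.starProjection = Z.starProjection := by
    rw [← star_eq_adjoint]
    exact (isSelfAdjoint_starProjection _).star_eq
  have hPc : IsCompactOperator Z.starProjection := by
    refine compact_of_prs hξ' hPa (C := ∑ i, (hfin.toFinset.card * ‖Z.starProjection‖ ^ 2) *
      ‖ξ i‖ ^ 2) (sum_prod_le _ (fun p => sq_nonneg _) _ fun i G =>
        sum_le_of_fin hρa hPa hfin.toFinset (fun x hx => ?_) G (ξ i))
    refine ContinuousLinearMap.ext fun a => ?_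
    change Z.starProjection (ρ x (Z.starProjection (ρ x⁻¹ a))) = 0
    have h1 := Submodule.starProjection_apply_mem Z (ρ x⁻¹ a)
    generalize Z.starProjection (ρ x⁻¹ a) = w at h1
    rw [Submodule.starProjection_apply_eq_zero_iff, Submodule.mem_orthogonal]
    intro w' hw'
    by_contra hn
    have h2 := (hmem w).1 h1
    have h3 := (hmem w').1 hw'
    have h4 := Ev.of_inner sa h3.symm.left (hρs x h2.symm.left) hn
    have h5 : w' ≠ 0 := fun e => hn (by rw [e, inner_zero_left])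
    have h6 : ρ x w ≠ 0 := fun e => hn (by rw [e, inner_zero_right])
    refine hx (hfin.mem_toFinset.2 ?_)
    change Ev ν A u (R₁ x.1 (R₂ x.2 u))
    rw [← hρe]
    exact (h3.trans h4 h5).trans (hρs x h2.symm) h6
  haveI hZf : FiniteDimensional ℂ Z := by
    haveI := ContinuousLinearMap.finite_dimensional_eigenspace hPc 1 one_ne_zero
    refine Submodule.finiteDimensional_of_le
      (S₂ := Module.End.eigenspace (Z.starProjection : ℋ →ₗ[ℂ] ℋ) 1) fun w hw => ?_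
    rw [Module.End.mem_eigenspace_iff, one_smul]
    exact Submodule.starProjection_eq_self_iff.2 hw
  have hcV : ∀ x l, ρ x * V l = V l * ρ x := fun x l => by
    rw [hρ, prd_apply, mul_assoc, ← h.comm₂, ← mul_assoc, ← h.comm₁, mul_assoc]
  obtain ⟨L₀, hL₀⟩ := cnt (ρ := ρ) (U := V) (ξ := ξ) hρa h.adjV hcV hξ' hu0
  obtain ⟨N, hN⟩ : ∃ N : Submodule ℂ ℋ,
      N = Z ⊔ Submodule.span ℂ ((L₀.image fun v => V v u : Finset ℋ) : Set ℋ) := ⟨_, rfl⟩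
  haveI : FiniteDimensional ℂ N := by rw [hN]; infer_instance
  refine ⟨Module.finrank ℂ N, fun i => (stdOrthonormalBasis ℂ N i : N),
    1 / ((Module.finrank ℂ N : ℝ) + 1) ^ 2, by positivity, fun v => ?_⟩
  obtain ⟨v₀, h1, x, h2⟩ := hL₀ v
  have h3 := Ev.map (sV v⁻¹) (Ev.of_inner sa (Ev.map (sV v) hu) (hρs x (Ev.map (sV v₀) hu)) h2)
  rw [inv_ap] at h3
  have m1 : V v⁻¹ (ρ x (V v₀ u)) ∈ N := by
    rw [hN]
    exact Submodule.mem_sup_left ((hmem _).2 h3)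
  have m2 : V v₀ u ∈ N := by
    rw [hN]
    exact Submodule.mem_sup_right (Submodule.subset_span
      (Finset.mem_coe.2 (Finset.mem_image_of_mem _ h1)))
  obtain ⟨k, l, hkl⟩ := P092.H264.Amp.overlap_fin N (U := V v) (W := ρ x) m1 m2 (ap_inv V v _)
    (by rw [nrm h.adjV, nrm hρa, nrm h.adjV, hu1]) (by rw [nrm h.adjV, hu1])
    (by rw [ap_inv, nrm hρa, nrm h.adjV, hu1])
  exact ⟨k, l, x.1, x.2, by rwa [hρe] at hkl⟩

/-- a partition of unity of the family is moved by every infinite almost normal subgroup -/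
def MovF (ν : Measure S) (A : I → S → (ℋ →L[ℂ] ℋ)) (R : Γ₁ →* (ℋ →L[ℂ] ℋ)) : Prop :=
  ∀ L : Subgroup Γ₁, (Subgroup.normalizer (L : Set Γ₁)).FiniteIndex → Infinite L →
    ∃ (n : ℕ) (l : Fin n → Γ₁) (ix : Fin n → I), (∀ j, l j ∈ L) ∧ ∀ᵐ s ∂ν,
      ∑ j, A (ix j) s = 1 ∧ ∀ j, A (ix j) s * (R (l j) * A (ix j) s * R (l j)⁻¹) = 0

/-- **The soft end in the fibre.** -/
theorem over_abs [(ae ν).NeBot] (h : Tri3 V R₁ R₂) {I₁ I₂ : Type}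
    {A : I₁ ⊕ I₂ → S → (ℋ →L[ℂ] ℋ)} (sa : ∀ᵐ s ∂ν, ∀ i, adjoint (A i s) = A i s)
    (cm : ∀ᵐ s ∂ν, ∀ᵐ s' ∂ν, ∀ i j, A i s * A j s' = A j s' * A i s)
    {T : ℋ →L[ℂ] ℋ} (h0 : T ≠ 0) (hT : adjoint T = T) (hc : IsCompactOperator T)
    (hA : ∀ᵐ s ∂ν, ∀ i, T * A i s = A i s * T)
    (hV : ∀ v, ∃ φ : S → S, Measure.QuasiMeasurePreserving φ ν ν ∧
      ∀ᵐ s ∂ν, ∀ i, A i s * V v = V v * A i (φ s))
    (h₁₁ : ∀ γ, ∃ σ : I₁ → I₁, ∀ᵐ s ∂ν, ∀ i, A (.inl i) s * R₁ γ = R₁ γ * A (.inl (σ i)) s)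
    (h₂₂ : ∀ γ, ∃ σ : I₂ → I₂, ∀ᵐ s ∂ν, ∀ i, A (.inr i) s * R₂ γ = R₂ γ * A (.inr (σ i)) s)
    (h₁₂ : ∀ γ, ∀ᵐ s ∂ν, ∀ i, A (.inl i) s * R₂ γ = R₂ γ * A (.inl i) s)
    (h₂₁ : ∀ γ, ∀ᵐ s ∂ν, ∀ i, A (.inr i) s * R₁ γ = R₁ γ * A (.inr i) s)
    (m₁ : MovF ν (fun i => A (.inl i)) R₁) (m₂ : MovF ν (fun i => A (.inr i)) R₂) :
    Over3 V R₁ R₂ := by
  obtain ⟨u, hu1, hu⟩ := exists_ev cm h0 hT hc hA
  have hu0 : u ≠ 0 := fun e => by rw [e, norm_zero] at hu1; exact zero_ne_one hu1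
  have q := Measure.QuasiMeasurePreserving.id ν
  have l1 : ∀ {a b : ℋ}, Ev ν A a b → Ev ν (fun i => A (.inl i)) a b := fun hab =>
    Eventually.mono hab fun _ hs i => hs _
  have l2 : ∀ {a b : ℋ}, Ev ν A a b → Ev ν (fun i => A (.inr i)) a b := fun hab =>
    Eventually.mono hab fun _ hs i => hs _
  have s₁₁ : ∀ γ, Sym ν (fun i => A (.inl i)) (R₁ γ) := fun γ =>
    (h₁₁ γ).elim fun σ hσ => ⟨σ, id, q, hσ⟩
  have s₂₂ : ∀ γ, Sym ν (fun i => A (.inr i)) (R₂ γ) := fun γ =>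
    (h₂₂ γ).elim fun σ hσ => ⟨σ, id, q, hσ⟩
  have f₁ := stab_finite (A := fun i => A (.inl i)) h.adjV h.adj₁ h.adj₂ h.comm₁ h.comm₂ h.comm₁₂
    h.f₀₂ (sa.mono fun _ hs i => hs _)
    (fun v => (hV v).elim fun φ hφ => ⟨id, φ, hφ.1, hφ.2.mono fun _ hs i => hs _⟩) s₁₁ h₁₂ m₁
    hu0 (l1 hu)
  have f₂ := stab_finite (A := fun i => A (.inr i)) h.adjV h.adj₂ h.adj₁ h.comm₂ h.comm₁
    (fun a b => (h.comm₁₂ b a).symm) h.f₀₁ (sa.mono fun _ hs i => hs _)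
    (fun v => (hV v).elim fun φ hφ => ⟨id, φ, hφ.1, hφ.2.mono fun _ hs i => hs _⟩) s₂₂ h₂₁ m₂
    hu0 (l2 hu)
  refine over_of_atom h sa (fun v => (hV v).elim fun φ hφ => ⟨id, φ, hφ.1, hφ.2⟩)
    (fun γ => (h₁₁ γ).elim fun σ hσ => ⟨Sum.map σ id, id, q, ?_⟩)
    (fun γ => (h₂₂ γ).elim fun σ hσ => ⟨Sum.map id σ, id, q, ?_⟩) hu1 hu
    ((f₁.prod f₂).subset fun x hx => ⟨?_, ?_⟩)
  · filter_upwards [hσ, h₂₁ γ] with s a1 a2 i
    cases i with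
    | inl i => exact a1 i
    | inr i => exact a2 i
  · filter_upwards [hσ, h₁₂ γ] with s a1 a2 i
    cases i with
    | inl i => exact a2 i
    | inr i => exact a1 i
  · have h1 := Ev.map (s₁₁ x.1) (Ev.comm (h₁₂ x.2) (l1 hu))
    exact (l1 hx).trans h1.symm (ne_ap R₁ _ (ne_ap R₂ _ hu0))
  · have h1 := Ev.comm (h₂₁ x.1) (Ev.map (s₂₂ x.2) (l2 hu))
    exact (l2 hx).trans h1.symm (ne_ap R₁ _ (ne_ap R₂ _ hu0))

end grp

end Vale.Agent.P092EN
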