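import Vale.Agent.P092EN.Leg
import Vale.Agent.P092CP.Fib
import Vale.Agent.P092.H962.C.Amp
import Vale.Agent.P092.H34.AmpF
import Vale.Agent.P092.H678.O.Hon

/-!
P092, descent (helper22): a finite amplification of a system of three representations is the fibre
of a coupling, for both legs.
-/

set_option linter.all false

open scoped InnerProductSpace ENNReal NNReal
open Filter Topology ContinuousLinearMap TopologicalSpace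

namespace Vale.Agent.P092EN

open Vale.Agent.P092 Vale.Agent.P092.RC Vale.Agent.P092.H333.Amp Vale.Agent.P092CP
open Vale.Agent.P092.H421.Hs (Frq trq Pf pf_of_hasSum trq_swap trq_indep)

variable {ℋ : Type} [NormedAddCommGroup ℋ] [InnerProductSpace ℂ ℋ] [CompleteSpace ℋ]
  {Λ Γ Γ' : Type} [Group Λ] [Group Γ] [Group Γ'] {V : Λ →* (ℋ →L[ℂ] ℋ)} {R : Γ →* (ℋ →L[ℂ] ℋ)}
  {R' : Γ' →* (ℋ →L[ℂ] ℋ)} {ι κ : Type} [Fintype ι] [Fintype κ]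

/-- a finite Parseval family with Gram matrix on `{1} × Γ'` -/
structure HF (R : Γ →* (ℋ →L[ℂ] ℋ)) (R' : Γ' →* (ℋ →L[ℂ] ℋ)) (ξ : ι → ℋ) : Prop where
  fr : ∀ η : ℋ,
    HasSum (fun p : ι × Γ × Γ' => ‖⟪R p.2.1 (R' p.2.2 (ξ p.1)), η⟫_ℂ‖ ^ 2) (‖η‖ ^ 2)
  orth : ∀ γ, γ ≠ 1 → ∀ γ' i j, ⟪R γ (R' γ' (ξ i)), ξ j⟫_ℂ = 0

/-- the existence of such a family -/
def EHF (R : Γ →* (ℋ →L[ℂ] ℋ)) (R' : Γ' →* (ℋ →L[ℂ] ℋ)) : Prop :=
  ∃ (ι : Type) (_ : Fintype ι) (ξ : ι → ℋ), HF R R' ξ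

/-- **An irreducible system**, three groups -/
structure Sys3 (V : Λ →* (ℋ →L[ℂ] ℋ)) (R : Γ →* (ℋ →L[ℂ] ℋ)) (R' : Γ' →* (ℋ →L[ℂ] ℋ)) :
    Prop where
  tri : Tri3 V R R'
  t₁ : EHF R R'
  t₂ : EHF R' R
  s₁ : EHF V R'
  s₂ : EHF V R
  irr : ∀ A : ℋ →L[ℂ] ℋ, (∀ v, A * V v = V v * A) → (∀ g, A * R g = R g * A) →
    (∀ g, A * R' g = R' g * A) → ∃ z : ℂ, A = z • (1 : ℋ →L[ℂ] ℋ)

theorem sys3_of_sys [Infinite Γ] {V R₁ R₂ : Γ →* (ℋ →L[ℂ] ℋ)} (hΓ : H678.OV.Icc Γ)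
    (h : H678.OV.Sys V R₁ R₂) : Sys3 V R₁ R₂ := by
  have e : ∀ {A B C : Γ →* (ℋ →L[ℂ] ℋ)}, H678.OV.HTri A B C → EHF B C :=
    fun ⟨κ, i, ξ, t, o⟩ => ⟨κ, i, ξ, t.frame, o⟩
  exact ⟨tri3_of_sys h, e h.t₁, e h.t₂, e (H678.OV.htri_of_gtri hΓ h.g₁),
    e (H678.OV.htri_of_gtri hΓ h.g₂), h.irr⟩

variable {ξ : ι → ℋ} {η : κ → ℋ}

theorem HF.frq (h : HF R R' ξ) (c : ∀ g k, R g * R' k = R' k * R g) :
    Frq R' fun q : ι × Γ => R q.2 (ξ q.1) := by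
  refine pf_of_hasSum fun η => ?_
  have e1 : (fun p : (ι × Γ) × Γ' => ‖⟪R' p.2 (R p.1.2 (ξ p.1.1)), η⟫_ℂ‖ ^ 2) =
      (fun p : ι × Γ × Γ' => ‖⟪R p.2.1 (R' p.2.2 (ξ p.1)), η⟫_ℂ‖ ^ 2) ∘
        Equiv.prodAssoc ι Γ Γ' := by
    funext p
    change _ = ‖⟪R p.1.2 (R' p.2 (ξ p.1.1)), η⟫_ℂ‖ ^ 2
    rw [H421.Hs.cm_ap (c p.1.2 p.2)]
  rw [e1]
  exact (Equiv.prodAssoc ι Γ Γ').hasSum_iff.2 (h.fr η)

theorem HF.ne (h : HF R R' ξ) {u : ℋ} (hu : u ≠ 0) : ∃ i, ξ i ≠ 0 := by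
  by_contra hn
  push Not at hn
  exact hu ((pf_of_hasSum h.fr).eq_zero fun p => by rw [hn, map_zero, map_zero, inner_zero_left])

/-- the fundamental projection -/
theorem HF.exists_proj (h : HF R R' ξ) (a : ∀ g, adjoint (R g) = R g⁻¹)
    (a' : ∀ g, adjoint (R' g) = R' g⁻¹) (c : ∀ g k, R g * R' k = R' k * R g) :
    ∃ P : ℋ →L[ℂ] ℋ, adjoint P = P ∧ P * P = P ∧
      (∀ γ, γ ≠ 1 → P * R γ * P = 0) ∧ (∀ v, ∑' γ, ‖P (R γ v)‖ₑ ^ 2 = ‖v‖ₑ ^ 2) ∧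
      (∀ g, R' g * P = P * R' g) ∧ ∀ i, P (ξ i) = ξ i := by
  obtain ⟨M, hM⟩ : ∃ M : Submodule ℂ ℋ,
      M = (Submodule.span ℂ (Set.range fun x : ι × Γ' => R' x.2 (ξ x.1)))ᗮ := ⟨_, rfl⟩
  have hmem : ∀ b, b ∈ M ↔ ∀ g i, ⟪R' g (ξ i), b⟫_ℂ = 0 := by
    intro b
    rw [hM, Submodule.mem_orthogonal]
    constructor
    · intro h g i
      exact h _ (Submodule.subset_span ⟨(i, g), rfl⟩)
    · intro h a ha
      induction ha using Submodule.span_induction with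
      | mem a ha => obtain ⟨x, rfl⟩ := ha; exact h _ _
      | zero => exact inner_zero_left _
      | add a a' _ _ h1 h2 => rw [inner_add_left, h1, h2, add_zero]
      | smul c a _ h1 => rw [inner_smul_left, h1, mul_zero]
  have hi : ∀ x, ∀ b ∈ Mᗮ, R' x b ∈ Mᗮ := fun x b hb =>
    (Submodule.mem_orthogonal _ _).2 fun u hu => by
      rw [inner_r a']
      exact (Submodule.mem_orthogonal _ _).1 hb _ ((hmem _).2 fun y i => by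
        rw [inner_r a', ← mul_ap]; exact (hmem _).1 hu _ _)
  haveI : M.HasOrthogonalProjection := by rw [hM]; infer_instance
  have m1 : ∀ g i, R' g (ξ i) ∈ Mᗮ := fun g i =>
    (Submodule.mem_orthogonal' _ _).2 fun b hb => (hmem b).1 hb g i
  have m2 : ∀ γ, γ ≠ 1 → ∀ g i, R γ (R' g (ξ i)) ∈ M := fun γ hγ g i => (hmem _).2 fun k j => by
    rw [← inner_conj_symm, inner_r a', ← H421.Hs.cm_ap (c γ k⁻¹), ← mul_ap, h.orth γ hγ, map_zero]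
  have m3 : ∀ γ, γ ≠ 1 → ∀ u ∈ Mᗮ, R γ u ∈ M := fun γ hγ u hu => (hmem _).2 fun g i => by
    rw [inner_r a]
    exact (Submodule.mem_orthogonal _ _).1 hu _ (m2 _ (inv_ne_one.2 hγ) g i)
  have sa : adjoint Mᗮ.starProjection = Mᗮ.starProjection :=
    (isSelfAdjoint_starProjection _).star_eq
  have pm := Submodule.starProjection_apply_mem Mᗮ
  have fx : ∀ u ∈ Mᗮ, Mᗮ.starProjection u = u := fun u => Submodule.starProjection_eq_self_iff.2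
  have key : ∀ w, ‖Mᗮ.starProjection w‖ₑ ^ 2 = ∑' p : ι × Γ', ‖⟪R' p.2 (ξ p.1), w⟫_ℂ‖ₑ ^ 2 := by
    intro w
    rw [← pf_of_hasSum h.fr, ENNReal.tsum_prod', ENNReal.tsum_prod']
    refine tsum_congr fun i => ?_
    rw [ENNReal.tsum_prod', tsum_eq_single 1]
    · refine tsum_congr fun g => ?_
      change ‖⟪R 1 (R' g (ξ i)), _⟫_ℂ‖ₑ ^ 2 = ‖⟪R' g (ξ i), _⟫_ℂ‖ₑ ^ 2
      rw [map_one, ← adjoint_inner_left, sa]
      exact congrArg (fun x => ‖⟪x, w⟫_ℂ‖ₑ ^ 2) (fx _ (m1 g i))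
    · intro γ hγ
      refine ENNReal.tsum_eq_zero.2 fun g => ?_
      rw [(Submodule.mem_orthogonal _ _).1 (pm w) _ (m2 γ hγ g i), enorm_zero, zero_pow two_ne_zero]
  refine ⟨Mᗮ.starProjection, sa, ContinuousLinearMap.ext fun u => fx _ (pm u),
    fun γ hγ => ContinuousLinearMap.ext fun u => ?_, fun v => ?_,
    fun g => (proj_comm Mᗮ (hi g) (by rw [a']; exact hi _)).symm, fun i => fx _ ?_⟩
  · exact Submodule.starProjection_orthogonal_apply_eq_zero (m3 γ hγ _ (pm u))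
  · simp only [key, inner_r a]
    rw [← pf_of_hasSum h.fr v, ENNReal.tsum_comm, ENNReal.tsum_prod', ENNReal.tsum_prod']
    refine tsum_congr fun i => ?_
    rw [ENNReal.tsum_comm, ENNReal.tsum_prod']
    exact (Equiv.inv Γ).tsum_eq fun γ => ∑' g, ‖⟪R γ (R' g (ξ i)), v⟫_ℂ‖ₑ ^ 2
  · have e := m1 1 i
    rwa [map_one] at e

variable {Q : Type} [Group Q] [Fintype Q]

/-- the normalised vector of a family -/
noncomputable def nO (j : ι ↪ Q) (ξ : ι → ℋ) : KT Q ℋ := ((‖ampO j ξ‖₊⁻¹ : ℝ≥0) : ℂ) • ampO j ξ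

theorem ampO_ne_zero (j : ι ↪ Q) (h : ∃ i, ξ i ≠ 0) : ‖ampO j ξ‖₊ ≠ 0 := by
  obtain ⟨i, hi⟩ := h
  rw [nnnorm_ne_zero_iff]
  intro e
  have e1 := ampO_ap j ξ i
  rw [e] at e1
  exact hi e1.symm

theorem amp_adj (a : ∀ g, adjoint (R g) = R g⁻¹) (g : Γ) :
    adjoint (ampH Q R g) = ampH Q R g⁻¹ := by rw [ampH_ap, adjoint_amp, a, ampH_ap]

theorem amp_comm (c : ∀ g k, R g * R' k = R' k * R g) (g : Γ) (k : Γ') :
    ampH Q R g * ampH Q R' k = ampH Q R' k * ampH Q R g := amp_comm_iff.2 (c g k)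

theorem HF.hon (h : HF R R' ξ) (a : ∀ g, adjoint (R g) = R g⁻¹)
    (a' : ∀ g, adjoint (R' g) = R' g⁻¹) (c : ∀ g k, R g * R' k = R' k * R g) {u : ℋ} (hu : u ≠ 0)
    (j : ι ↪ Q) : ∃ P, Hon (ampH Q R) (ampW Q (Set.range R')) P (nO j ξ) := by
  obtain ⟨P, p1, p2, p3, p4, p5, p6⟩ := h.exists_proj a a' c
  refine ⟨amp P, amp_adj a, by rw [adjoint_amp, p1], by rw [← amp_mul, p2], fun γ hγ => ?_,
    fun v => ?_, ?_, ?_, ?_, ?_⟩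
  · rw [ampH_ap, ← amp_mul, ← amp_mul, p3 γ hγ, amp_zero]
  · simp only [enorm_sq_KT]
    rw [Summable.tsum_finsetSum fun _ _ => ENNReal.summable]
    exact Finset.sum_congr rfl fun q _ => p4 _
  · exact fun w hw => (cm_amp (W := Set.range R') (by rintro _ ⟨g, rfl⟩; exact (p5 g).symm) w hw).symm
  · exact fun w hw γ => (cm_amp (W := Set.range R') (by rintro _ ⟨g, rfl⟩; exact c γ g) w hw).symm
  · rw [nO, map_smul, ampO, map_sum]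
    simp only [amp_em, p6]
  · have e := ampO_ne_zero j (h.ne hu)
    rw [nO, norm_smul, Complex.norm_real, Real.norm_eq_abs, NNReal.abs_eq, NNReal.coe_inv,
      coe_nnnorm, inv_mul_cancel₀ (by rwa [← coe_nnnorm, NNReal.coe_ne_zero])]

theorem trn_nO (j : ι ↪ Q) (T : ℋ →L[ℂ] ℋ) : TRN (ampH Q R) (nO j ξ) (amp T) =
    ((‖ampO j ξ‖₊⁻¹ ^ 2 : ℝ≥0) : ℝ≥0∞) * trq (fun q : ι × Γ => R q.2 (ξ q.1)) T := by
  have e : trq (fun q : ι × Γ => R q.2 (ξ q.1)) T = TRN (ampH Q R) (ampO j ξ) (amp T) := by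
    rw [trn_amp, trq, ENNReal.tsum_prod', tsum_fintype]
    rfl
  rw [e, TRN, TRN, ← ENNReal.tsum_mul_left]
  refine tsum_congr fun γ => ?_
  rw [nO, map_smul, map_smul, enorm_smul, mul_pow, ENNReal.coe_pow]
  congr 2
  rw [enorm_eq_nnnorm, Complex.nnnorm_real, NNReal.nnnorm_eq]

/-- **The amplified system is the fibre of a coupling.** -/
theorem exists_fib [Countable Γ'] [SecondCountableTopology ℋ] (aV : ∀ g, adjoint (V g) = V g⁻¹)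
    (a : ∀ g, adjoint (R g) = R g⁻¹) (a' : ∀ g, adjoint (R' g) = R' g⁻¹)
    (c : ∀ g k, V g * R k = R k * V g) (c₁ : ∀ g k, V g * R' k = R' k * V g)
    (c₂ : ∀ g k, R g * R' k = R' k * R g) {u : ℋ} (hu : u ≠ 0) (t : HF R R' ξ) (s : HF V R' η)
    (irr : ∀ A : ℋ →L[ℂ] ℋ, (∀ v, A * V v = V v * A) → (∀ g, A * R g = R g * A) →
      (∀ g, A * R' g = R' g * A) → ∃ z : ℂ, A = z • (1 : ℋ →L[ℂ] ℋ)) (j : ι ↪ Q) (k : κ ↪ Q) :
    ∃ P' η' P ξ' c, Fib (ampH Q V) (ampH Q R) (ampW Q (Set.range R')) P' η' P ξ' c := by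
  obtain ⟨P, hP⟩ := t.hon a a' c₂ hu j
  obtain ⟨P', hP'⟩ := s.hon aV a' c₁ hu k
  have n1 := ampO_ne_zero j (t.ne hu)
  have n2 := ampO_ne_zero k (s.ne hu)
  refine ⟨P', _, P, _, ‖ampO k η‖₊⁻¹ ^ 2 * ‖ampO j ξ‖₊ ^ 2, inferInstance,
    ((Set.countable_range _).image _).union (Set.countable_range _), ?_, hP', hP, amp_comm c,
    mul_ne_zero (pow_ne_zero _ (inv_ne_zero n2)) (pow_ne_zero _ n1), fun T hT => ?_,
    fun T hT => ?_, fun T hT h0 => ?_, fun T hT h1 h2 => ?_⟩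
  · rintro _ (⟨_, ⟨g, rfl⟩, rfl⟩ | ⟨f, rfl⟩)
    · exact Or.inl ⟨_, ⟨g⁻¹, rfl⟩, by rw [adjoint_amp, a']⟩
    · exact Or.inr ⟨_, (adjoint_sg f).symm⟩
  · obtain ⟨T, rfl, hS⟩ := cm_ampW.1 hT
    rw [trn_nO, trn_nO, trq_indep a' (t.frq c₂) (s.frq c₁) fun g => hS _ ⟨g, rfl⟩, ← mul_assoc,
      ← ENNReal.coe_mul, mul_assoc, ← mul_pow, mul_inv_cancel₀ n1, one_pow, mul_one]
  · obtain ⟨T, rfl, hS⟩ := cm_ampW.1 hT
    rw [adjoint_amp, trn_nO, trn_nO, trq_swap a' (t.frq c₂) (t.frq c₂) fun g => hS _ ⟨g, rfl⟩]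
  · obtain ⟨T, rfl, hS⟩ := cm_ampW.1 hT
    rw [trn_nO, mul_eq_zero] at h0
    rw [H34.AmpE.trqZero (t.frq c₂) (fun g => hS _ ⟨g, rfl⟩) (h0.resolve_left
      (ENNReal.coe_ne_zero.2 (pow_ne_zero _ (inv_ne_zero n1)))), amp_zero]
  · obtain ⟨T, rfl, hS⟩ := cm_ampW.1 hT
    obtain ⟨z, rfl⟩ := irr T (fun g => amp_comm_iff.1 (h1 g)) (fun g => amp_comm_iff.1 (h2 g))
      fun g => hS _ ⟨g, rfl⟩
    exact ⟨z, by rw [amp_smul, amp_one]⟩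

section three

variable {Γ₁ Γ₂ : Type} [Group Γ₁] [Group Γ₂] {R₁ : Γ₁ →* (ℋ →L[ℂ] ℋ)} {R₂ : Γ₂ →* (ℋ →L[ℂ] ℋ)}

theorem inner_em (q : Q) (u : ℋ) (v : KT Q ℋ) : ⟪em q u, v⟫_ℂ = ⟪u, v q⟫_ℂ := by
  rw [inner_KT, Finset.sum_eq_single q, em_same]
  · intro i _ hi
    rw [em_ne hi, inner_zero_left]
  · exact fun h => absurd (Finset.mem_univ q) h

theorem Fr.amplify (h : Fr R₁ R₂) : Fr (ampH Q R₁) (ampH Q R₂) := by
  obtain ⟨ι, _, ξ, h⟩ := h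
  refine ⟨Q × ι, inferInstance, fun p => em p.1 (ξ p.2), Pf.hasSum fun η => ?_⟩
  rw [enorm_sq_KT, ← (Equiv.prodAssoc Q ι (Γ₁ × Γ₂)).symm.tsum_eq, ENNReal.tsum_prod', tsum_fintype]
  refine Finset.sum_congr rfl fun q _ => ?_
  rw [← pf_of_hasSum h (η q)]
  refine tsum_congr fun p => ?_
  change ‖⟪amp (R₁ p.2.1) (amp (R₂ p.2.2) (em q (ξ p.1))), η⟫_ℂ‖ₑ ^ 2 = _
  rw [amp_em, amp_em, inner_em]

theorem Tri3.amplify (h : Tri3 V R₁ R₂) : Tri3 (ampH Q V) (ampH Q R₁) (ampH Q R₂) := by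
  obtain ⟨u, hu⟩ := h.ne
  exact ⟨amp_adj h.adjV, amp_adj h.adj₁, amp_adj h.adj₂, amp_comm h.comm₁, amp_comm h.comm₂,
    amp_comm h.comm₁₂, ⟨em 1 u, fun e => hu (by rw [← em_same (1 : Q) u, e]; rfl)⟩, h.f₁₂.amplify,
    h.f₀₂.amplify, h.f₀₁.amplify⟩

theorem Over3.unamp (h : Over3 (ampH Q V) (ampH Q R₁) (ampH Q R₂)) : Over3 V R₁ R₂ := by
  obtain ⟨r, ζ, c, hc, h⟩ := h
  obtain ⟨e⟩ : Nonempty (Fin (Fintype.card (Fin r × Q)) ≃ Fin r × Q) :=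
    ⟨(Fintype.equivFin _).symm⟩
  have hq : (0 : ℝ) < Fintype.card Q := Nat.cast_pos.2 Fintype.card_pos
  refine ⟨_, fun i => ζ (e i).1 (e i).2, c / Fintype.card Q, div_pos hc hq, fun g => ?_⟩
  obtain ⟨i, j, a, b, h1⟩ := h g
  by_contra hn
  push Not at hn
  refine absurd h1 (not_le.2 ?_)
  rw [inner_KT]
  refine (norm_sum_le _ _).trans_lt ?_
  refine (Finset.sum_lt_sum_of_nonempty Finset.univ_nonempty (g := fun _ => c / Fintype.card Q)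
    fun q _ => ?_).trans_eq ?_
  · have e1 := hn (e.symm (i, q)) (e.symm (j, q)) a b
    rw [Equiv.apply_symm_apply, Equiv.apply_symm_apply] at e1
    exact e1
  · rw [Finset.sum_const, Finset.card_univ, nsmul_eq_mul, mul_div_cancel₀ _ hq.ne']

/-- **Both legs**, one amplification. -/
theorem Sys3.exists_fib [Countable Γ₁] [Countable Γ₂] [SecondCountableTopology ℋ]
    (h : Sys3 V R₁ R₂) : ∃ (Q : Type) (_ : Group Q) (_ : Fintype Q),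
      (∃ P' η' P ξ' c, Fib (ampH Q V) (ampH Q R₁) (ampW Q (Set.range R₂)) P' η' P ξ' c) ∧
      ∃ P' η' P ξ' c, Fib (ampH Q V) (ampH Q R₂) (ampW Q (Set.range R₁)) P' η' P ξ' c := by
  obtain ⟨ι₁, _, ξ₁, t₁⟩ := h.t₁
  obtain ⟨ι₂, _, ξ₂, t₂⟩ := h.t₂
  obtain ⟨κ₁, _, η₁, s₁⟩ := h.s₁
  obtain ⟨κ₂, _, η₂, s₂⟩ := h.s₂
  obtain ⟨u, hu⟩ := h.tri.ne
  obtain ⟨n, hn⟩ : ∃ n, n = Fintype.card ι₁ + Fintype.card ι₂ + Fintype.card κ₁ + Fintype.card κ₂ :=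
    ⟨_, rfl⟩
  have e : Fintype.card (Multiplicative (ZMod (n + 1))) = n + 1 := by
    rw [Fintype.card_multiplicative, ZMod.card]
  have f : ∀ (A : Type) [Fintype A], Fintype.card A ≤ n →
      Nonempty (A ↪ Multiplicative (ZMod (n + 1))) := fun A _ hA =>
    Function.Embedding.nonempty_of_card_le (by rw [e]; omega)
  obtain ⟨j₁⟩ := f ι₁ (by omega)
  obtain ⟨j₂⟩ := f ι₂ (by omega)
  obtain ⟨k₁⟩ := f κ₁ (by omega)
  obtain ⟨k₂⟩ := f κ₂ (by omega)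
  exact ⟨_, inferInstance, inferInstance, P092EN.exists_fib h.tri.adjV h.tri.adj₁ h.tri.adj₂
    h.tri.comm₁ h.tri.comm₂ h.tri.comm₁₂ hu t₁ s₁ h.irr j₁ k₁, P092EN.exists_fib h.tri.adjV
    h.tri.adj₂ h.tri.adj₁ h.tri.comm₂ h.tri.comm₁ (fun g k => (h.tri.comm₁₂ k g).symm) hu t₂ s₂
    (fun A a1 a2 a3 => h.irr A a1 a3 a2) j₂ k₂⟩

end three

end Vale.Agent.P092EN
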