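import Vale.Agent.P092EN.Main
import Vale.Agent.P092.H34.Grp

/-!
P092, descent (helper22): continuous equivariant fields over the group.
-/

set_option linter.all false

open scoped InnerProductSpace ENNReal
open Filter Topology ContinuousLinearMap TopologicalSpace MeasureTheory

namespace Vale.Agent.P092EN

open Vale.Agent.P092 Vale.Agent.P092.H264
open Vale.Agent.P092.RC (Cm)
open Vale.Agent.P092.H790 Vale.Agent.P092.H85 Vale.Agent.P092.H103 Vale.Agent.P092.H160
open Vale.Agent.P092.H100 (ae_sec ae_left ae_right)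
open Vale.Agent.P092.H34 (Dcm)
open Vale.Agent.P092.H34.Grp (GF exists_gf ae_up)

/-- a function with a continuous modulus at almost all pairs has a continuous version -/
theorem exists_cont {G Z : Type} [TopologicalSpace G] [MeasurableSpace G] [MetricSpace Z]
    [CompleteSpace Z] {μ : Measure G} [μ.IsOpenPosMeasure] {f : G → Z} {ω : G × G → ℝ}
    (hω : Continuous ω) (h0 : ∀ x, ω (x, x) = 0)
    (h : ∀ᵐ x ∂μ, ∀ᵐ y ∂μ, dist (f x) (f y) ≤ ω (x, y)) :
    ∃ F, Continuous F ∧ ∀ᵐ x ∂μ, F x = f x := by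
  obtain ⟨A, hA⟩ : ∃ A : Set G, A = {x | ∀ᵐ y ∂μ, dist (f x) (f y) ≤ ω (x, y)} := ⟨_, rfl⟩
  have h1 : ∀ᵐ x ∂μ, x ∈ A := by rw [hA]; exact h
  have h2 : Dense A := μ.dense_of_ae h1
  have h3 : ∀ x ∈ A, ∀ x' ∈ A, dist (f x) (f x') ≤ ω (x, x') := by
    intro x hx x' hx'
    rw [hA] at hx hx'
    have e1 : Dense {y | dist (f x) (f x') ≤ ω (x, y) + ω (x', y)} := by
      refine μ.dense_of_ae ?_
      filter_upwards [hx, hx'] with y a1 a2
      exact (dist_triangle_right _ _ (f y)).trans (add_le_add a1 a2)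
    have e2 : IsClosed {y | dist (f x) (f x') ≤ ω (x, y) + ω (x', y)} :=
      isClosed_le continuous_const (by fun_prop)
    have e3 := e2.closure_subset (e1 x')
    rwa [Set.mem_setOf_eq, h0, add_zero] at e3
  have h4 : ∀ x₀ ε, 0 < ε → ∃ U ∈ 𝓝 x₀, ∀ x ∈ U, ∀ x' ∈ U, ω (x, x') < ε := by
    intro x₀ ε hε
    have e1 : ∀ᶠ p in 𝓝 (x₀, x₀), ω p < ε :=
      hω.continuousAt.eventually (gt_mem_nhds (by rw [h0]; exact hε))
    rw [nhds_prod_eq] at e1
    obtain ⟨U, hU, e2⟩ := mem_prod_self_iff.1 e1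
    exact ⟨U, hU, fun x a1 x' a2 => e2 (Set.mk_mem_prod a1 a2)⟩
  refine ⟨extendFrom A f, continuous_extendFrom h2 fun x₀ => ?_, ?_⟩
  · haveI : (𝓝[A] x₀).NeBot := mem_closure_iff_nhdsWithin_neBot.1 (h2 x₀)
    refine (cauchy_map_iff_exists_tendsto (l := 𝓝[A] x₀)).1 ?_
    refine Metric.cauchy_iff.2 ⟨inferInstance, fun ε hε => ?_⟩
    obtain ⟨U, hU, e1⟩ := h4 x₀ ε hε
    refine ⟨f '' (U ∩ A), image_mem_map (inter_mem (mem_nhdsWithin_of_mem_nhds hU)
      self_mem_nhdsWithin), ?_⟩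
    rintro _ ⟨x, a1, rfl⟩ _ ⟨x', a2, rfl⟩
    exact (h3 x a1.2 x' a2.2).trans_lt (e1 x a1.1 x' a2.1)
  · have e1 : ContinuousOn f A := fun x₀ hx₀ => by
      refine Metric.tendsto_nhds.2 fun ε hε => ?_
      obtain ⟨U, hU, e1⟩ := h4 x₀ ε hε
      filter_upwards [mem_nhdsWithin_of_mem_nhds hU, self_mem_nhdsWithin] with x a1 a2
      exact (h3 x a2 x₀ hx₀).trans_lt (e1 x a1 x₀ (mem_of_mem_nhds hU))
    filter_upwards [h1] with x hx
    exact extendFrom_extends e1 x hx

theorem dcm_of_fld {X K : Type} [MeasurableSpace X] {μ : Measure X} [NormedAddCommGroup K]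
    [InnerProductSpace ℂ K] [CompleteSpace K] {T : Lp K 2 μ →L[ℂ] Lp K 2 μ}
    {A : X → (K →L[ℂ] K)} (h : Fld T A) : Dcm T := fun S hS =>
  (h.mul (fld_ind hS)).ext ((fld_ind hS).mul h) (Eventually.of_forall fun x => by
    by_cases hx : x ∈ S
    · simp only [if_pos hx, mul_one, one_mul]
    · simp only [if_neg hx, mul_zero, zero_mul])

variable {G : Type} [Group G] [TopologicalSpace G] [IsTopologicalGroup G] [LocallyCompactSpace G]
  [SecondCountableTopology G] [T2Space G] [MeasurableSpace G] [BorelSpace G]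
  {Γ : Subgroup G} [DiscreteTopology Γ] [MeasurableSpace (G ⧸ Γ)] [BorelSpace (G ⧸ Γ)]
  {ν : Measure (G ⧸ Γ)} [IsProbabilityMeasure ν] [Countable Γ]
  {K : Type} [NormedAddCommGroup K] [InnerProductSpace ℂ K] [CompleteSpace K]
  {lam : Γ →* (K →L[ℂ] K)}

/-- `q` is the continuous equivariant field of `T` -/
structure CF (ν : Measure (G ⧸ Γ)) (lam : Γ →* (K →L[ℂ] K)) (T : Lp K 2 ν →L[ℂ] Lp K 2 ν)
    (q : G → (K →L[ℂ] K)) : Prop where
  fld : Fld T fun x => q (sec Γ x)
  equi : ∀ (h : G) (v : Γ), q (h * v) = lam v⁻¹ * q h * lam v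
  cont : Continuous q

variable {S T : Lp K 2 ν →L[ℂ] Lp K 2 ν} {p q : G → (K →L[ℂ] K)}

theorem CF.gf (h : CF ν lam T q) : GF ν lam T q :=
  ⟨h.fld, h.equi, fun u => (h.cont.clm_apply continuous_const).aestronglyMeasurable⟩

theorem CF.dcm (h : CF ν lam T q) : Dcm T := dcm_of_fld h.fld

theorem CF.ext (h : CF ν lam S p) (h' : CF ν lam T q) (e : ∀ x, p x = q x) : S = T :=
  h.fld.ext h'.fld (Eventually.of_forall fun _ => e _)

theorem CF.mul (h : CF ν lam S p) (h' : CF ν lam T q) : CF ν lam (S * T) fun x => p x * q x :=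
  ⟨h.fld.mul h'.fld, fun x v => by rw [h.equi, h'.equi, cj_mul], h.cont.mul h'.cont⟩

theorem CF.add (h : CF ν lam S p) (h' : CF ν lam T q) : CF ν lam (S + T) fun x => p x + q x :=
  ⟨h.fld.add h'.fld, fun x v => by rw [h.equi, h'.equi, mul_add, add_mul], h.cont.add h'.cont⟩

theorem CF.smul (c : ℂ) (h : CF ν lam T q) : CF ν lam (c • T) fun x => c • q x :=
  ⟨h.fld.smul c, fun x v => by rw [h.equi, mul_smul_comm, smul_mul_assoc], h.cont.const_smul c⟩

theorem cf_const {A : K →L[ℂ] K} (hA : ∀ v, A * lam v = lam v * A) :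
    CF ν lam (A.compLpL 2 ν) fun _ => A :=
  ⟨fld_comp A, (GF.const (ν := ν) hA).equi, continuous_const⟩

theorem cf_one : CF ν lam 1 fun _ => 1 :=
  ⟨fld_one, fun x v => by rw [mul_one, inv_mul_op], continuous_const⟩

theorem cf_zero : CF ν lam 0 fun _ => 0 :=
  ⟨fld_zero, fun x v => by rw [mul_zero, zero_mul], continuous_const⟩

/-- a bounded continuous equivariant field is the field of an operator -/
theorem cf_fop (hc : Continuous q) {C : ℝ} (hb : ∀ x, ‖q x‖ ≤ C)
    (he : ∀ (h : G) (v : Γ), q (h * v) = lam v⁻¹ * q h * lam v) :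
    CF ν lam (fop ν fun x => q (sec Γ x)) q :=
  ⟨fop_spec (fun u => ((hc.clm_apply continuous_const).stronglyMeasurable.comp_measurable
    (sec_meas Γ)).aestronglyMeasurable) fun _ => hb _, he, hc⟩

variable (hν : ∀ g : G, ν.map (fun x => g • x) = ν) {I : Type} [Countable I]
  (b : HilbertBasis I ℂ K) (hl : ∀ v, adjoint (lam v) = lam v⁻¹)

include hl in
theorem CF.left (h : CF ν lam T q) (g : G) :
    CF ν lam (iro hν lam g * T * iro hν lam g⁻¹) fun x => q (g⁻¹ * x) :=
  ⟨(h.gf.left hν hl g).fld, (h.gf.left hν hl g).equi, h.cont.comp (continuous_const_mul _)⟩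

include hν b in
theorem CF.uniq (h : CF ν lam S p) (h' : CF ν lam T q) (e : S = T) (x : G) : p x = q x := by
  subst e
  exact congrFun ((Continuous.ae_eq_iff_eq (Measure.haar : Measure G) h.cont h'.cont).1
    (GF.unique hν b h.gf h'.gf)) x

include b hl in
theorem CF.adj (h : CF ν lam T q) : CF ν lam (adjoint T) fun x => adjoint (q x) := by
  obtain ⟨B, -, -, hB⟩ := h.dcm.adj.exists_fld b
  refine ⟨hB.congr (H34.Ind.fld_adj b h.dcm h.fld hB), fun x v => ?_, ?_⟩
  · rw [h.equi, ← star_eq_adjoint, star_mul, star_mul, star_eq_adjoint, star_eq_adjoint,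
      star_eq_adjoint, hl, hl, inv_inv, mul_assoc]
  · exact continuous_star.comp h.cont

include hν b in
theorem CF.comm (h : CF ν lam T q) {A : K →L[ℂ] K} (hA : ∀ v, A * lam v = lam v * A)
    (e : T * A.compLpL 2 ν = A.compLpL 2 ν * T) (x : G) : q x * A = A * q x :=
  (h.mul (cf_const hA)).uniq hν b ((cf_const hA).mul h) e x

include b hl in
/-- an operator which moves continuously in norm has a continuous field -/
theorem exists_cf (hT : Dcm T) (hc : Continuous fun g => iro hν lam g * T * iro hν lam g⁻¹) :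
    ∃ q, CF ν lam T q := by
  haveI hsep : SeparableSpace K := H34.separable_of_basis b
  obtain ⟨q, hq, -⟩ := exists_gf hν b hl hT
  obtain ⟨ω, hω⟩ : ∃ ω : G → ℝ, ∀ m, ω m = ‖iro hν lam m⁻¹ * T * iro hν lam m⁻¹⁻¹ - T‖ :=
    ⟨_, fun _ => rfl⟩
  have c1 : Continuous ω := by
    rw [funext hω]
    exact ((hc.comp continuous_inv).sub continuous_const).norm
  have c2 : ω 1 = 0 := by
    have e : iro hν lam 1 = 1 := map_one (H34.Ind.pi (cdat ν hν) hl)
    rw [hω, inv_one, inv_one, e, one_mul, mul_one, sub_self, norm_zero]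
  have h1 : ∀ m, ∀ᵐ x ∂(Measure.haar : Measure G), ‖q (m * x) - q x‖ ≤ ω m := by
    intro m
    have e1 := (hq.left hν hl m⁻¹).sub hq
    obtain ⟨r, r1, r2⟩ := exists_gf hν b hl (dcm_of_fld e1.fld)
    filter_upwards [GF.unique hν b e1 r1] with x hx
    rw [inv_inv] at hx
    rw [hx, hω]
    exact r2 x
  have hr1 : ∀ (p : G → Prop), (∀ᵐ h ∂(Measure.haar : Measure G), p h) → ∀ g,
      ∀ᵐ h ∂(Measure.haar : Measure G), p (h * g) := fun p hp g => ae_right hp g
  have hr2 : ∀ (p : G → Prop) (g : G), (∀ᵐ h ∂(Measure.haar : Measure G), p (h * g)) →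
      ∀ᵐ h ∂(Measure.haar : Measure G), p h := by
    intro p g hp
    filter_upwards [ae_right hp g⁻¹] with h hh
    rwa [inv_mul_cancel_right] at hh
  have c3 : Continuous fun p : G × G => ω (p.2 * p.1⁻¹) := c1.comp (by fun_prop)
  obtain ⟨s, hs, hsd⟩ := exists_countable_dense K
  have key : ∀ u, ∀ᵐ p ∂((Measure.haar : Measure G).prod (Measure.haar : Measure G)),
      ‖q p.2 u - q p.1 u‖ ≤ ω (p.2 * p.1⁻¹) * ‖u‖ := by
    intro u
    have e1 := ae_pairs_left (μ := (Measure.haar : Measure G))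
      (F := fun p : G × G => ((max (‖q p.2 u - q p.1 u‖ - ω (p.2 * p.1⁻¹) * ‖u‖) 0 : ℝ) : ℂ))
      (G := fun _ => 0) (Complex.continuous_ofReal.comp_aestronglyMeasurable
        ((((hq.meas u).comp_snd.sub (hq.meas u).comp_fst).norm.sub
          (c3.mul continuous_const).aestronglyMeasurable).sup aestronglyMeasurable_const))
      aestronglyMeasurable_const hr1 hr2 fun m => by
        filter_upwards [h1 m] with x hx
        rw [mul_inv_cancel_right, Complex.ofReal_eq_zero, max_eq_right_iff, sub_nonpos]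
        exact ((q (m * x) - q x).le_opNorm u).trans (mul_le_mul_of_nonneg_right hx (norm_nonneg _))
    filter_upwards [e1] with p hp
    rwa [Complex.ofReal_eq_zero, max_eq_right_iff, sub_nonpos] at hp
  have h3 : ∀ᵐ p ∂((Measure.haar : Measure G).prod (Measure.haar : Measure G)),
      dist (q p.1) (q p.2) ≤ ω (p.2 * p.1⁻¹) := by
    filter_upwards [(ae_ball_iff hs).2 fun u _ => key u] with p hp
    rw [dist_comm, dist_eq_norm]
    refine ContinuousLinearMap.opNorm_le_bound _ (by rw [hω]; exact norm_nonneg _) fun u => ?_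
    have h4 : IsClosed {u : K | ‖q p.2 u - q p.1 u‖ ≤ ω (p.2 * p.1⁻¹) * ‖u‖} :=
      isClosed_le (by fun_prop) (by fun_prop)
    exact (h4.closure_subset_iff.2 hp) (hsd u)
  obtain ⟨F, f1, f2⟩ := exists_cont (μ := (Measure.haar : Measure G)) (f := q) c3
    (fun x => by rw [mul_inv_cancel, c2]) (Measure.ae_ae_of_ae_prod h3)
  refine ⟨F, hq.fld.congr ?_, fun x v => ?_, f1⟩
  · filter_upwards [ae_sec hν f2] with x hx
    have e := hx 1
    rw [Subgroup.coe_one, mul_one] at e
    exact e.symm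
  · refine congrFun ((Continuous.ae_eq_iff_eq (Measure.haar : Measure G)
      (f := fun x => F (x * v)) (g := fun x => lam v⁻¹ * F x * lam v) (by fun_prop)
      (by fun_prop)).1 ?_) x
    filter_upwards [f2, ae_right f2 (v : G)] with y a1 a2
    rw [a1, a2, hq.equi]

end Vale.Agent.P092EN
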