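import Vale.Agent.P011.H722.Mean
import Vale.Agent.P092.H494.PWl

/-!
P092, soft end (helper22): compact convex classes of operator valued linear maps, fixed points.
-/

set_option linter.all false

open scoped InnerProductSpace
open Filter Topology ContinuousLinearMap

namespace Vale.Agent.P092EN

open Vale.Agent.P092.H494.PW (WLim exists_wlim_lin)

variable {K : Type} [NormedAddCommGroup K] [InnerProductSpace ℂ K] [CompleteSpace K]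
  {A : Type} [AddCommGroup A] [Module ℂ A]

/-- coordinates of a map -/
noncomputable def emb (Ψ : A →ₗ[ℂ] (K →L[ℂ] K)) : A × K × K → ℝ :=
  fun p => (⟪p.2.1, Ψ p.1 p.2.2⟫_ℂ).re

theorem ext_re {S T : K →L[ℂ] K} (h : ∀ η ζ, (⟪η, S ζ⟫_ℂ).re = (⟪η, T ζ⟫_ℂ).re) : S = T := by
  refine ContinuousLinearMap.ext fun ζ => ?_
  have h1 := h (S ζ - T ζ) ζ
  have h2 : (⟪S ζ - T ζ, S ζ - T ζ⟫_ℂ).re = 0 := by
    rw [inner_sub_right, Complex.sub_re, h1, sub_self]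
  have h3 : ‖S ζ - T ζ‖ ^ 2 = 0 := by
    rw [← h2]
    exact (inner_self_eq_norm_sq (𝕜 := ℂ) _).symm
  exact sub_eq_zero.1 (norm_eq_zero.1 (pow_eq_zero_iff two_ne_zero |>.1 h3))

theorem emb_inj {Ψ Φ : A →ₗ[ℂ] (K →L[ℂ] K)} (h : emb Ψ = emb Φ) : Ψ = Φ :=
  LinearMap.ext fun f => ext_re fun η ζ => congrFun h (f, η, ζ)

/-- convex, bounded, closed under weak limits -/
structure Cls (P : Set (A →ₗ[ℂ] (K →L[ℂ] K))) : Prop where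
  conv : ∀ Ψ ∈ P, ∀ Φ ∈ P, ∀ a b : ℝ, 0 ≤ a → 0 ≤ b → a + b = 1 → (a : ℂ) • Ψ + (b : ℂ) • Φ ∈ P
  bdd : ∀ f, ∃ C : ℝ, ∀ Ψ ∈ P, ‖Ψ f‖ ≤ C
  lim : ∀ {ι : Type} (l : Filter ι) [l.NeBot] (Φ : ι → (A →ₗ[ℂ] (K →L[ℂ] K)))
    (Ψ : A →ₗ[ℂ] (K →L[ℂ] K)), (∀ i, Φ i ∈ P) → (∀ f, WLim l (fun i => Φ i f) (Ψ f)) → Ψ ∈ P

variable {P : Set (A →ₗ[ℂ] (K →L[ℂ] K))}

theorem Cls.convex (h : Cls P) : Convex ℝ (emb '' P) := by
  rintro _ ⟨Ψ, hΨ, rfl⟩ _ ⟨Φ, hΦ, rfl⟩ a b ha hb hab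
  refine ⟨_, h.conv Ψ hΨ Φ hΦ a b ha hb hab, ?_⟩
  funext p
  simp only [emb, LinearMap.add_apply, LinearMap.smul_apply, ContinuousLinearMap.add_apply,
    ContinuousLinearMap.smul_apply, inner_add_right, inner_smul_right, Complex.add_re,
    Complex.re_ofReal_mul, Pi.add_apply, Pi.smul_apply, smul_eq_mul]

theorem Cls.compact (h : Cls P) : IsCompact (emb '' P) := by
  classical
  rw [isCompact_iff_ultrafilter_le_nhds]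
  intro U hU
  have hU' : emb '' P ∈ U := le_principal_iff.1 hU
  obtain ⟨_, Ψ₀, hΨ₀, -⟩ := Ultrafilter.nonempty_of_mem hU'
  have hs : ∀ φ : A × K × K → ℝ, ∃ Ψ ∈ P, φ ∈ emb '' P → emb Ψ = φ := by
    intro φ
    by_cases hφ : φ ∈ emb '' P
    · obtain ⟨Ψ, h1, h2⟩ := hφ
      exact ⟨Ψ, h1, fun _ => h2⟩
    · exact ⟨Ψ₀, hΨ₀, fun h1 => (hφ h1).elim⟩
  choose s hs1 hs2 using hs
  obtain ⟨Ψ, hΨ⟩ := exists_wlim_lin U s fun f => by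
    obtain ⟨C, hC⟩ := h.bdd f
    exact ⟨C, fun i => hC _ (hs1 i)⟩
  refine ⟨emb Ψ, ⟨Ψ, h.lim (U : Filter _) s Ψ hs1 hΨ, rfl⟩, ?_⟩
  have h1 : Tendsto (fun φ : A × K × K → ℝ => φ) (U : Filter _) (𝓝 (emb Ψ)) := by
    rw [tendsto_pi_nhds]
    intro p
    refine ((hΨ p.1).re p.2.2 p.2.1).congr' ?_
    filter_upwards [hU'] with φ hφ
    exact congrFun (hs2 φ hφ) p
  exact h1

/-- conjugation -/
noncomputable def cj (u : K →L[ℂ] K) (Ψ : A →ₗ[ℂ] (K →L[ℂ] K)) : A →ₗ[ℂ] (K →L[ℂ] K) where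
  toFun f := u * Ψ f * adjoint u
  map_add' f g := by rw [map_add, mul_add, add_mul]
  map_smul' c f := by rw [map_smul, mul_smul_comm, smul_mul_assoc]; rfl

theorem cj_apply (u : K →L[ℂ] K) (Ψ : A →ₗ[ℂ] (K →L[ℂ] K)) (f : A) :
    cj u Ψ f = u * Ψ f * adjoint u := rfl

theorem inner_cj (u : K →L[ℂ] K) (Ψ : A →ₗ[ℂ] (K →L[ℂ] K)) (f : A) (η ζ : K) :
    ⟪η, cj u Ψ f ζ⟫_ℂ = ⟪adjoint u η, Ψ f (adjoint u ζ)⟫_ℂ := by
  rw [adjoint_inner_left]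
  rfl

/-- conjugation in coordinates -/
noncomputable def pre (A : Type) (v : K →L[ℂ] K) :
    (A × K × K → ℝ) →L[ℝ] (A × K × K → ℝ) :=
  ContinuousLinearMap.pi fun p => ContinuousLinearMap.proj (p.1, v p.2.1, v p.2.2)

theorem pre_apply (v : K →L[ℂ] K) (φ : A × K × K → ℝ) (p : A × K × K) :
    pre A v φ p = φ (p.1, v p.2.1, v p.2.2) := rfl

theorem emb_cj (u : K →L[ℂ] K) (Ψ : A →ₗ[ℂ] (K →L[ℂ] K)) :
    emb (cj u Ψ) = pre A (adjoint u) (emb Ψ) := by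
  funext p
  rw [pre_apply, emb, emb, inner_cj]

theorem maps_pre {u : K →L[ℂ] K} (hu : ∀ Ψ ∈ P, cj u Ψ ∈ P) :
    Set.MapsTo (pre A (adjoint u)) (emb '' P) (emb '' P) := by
  rintro _ ⟨Ψ, hΨ, rfl⟩
  exact ⟨_, hu Ψ hΨ, emb_cj u Ψ⟩

/-- **Markov-Kakutani** for commuting conjugations -/
theorem Cls.fix_comm (h : Cls P) (hne : P.Nonempty) {ι : Type} (u : ι → (K →L[ℂ] K))
    (hc : ∀ i j, u i * u j = u j * u i) (hu : ∀ i, ∀ Ψ ∈ P, cj (u i) Ψ ∈ P) :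
    ∃ Ψ ∈ P, ∀ i, cj (u i) Ψ = Ψ := by
  obtain ⟨_, ⟨Ψ, hΨ, rfl⟩, h1⟩ := P011.H722.exists_fixed h.compact h.convex (hne.image _)
    (fun i => pre A (adjoint (u i))) (fun i => maps_pre (hu i)) (fun i j l _ => by
      funext p
      have e : ∀ x, adjoint (u j) (adjoint (u i) x) = adjoint (u i) (adjoint (u j) x) := by
        intro x
        have h2 := congrArg star (hc i j)
        rw [star_mul, star_mul, star_eq_adjoint, star_eq_adjoint] at h2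
        exact congrArg (fun T : K →L[ℂ] K => T x) h2
      rw [pre_apply, pre_apply, pre_apply, pre_apply]
      simp only [e])
  exact ⟨Ψ, hΨ, fun i => emb_inj (by rw [emb_cj, h1 i])⟩

/-- fixed points of a solvable group of conjugations -/
theorem Cls.fix_solv (h : Cls P) (hne : P.Nonempty) {S : Type} [Group S] [Group.IsSolvable S]
    (σ : S →* (K →L[ℂ] K)) (hu : ∀ s, ∀ Ψ ∈ P, cj (σ s) Ψ ∈ P) :
    ∃ Ψ ∈ P, ∀ s, cj (σ s) Ψ = Ψ := by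
  obtain ⟨_, ⟨Ψ, hΨ, rfl⟩, h1⟩ := P011.H722.exists_fixed_of_solvable (G := S) h.compact h.convex
    (hne.image _) (fun s => pre A (adjoint (σ s))) (fun s => maps_pre (hu s))
    (fun l => by
      funext p
      rw [pre_apply, map_one, ← star_eq_adjoint, star_one]
      rfl)
    (fun g g' l => by
      funext p
      rw [pre_apply, pre_apply, pre_apply, map_mul, ← star_eq_adjoint, star_mul, star_eq_adjoint,
        star_eq_adjoint]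
      rfl)
  exact ⟨Ψ, hΨ, fun s => emb_inj (by rw [emb_cj, h1 s])⟩

/-- a maximal member, by compactness -/
theorem Cls.exists_top (h : Cls P) (hne : P.Nonempty) (e : A)
    (hle : ∀ Ψ ∈ P, ∀ ξ, (⟪ξ, Ψ e ξ⟫_ℂ).re ≤ ‖ξ‖ ^ 2)
    (imp : ∀ Ψ ∈ P, ∀ ξ, (⟪ξ, Ψ e ξ⟫_ℂ).re < ‖ξ‖ ^ 2 → ∃ Φ ∈ P,
      (∀ η, (⟪η, Ψ e η⟫_ℂ).re ≤ (⟪η, Φ e η⟫_ℂ).re) ∧ (⟪ξ, Ψ e ξ⟫_ℂ).re < (⟪ξ, Φ e ξ⟫_ℂ).re) :
    ∃ Ψ ∈ P, ∀ ξ, (⟪ξ, Ψ e ξ⟫_ℂ).re = ‖ξ‖ ^ 2 := by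
  classical
  have h1 := h.compact.inter_iInter_nonempty
    (fun ξ : K => {φ : A × K × K → ℝ | φ (e, ξ, ξ) = ‖ξ‖ ^ 2})
    (fun ξ => isClosed_eq (continuous_apply _) continuous_const) (fun u => by
      have hc : Continuous fun φ : A × K × K → ℝ => ∑ ξ ∈ u, φ (e, ξ, ξ) :=
        continuous_finset_sum _ fun ξ _ => continuous_apply _
      obtain ⟨_, ⟨Ψ, hΨ, rfl⟩, hm⟩ := h.compact.exists_isMaxOn (hne.image _) hc.continuousOn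
      refine ⟨emb Ψ, ⟨Ψ, hΨ, rfl⟩, ?_⟩
      simp only [Set.mem_iInter, Set.mem_setOf_eq]
      intro ξ hξ
      by_contra hn
      have h2 : (⟪ξ, Ψ e ξ⟫_ℂ).re < ‖ξ‖ ^ 2 := lt_of_le_of_ne (hle Ψ hΨ ξ) hn
      obtain ⟨Φ, hΦ, h3, h4⟩ := imp Ψ hΨ ξ h2
      have h5 := hm (Set.mem_image_of_mem emb hΦ)
      have h6 : ∑ η ∈ u, emb Ψ (e, η, η) < ∑ η ∈ u, emb Φ (e, η, η) :=
        Finset.sum_lt_sum (fun η _ => h3 η) ⟨ξ, hξ, h4⟩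
      exact absurd h5 (not_le.2 h6))
  obtain ⟨_, ⟨Ψ, hΨ, rfl⟩, h2⟩ := h1
  exact ⟨Ψ, hΨ, fun ξ => Set.mem_iInter.1 h2 ξ⟩

end Vale.Agent.P092EN
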