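import Vale.Agent.P092EN.Cp
import Vale.Agent.P092.H866.Cpt

/-!
P092, soft end (helper22): counting orthogonal orbits with a finite Parseval family; compactness.
-/

set_option linter.all false

open scoped InnerProductSpace
open Filter Topology ContinuousLinearMap

namespace Vale.Agent.P092EN

variable {ℋ : Type} [NormedAddCommGroup ℋ] [InnerProductSpace ℂ ℋ] [CompleteSpace ℋ]

/-- selfadjoint operators with a bounded sum over a Parseval family are compact -/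
theorem compact_of_prs {P : Type} {e : P → ℋ}
    (he : ∀ η, HasSum (fun p => ‖⟪e p, η⟫_ℂ‖ ^ 2) (‖η‖ ^ 2)) {T : ℋ →L[ℂ] ℋ} (hT : adjoint T = T)
    {C : ℝ} (hC : ∀ F : Finset P, ∑ p ∈ F, ‖T (e p)‖ ^ 2 ≤ C) : IsCompactOperator T := by
  refine P092.H866.compact_of_sums T C fun n ζ hζ => ?_
  have h1 : HasSum (fun p => ∑ a, ‖⟪e p, T (ζ a)⟫_ℂ‖ ^ 2) (∑ a, ‖T (ζ a)‖ ^ 2) :=
    hasSum_sum fun a _ => he _
  refine hasSum_le_of_sum_le h1 fun F => ?_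
  refine le_trans (Finset.sum_le_sum fun p _ => ?_) (hC F)
  have h2 : ∀ a, ⟪e p, T (ζ a)⟫_ℂ = (starRingEnd ℂ) ⟪ζ a, T (e p)⟫_ℂ := by
    intro a
    rw [inner_conj_symm]
    nth_rewrite 1 [← hT]
    exact adjoint_inner_right T _ _
  simp only [h2, RCLike.norm_conj]
  exact hζ.sum_inner_products_le _

theorem bessel_orth {L : Type} (F : Finset L) (v : L → ℋ) (η : ℋ)
    (ho : ∀ l ∈ F, ∀ l' ∈ F, l ≠ l' → ⟪v l, v l'⟫_ℂ = 0)
    (h : ∀ l, (⟪v l, η⟫_ℂ).re = ‖v l‖ ^ 2) : ∑ l ∈ F, ‖v l‖ ^ 2 ≤ ‖η‖ ^ 2 := by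
  classical
  have h1 : ‖∑ l ∈ F, v l‖ ^ 2 = ∑ l ∈ F, ‖v l‖ ^ 2 := by
    rw [← re_self, sum_inner, Complex.re_sum]
    refine Finset.sum_congr rfl fun l hl => ?_
    rw [inner_sum, Finset.sum_eq_single l (fun l' hl' hne => ho l hl l' hl' hne.symm)
      (fun hn => (hn hl).elim), re_self]
  have h2 : (⟪∑ l ∈ F, v l, η⟫_ℂ).re = ∑ l ∈ F, ‖v l‖ ^ 2 := by
    rw [sum_inner, Complex.re_sum]
    exact Finset.sum_congr rfl fun l _ => h l
  have h3 := sq_nonneg ‖η - ∑ l ∈ F, v l‖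
  rw [norm_sub_rev, @norm_sub_sq ℂ, h1] at h3
  change 0 ≤ _ - 2 * (⟪∑ l ∈ F, v l, η⟫_ℂ).re + _ at h3
  rw [h2] at h3
  linarith

variable {H L : Type} [Group H] [Group L] {ρ : H →* (ℋ →L[ℂ] ℋ)} {U : L →* (ℋ →L[ℂ] ℋ)}
  {ι : Type} [Fintype ι] {ξ : ι → ℋ}

theorem sum_frame_le
    (hf : ∀ η, HasSum (fun p : ι × H => ‖⟪ρ p.2 (ξ p.1), η⟫_ℂ‖ ^ 2) (‖η‖ ^ 2)) (k : ι)
    (G : Finset H) (η : ℋ) : ∑ x ∈ G, ‖⟪ρ x⁻¹ (ξ k), η⟫_ℂ‖ ^ 2 ≤ ‖η‖ ^ 2 := by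
  classical
  have h1 := sum_le_hasSum (G.image fun x => ((k, x⁻¹) : ι × H)) (fun _ _ => sq_nonneg _) (hf η)
  rwa [Finset.sum_image fun x _ y _ e => inv_injective (congrArg Prod.snd e)] at h1

theorem sum_prod_le (f : ι × H → ℝ) (h0 : ∀ p, 0 ≤ f p) (c : ι → ℝ)
    (h : ∀ i (G : Finset H), ∑ x ∈ G, f (i, x) ≤ c i) (F : Finset (ι × H)) :
    ∑ p ∈ F, f p ≤ ∑ i, c i := by
  classical
  have h1 : F ⊆ Finset.univ ×ˢ F.image Prod.snd := fun p hp =>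
    Finset.mem_product.2 ⟨Finset.mem_univ _, Finset.mem_image_of_mem _ hp⟩
  calc ∑ p ∈ F, f p ≤ ∑ p ∈ Finset.univ ×ˢ F.image Prod.snd, f p :=
        Finset.sum_le_sum_of_subset_of_nonneg h1 fun _ _ _ => h0 _
    _ = ∑ i, ∑ x ∈ F.image Prod.snd, f (i, x) := Finset.sum_product _ _ _
    _ ≤ _ := Finset.sum_le_sum fun i _ => h i _

/-- the cyclic subspace, its projection -/
theorem exists_cyc (hρ : ∀ x, adjoint (ρ x) = ρ x⁻¹) (u : ℋ) : ∃ P : ℋ →L[ℂ] ℋ,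
    adjoint P = P ∧ (∀ a, P (P a) = P a) ∧ P u = u ∧ (∀ x a, P (ρ x a) = ρ x (P a)) ∧
    ∀ b, (∀ x, ⟪ρ x u, b⟫_ℂ = 0) → ∀ a, ⟪P a, b⟫_ℂ = 0 := by
  obtain ⟨M, hM⟩ : ∃ M : Submodule ℂ ℋ, M = (Submodule.span ℂ (Set.range fun x => ρ x u))ᗮ :=
    ⟨_, rfl⟩
  have hmem : ∀ b, b ∈ M ↔ ∀ x, ⟪ρ x u, b⟫_ℂ = 0 := by
    intro b
    rw [hM, Submodule.mem_orthogonal]
    constructor
    · intro h x
      exact h _ (Submodule.subset_span ⟨x, rfl⟩)
    · intro h a ha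
      induction ha using Submodule.span_induction with
      | mem a ha => obtain ⟨x, rfl⟩ := ha; exact h x
      | zero => exact inner_zero_left _
      | add a a' _ _ h1 h2 => rw [inner_add_left, h1, h2, add_zero]
      | smul c a _ h1 => rw [inner_smul_left, h1, mul_zero]
  have hi : ∀ x, ∀ b ∈ M, ρ x b ∈ M := fun x b hb =>
    (hmem _).2 fun y => by rw [inner_r hρ, ← mul_ap]; exact (hmem _).1 hb _
  have hi' : ∀ x, ∀ a ∈ Mᗮ, ρ x a ∈ Mᗮ := fun x a ha => by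
    rw [Submodule.mem_orthogonal] at ha ⊢
    intro b hb
    rw [inner_r hρ]
    exact ha _ (hi _ b hb)
  haveI : M.HasOrthogonalProjection := by rw [hM]; infer_instance
  refine ⟨Mᗮ.starProjection, ?_, fun a => ?_, ?_, fun x a => ?_, fun b hb a => ?_⟩
  · rw [← star_eq_adjoint]
    exact (isSelfAdjoint_starProjection _).star_eq
  · exact Submodule.starProjection_eq_self_iff.2 (Submodule.starProjection_apply_mem _ _)
  · refine Submodule.starProjection_eq_self_iff.2 ?_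
    rw [Submodule.mem_orthogonal']
    intro b hb
    have h1 := (hmem b).1 hb 1
    rwa [map_one] at h1
  · refine Submodule.eq_starProjection_of_mem_orthogonal
      (hi' x _ (Submodule.starProjection_apply_mem _ _)) ?_
    rw [← map_sub, Submodule.orthogonal_orthogonal]
    refine hi x _ ?_
    have h1 := Submodule.sub_starProjection_mem_orthogonal (K := Mᗮ) a
    rwa [Submodule.orthogonal_orthogonal] at h1
  · exact (Submodule.mem_orthogonal' _ _).1 (Submodule.starProjection_apply_mem _ _) b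
      ((hmem b).2 hb)

/-- **Counting**: finitely many translates of `u` meet all the others, modulo `ρ`. -/
theorem cnt (hρ : ∀ x, adjoint (ρ x) = ρ x⁻¹) (hU : ∀ l, adjoint (U l) = U l⁻¹)
    (hc : ∀ x l, ρ x * U l = U l * ρ x)
    (hf : ∀ η, HasSum (fun p : ι × H => ‖⟪ρ p.2 (ξ p.1), η⟫_ℂ‖ ^ 2) (‖η‖ ^ 2)) {u : ℋ}
    (hu : u ≠ 0) : ∃ L₀ : Finset L, ∀ l, ∃ l₀ ∈ L₀, ∃ x, ⟪U l u, ρ x (U l₀ u)⟫_ℂ ≠ 0 := by
  classical
  by_contra hcon
  push Not at hcon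
  have hca : ∀ x l a, ρ x (U l a) = U l (ρ x a) := fun x l a =>
    congrArg (fun T : ℋ →L[ℂ] ℋ => T a) (hc x l)
  obtain ⟨P, p1, p2, p3, p4, p5⟩ := exists_cyc hρ u
  have pi : ∀ a b, ⟪P a, b⟫_ℂ = ⟪a, P b⟫_ℂ := fun a b => by rw [← adjoint_inner_right, p1]
  -- large families
  have hF : ∀ m : ℕ, ∃ F : Finset L, F.card = m ∧ ∀ l ∈ F, ∀ l' ∈ F, l ≠ l' →
      ∀ x, ⟪U l u, ρ x (U l' u)⟫_ℂ = 0 := by
    intro m
    induction m with
    | zero => exact ⟨∅, rfl, fun l hl => absurd hl (Finset.notMem_empty l)⟩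
    | succ m ih =>
      obtain ⟨F, h1, h2⟩ := ih
      obtain ⟨l, hl⟩ := hcon F
      have hlF : l ∉ F := fun h => by
        have h3 := hl l h 1
        rw [map_one, ContinuousLinearMap.one_apply, inner_self_eq_zero, ← norm_eq_zero,
          nrm hU, norm_eq_zero] at h3
        exact hu h3
      refine ⟨insert l F, by rw [Finset.card_insert_of_notMem hlF, h1], ?_⟩
      intro a ha b hb hab x
      rcases Finset.mem_insert.1 ha with rfl | ha' <;> rcases Finset.mem_insert.1 hb with rfl | hb'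
      · exact (hab rfl).elim
      · exact hl b hb' x
      · rw [inner_r hρ, ← inner_conj_symm, hl a ha' x⁻¹, map_zero]
      · exact h2 a ha' b hb' hab x
  have horth : ∀ l l', (∀ x, ⟪U l u, ρ x (U l' u)⟫_ℂ = 0) → ∀ a b, ⟪U l (P a), U l' (P b)⟫_ℂ = 0 := by
    intro l l' h a b
    rw [inner_l hU]
    refine p5 _ (fun x => ?_) a
    rw [← inner_l hU, inner_r hU, ← inner_conj_symm, p5 _ (fun y => ?_) b, map_zero]
    rw [← inner_l hU, ← inner_conj_symm, ← hca, ← hca, inner_l hρ, ← mul_ap, h, map_zero]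
  obtain ⟨k, hk⟩ : ∃ k, P (ξ k) ≠ 0 := by
    by_contra hn
    push Not at hn
    have h1 := hf u
    have h2 : ∀ p : ι × H, ‖⟪ρ p.2 (ξ p.1), u⟫_ℂ‖ ^ 2 = 0 := fun p => by
      rw [← p3, ← pi, p4, hn, map_zero, inner_zero_left, norm_zero, zero_pow two_ne_zero]
    simp only [h2] at h1
    exact hu (norm_eq_zero.1 (pow_eq_zero_iff two_ne_zero |>.1 (h1.unique hasSum_zero)))
  have hw : 0 < ‖P (ξ k)‖ ^ 2 := pow_pos (norm_pos_iff.2 hk) 2
  obtain ⟨m, hm⟩ := exists_nat_gt ((∑ i, ‖ξ i‖ ^ 2) / ‖P (ξ k)‖ ^ 2)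
  obtain ⟨F, h1, h2⟩ := hF m
  have h3 : HasSum (fun p : ι × H => ∑ l ∈ F, ‖⟪ρ p.2 (ξ p.1), U l (P (ξ k))⟫_ℂ‖ ^ 2)
      (∑ l ∈ F, ‖U l (P (ξ k))‖ ^ 2) := hasSum_sum fun l _ => hf _
  have h4 : ∑ l ∈ F, ‖U l (P (ξ k))‖ ^ 2 ≤ ∑ i, ‖ξ i‖ ^ 2 := by
    refine hasSum_le_of_sum_le h3 (sum_prod_le _
      (fun p => Finset.sum_nonneg fun _ _ => sq_nonneg _) _ fun i G => ?_)
    rw [Finset.sum_comm]
    refine le_trans (Finset.sum_le_sum fun l _ => ?_)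
      (bessel_orth F (fun l => U l (P (U l⁻¹ (ξ i)))) (ξ i)
        (fun l hl l' hl' hne => horth l l' (h2 l hl l' hl' hne) _ _) fun l => ?_)
    · rw [nrm hU]
      refine le_trans (le_of_eq (Finset.sum_congr rfl fun x _ => ?_))
        (sum_frame_le hf k G (P (U l⁻¹ (ξ i))))
      rw [inner_l hρ, hca, inner_r hU, ← p4, ← pi, ← inner_conj_symm, RCLike.norm_conj]
    · rw [nrm hU, inner_l hU, ← re_self, pi, pi, p2]
  simp only [nrm hU, Finset.sum_const, h1, nsmul_eq_mul] at h4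
  rw [div_lt_iff₀ hw] at hm
  exact absurd h4 (not_le.2 hm)

end Vale.Agent.P092EN
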