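import Vale.Agent.P092EN.Defs
import Vale.Agent.P092EN.Cls

/-!
P092, soft end (helper22): completely positive maps on `C(Y)`, square integrable operators.
-/

set_option linter.all false

open scoped InnerProductSpace
open Filter Topology ContinuousLinearMap

namespace Vale.Agent.P092EN

open Vale.Agent.P092.RC (Cm)
open Vale.Agent.P092.H494.PW (WLim)

variable {K : Type} [NormedAddCommGroup K] [InnerProductSpace ℂ K] [CompleteSpace K]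

theorem re_self (η : K) : (⟪η, η⟫_ℂ).re = ‖η‖ ^ 2 := inner_self_eq_norm_sq (𝕜 := ℂ) η

section cp

variable {Y : Type} [TopologicalSpace Y] [CompactSpace Y] {Ψ Φ : C(Y, ℂ) →ₗ[ℂ] (K →L[ℂ] K)}

theorem Cp.zero : Cp (0 : C(Y, ℂ) →ₗ[ℂ] (K →L[ℂ] K)) where
  adj f := by simp
  cp n f ζ := by simp

theorem Cp.add (h : Cp Ψ) (h' : Cp Φ) : Cp (Ψ + Φ) where
  adj f := by rw [LinearMap.add_apply, LinearMap.add_apply, map_add, h.adj, h'.adj]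
  cp n f ζ := by
    have h1 := add_nonneg (h.cp n f ζ) (h'.cp n f ζ)
    rw [← Complex.add_re, ← Finset.sum_add_distrib] at h1
    simp only [← Finset.sum_add_distrib, ← inner_add_right] at h1
    exact h1

theorem Cp.smul (h : Cp Ψ) {c : ℝ} (hc : 0 ≤ c) : Cp ((c : ℂ) • Ψ) where
  adj f := by
    rw [LinearMap.smul_apply, LinearMap.smul_apply, ← star_eq_adjoint, star_smul, star_eq_adjoint,
      h.adj, Complex.star_def, Complex.conj_ofReal]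
  cp n f ζ := by
    have h1 := mul_nonneg hc (h.cp n f ζ)
    rw [← Complex.re_ofReal_mul, Finset.mul_sum] at h1
    simp only [Finset.mul_sum, ← inner_smul_right] at h1
    exact h1

theorem Cp.cj (h : Cp Ψ) (u : K →L[ℂ] K) : Cp (cj u Ψ) where
  adj f := by
    rw [cj_apply, cj_apply, ← h.adj, ← star_eq_adjoint, ← star_eq_adjoint, ← star_eq_adjoint,
      star_mul, star_mul, star_star, mul_assoc]
  cp n f ζ := by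
    simp only [inner_cj]
    exact h.cp n f fun i => adjoint u (ζ i)

theorem Cp.sum {ι : Type} (s : Finset ι) {Θ : ι → (C(Y, ℂ) →ₗ[ℂ] (K →L[ℂ] K))}
    (h : ∀ i, Cp (Θ i)) : Cp (∑ i ∈ s, Θ i) := by
  induction s using Finset.cons_induction with
  | empty => rw [Finset.sum_empty]; exact Cp.zero
  | cons a s ha ih => rw [Finset.sum_cons]; exact (h a).add ih

theorem Cp.lim {ι : Type} {l : Filter ι} [l.NeBot] {Θ : ι → (C(Y, ℂ) →ₗ[ℂ] (K →L[ℂ] K))}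
    (h : ∀ i, Cp (Θ i)) (hl : ∀ f, WLim l (fun i => Θ i f) (Ψ f)) : Cp Ψ where
  adj f := by
    have h1 := (hl f).adj
    simp only [fun i => (h i).adj f] at h1
    exact h1.unique (hl (star f))
  cp n f ζ := by
    have h1 : Tendsto (fun k => (∑ i, ∑ j, ⟪ζ i, Θ k (star (f i) * f j) (ζ j)⟫_ℂ).re) l
        (𝓝 (∑ i, ∑ j, ⟪ζ i, Ψ (star (f i) * f j) (ζ j)⟫_ℂ).re) :=
      (Complex.continuous_re.tendsto _).comp
        (tendsto_finset_sum _ fun i _ => tendsto_finset_sum _ fun j _ => hl _ _ _)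
    exact ge_of_tendsto' h1 fun k => (h k).cp n f ζ

theorem Cp.pos (h : Cp Ψ) (f : C(Y, ℂ)) (ζ : K) : 0 ≤ (⟪ζ, Ψ (star f * f) ζ⟫_ℂ).re := by
  have h1 := h.cp 1 (fun _ => f) (fun _ => ζ)
  simpa using h1

theorem Cp.pos_one (h : Cp Ψ) (ζ : K) : 0 ≤ (⟪ζ, Ψ 1 ζ⟫_ℂ).re := by
  have h1 := h.pos 1 ζ
  rwa [star_one, one_mul] at h1

theorem Cp.adj_one (h : Cp Ψ) : adjoint (Ψ 1) = Ψ 1 := by rw [h.adj, star_one]

theorem Cp.two (h : Cp Ψ) (f : C(Y, ℂ)) (η ζ : K) :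
    2 * (⟪η, Ψ f ζ⟫_ℂ).re ≤ (⟪η, Ψ 1 η⟫_ℂ).re + (⟪ζ, Ψ (star f * f) ζ⟫_ℂ).re := by
  have h1 := h.cp 2 ![1, f] ![-η, ζ]
  simp only [Fin.sum_univ_two, Matrix.cons_val_zero, Matrix.cons_val_one, star_one, one_mul,
    mul_one, map_neg, inner_neg_left, inner_neg_right, neg_neg, Complex.add_re,
    Complex.neg_re] at h1
  have h2 : (⟪ζ, Ψ (star f) η⟫_ℂ).re = (⟪η, Ψ f ζ⟫_ℂ).re := by
    rw [← h.adj, adjoint_inner_right, ← inner_conj_symm, Complex.conj_re]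
  rw [h2] at h1
  linarith

theorem Cp.mono (h : Cp Ψ) (f : C(Y, ℂ)) (ζ : K) :
    (⟪ζ, Ψ (star f * f) ζ⟫_ℂ).re ≤ ‖f‖ ^ 2 * (⟪ζ, Ψ 1 ζ⟫_ℂ).re := by
  let g : C(Y, ℂ) := ⟨fun y => ((Real.sqrt (‖f‖ ^ 2 - ‖f y‖ ^ 2) : ℝ) : ℂ), by fun_prop⟩
  have e : star g * g = ((‖f‖ ^ 2 : ℝ) : ℂ) • (1 : C(Y, ℂ)) - star f * f := by
    ext y
    have h1 : 0 ≤ ‖f‖ ^ 2 - ‖f y‖ ^ 2 :=
      sub_nonneg.2 (pow_le_pow_left₀ (norm_nonneg _) (f.norm_coe_le_norm y) 2)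
    change star ((Real.sqrt (‖f‖ ^ 2 - ‖f y‖ ^ 2) : ℝ) : ℂ) *
      ((Real.sqrt (‖f‖ ^ 2 - ‖f y‖ ^ 2) : ℝ) : ℂ) = ((‖f‖ ^ 2 : ℝ) : ℂ) • (1 : ℂ) - star (f y) * f y
    rw [Complex.star_def, Complex.conj_ofReal, ← Complex.ofReal_mul, Real.mul_self_sqrt h1,
      Complex.conj_mul', smul_eq_mul, mul_one]
    push_cast
    ring
  have h1 := h.pos g ζ
  rw [e, map_sub, map_smul, ContinuousLinearMap.sub_apply, ContinuousLinearMap.smul_apply,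
    inner_sub_right, inner_smul_right, Complex.sub_re, Complex.re_ofReal_mul] at h1
  linarith

/-- Kadison-Schwarz for subunital maps -/
theorem Cp.ks (h : Cp Ψ) (h1 : ∀ η, (⟪η, Ψ 1 η⟫_ℂ).re ≤ ‖η‖ ^ 2) (f : C(Y, ℂ)) (ζ : K) :
    ‖Ψ f ζ‖ ^ 2 ≤ (⟪ζ, Ψ (star f * f) ζ⟫_ℂ).re := by
  have h2 := h.two f (Ψ f ζ) ζ
  rw [re_self] at h2
  have h3 := h1 (Ψ f ζ)
  linarith

theorem Cp.norm_le (h : Cp Ψ) (h1 : ∀ η, (⟪η, Ψ 1 η⟫_ℂ).re ≤ ‖η‖ ^ 2) (f : C(Y, ℂ)) :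
    ‖Ψ f‖ ≤ ‖f‖ := by
  refine ContinuousLinearMap.opNorm_le_bound _ (norm_nonneg _) fun ζ => ?_
  refine le_of_sq_le_sq ?_ (by positivity)
  calc ‖Ψ f ζ‖ ^ 2 ≤ ‖f‖ ^ 2 * (⟪ζ, Ψ 1 ζ⟫_ℂ).re := (h.ks h1 f ζ).trans (h.mono f ζ)
    _ ≤ ‖f‖ ^ 2 * ‖ζ‖ ^ 2 := mul_le_mul_of_nonneg_left (h1 ζ) (sq_nonneg _)
    _ = (‖f‖ * ‖ζ‖) ^ 2 := by ring

theorem Ucp.le_one (h : Ucp Ψ) (η : K) : (⟪η, Ψ 1 η⟫_ℂ).re ≤ ‖η‖ ^ 2 := by
  rw [h.one]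
  exact (re_self η).le

theorem Ucp.ks (h : Ucp Ψ) (f : C(Y, ℂ)) (ζ : K) :
    ‖Ψ f ζ‖ ^ 2 ≤ (⟪ζ, Ψ (star f * f) ζ⟫_ℂ).re := h.toCp.ks h.le_one f ζ

theorem Ucp.norm_le (h : Ucp Ψ) (f : C(Y, ℂ)) : ‖Ψ f‖ ≤ ‖f‖ := h.toCp.norm_le h.le_one f

/-- a homomorphism as a linear map -/
noncomputable def lin (E : C(Y, ℂ) →⋆ₐ[ℂ] (K →L[ℂ] K)) : C(Y, ℂ) →ₗ[ℂ] (K →L[ℂ] K) :=
  (E : C(Y, ℂ) →ₐ[ℂ] (K →L[ℂ] K)).toLinearMap

theorem lin_apply (E : C(Y, ℂ) →⋆ₐ[ℂ] (K →L[ℂ] K)) (f : C(Y, ℂ)) : lin E f = E f := rfl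

theorem ucp_lin (E : C(Y, ℂ) →⋆ₐ[ℂ] (K →L[ℂ] K)) : Ucp (lin E) where
  adj f := by rw [lin_apply, lin_apply, map_star, star_eq_adjoint]
  cp n f ζ := by
    have e : ∑ i, ∑ j, ⟪ζ i, lin E (star (f i) * f j) (ζ j)⟫_ℂ =
        ⟪∑ i, E (f i) (ζ i), ∑ j, E (f j) (ζ j)⟫_ℂ := by
      rw [sum_inner]
      refine Finset.sum_congr rfl fun i _ => ?_
      rw [inner_sum]
      refine Finset.sum_congr rfl fun j _ => ?_
      rw [lin_apply, map_mul, map_star, star_eq_adjoint, ContinuousLinearMap.mul_apply,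
        adjoint_inner_right]
    rw [e, re_self]
    exact sq_nonneg _
  one := map_one E

end cp

section rep

variable {Γ : Type} [Group Γ] {lam : Γ →* (K →L[ℂ] K)}

theorem mul_inv_op (ρ : Γ →* (K →L[ℂ] K)) (g : Γ) : ρ g * ρ g⁻¹ = 1 := by
  rw [← map_mul, mul_inv_cancel, map_one]

theorem inv_mul_op (ρ : Γ →* (K →L[ℂ] K)) (g : Γ) : ρ g⁻¹ * ρ g = 1 := by
  rw [← map_mul, inv_mul_cancel, map_one]

theorem mul_ap (ρ : Γ →* (K →L[ℂ] K)) (g h : Γ) (u : K) : ρ (g * h) u = ρ g (ρ h u) := by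
  rw [map_mul]; rfl

theorem inv_ap (ρ : Γ →* (K →L[ℂ] K)) (g : Γ) (u : K) : ρ g⁻¹ (ρ g u) = u := by
  rw [← mul_ap, inv_mul_cancel, map_one]; rfl

theorem ap_inv (ρ : Γ →* (K →L[ℂ] K)) (g : Γ) (u : K) : ρ g (ρ g⁻¹ u) = u := by
  rw [← mul_ap, mul_inv_cancel, map_one]; rfl

theorem inner_l (h : ∀ γ, adjoint (lam γ) = lam γ⁻¹) (x : Γ) (u v : K) :
    ⟪lam x u, v⟫_ℂ = ⟪u, lam x⁻¹ v⟫_ℂ := by
  rw [← h, adjoint_inner_right]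

theorem inner_r (h : ∀ γ, adjoint (lam γ) = lam γ⁻¹) (x : Γ) (u v : K) :
    ⟪u, lam x v⟫_ℂ = ⟪lam x⁻¹ u, v⟫_ℂ := by
  rw [← h, adjoint_inner_left]

theorem nrm (h : ∀ γ, adjoint (lam γ) = lam γ⁻¹) (x : Γ) (u : K) : ‖lam x u‖ = ‖u‖ := by
  have h1 : ‖lam x u‖ ^ 2 = ‖u‖ ^ 2 := by rw [← re_self, inner_l h, inv_ap, re_self]
  exact (pow_left_inj₀ (norm_nonneg _) (norm_nonneg _) two_ne_zero).mp h1

/-- the Schur test -/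
theorem sum_le_of_fin (h : ∀ γ, adjoint (lam γ) = lam γ⁻¹) {a : K →L[ℂ] K} (ha : adjoint a = a)
    (L : Finset Γ) (hL : ∀ γ, γ ∉ L → a * (lam γ * a * lam γ⁻¹) = 0) (F : Finset Γ) (u : K) :
    ∑ x ∈ F, ‖a (lam x u)‖ ^ 2 ≤ (L.card * ‖a‖ ^ 2) * ‖u‖ ^ 2 := by
  classical
  obtain ⟨t, ht⟩ : ∃ t : Γ → ℝ, ∀ x, t x = ‖a (lam x u)‖ := ⟨_, fun _ => rfl⟩
  have ht0 : ∀ x, 0 ≤ t x := fun x => by rw [ht]; exact norm_nonneg _
  simp only [← ht]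
  obtain ⟨Q, hQ⟩ : ∃ Q : ℝ, Q = ∑ x ∈ F, t x ^ 2 := ⟨_, rfl⟩
  rw [← hQ]
  have hQ0 : 0 ≤ Q := by rw [hQ]; exact Finset.sum_nonneg fun x _ => sq_nonneg _
  obtain ⟨w, hw⟩ : ∃ w : Γ → K, ∀ x, w x = lam x⁻¹ (a (a (lam x u))) := ⟨_, fun _ => rfl⟩
  have hai : ∀ p q : K, ⟪a p, q⟫_ℂ = ⟪p, a q⟫_ℂ := fun p q => by
    rw [← adjoint_inner_right, ha]
  have h1 : (⟪∑ x ∈ F, w x, u⟫_ℂ).re = Q := by
    rw [sum_inner, Complex.re_sum, hQ]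
    refine Finset.sum_congr rfl fun x _ => ?_
    rw [hw, inner_l h, inv_inv, hai, re_self, ht]
  have hwn : ∀ x, ‖w x‖ ≤ ‖a‖ * t x := fun x => by
    rw [hw, nrm h, ht]
    exact a.le_opNorm _
  have h2 : ∀ x y, (⟪w x, w y⟫_ℂ).re ≤
      if x * y⁻¹ ∈ L then ‖a‖ ^ 2 * ((t x ^ 2 + t y ^ 2) / 2) else 0 := by
    intro x y
    split_ifs with hxy
    · have h3 : (⟪w x, w y⟫_ℂ).re ≤ (‖a‖ * t x) * (‖a‖ * t y) :=
        ((Complex.re_le_norm _).trans (norm_inner_le_norm _ _)).trans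
          (mul_le_mul (hwn x) (hwn y) (norm_nonneg _) (mul_nonneg (norm_nonneg _) (ht0 x)))
      refine h3.trans ?_
      have h4 : t x * t y ≤ (t x ^ 2 + t y ^ 2) / 2 := by nlinarith [sq_nonneg (t x - t y)]
      calc (‖a‖ * t x) * (‖a‖ * t y) = ‖a‖ ^ 2 * (t x * t y) := by ring
        _ ≤ _ := mul_le_mul_of_nonneg_left h4 (sq_nonneg _)
    · have h3 : ∀ v, a (lam (x * y⁻¹) (a v)) = 0 := by
        intro v
        have h4 := congrArg (fun T : K →L[ℂ] K => T (lam (x * y⁻¹) v)) (hL _ hxy)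
        have h5 : a (lam (x * y⁻¹) (a (lam (x * y⁻¹)⁻¹ (lam (x * y⁻¹) v)))) = 0 := h4
        rwa [inv_ap] at h5
      rw [hw, hw, inner_l h, inv_inv, ← mul_ap, hai, h3, inner_zero_right, Complex.zero_re]
  have c1 : ∀ x, ((F.filter fun y => x * y⁻¹ ∈ L).card : ℝ) ≤ L.card := fun x => by
    exact_mod_cast Finset.card_le_card_of_injOn (fun y => x * y⁻¹)
      (fun y hy => (Finset.mem_filter.1 hy).2) (fun y _ z _ e => by simpa using e)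
  have c2 : ∀ y, ((F.filter fun x => x * y⁻¹ ∈ L).card : ℝ) ≤ L.card := fun y => by
    exact_mod_cast Finset.card_le_card_of_injOn (fun x => x * y⁻¹)
      (fun x hx => (Finset.mem_filter.1 hx).2) (fun x _ z _ e => by simpa using e)
  have h3 : ‖∑ x ∈ F, w x‖ ^ 2 ≤ (L.card * ‖a‖ ^ 2) * Q := by
    rw [← re_self, sum_inner, Complex.re_sum]
    simp only [inner_sum, Complex.re_sum]
    have e1 : ∀ x y, (if x * y⁻¹ ∈ L then ‖a‖ ^ 2 * ((t x ^ 2 + t y ^ 2) / 2) else 0) =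
        (if x * y⁻¹ ∈ L then ‖a‖ ^ 2 / 2 * t x ^ 2 else 0) +
        (if x * y⁻¹ ∈ L then ‖a‖ ^ 2 / 2 * t y ^ 2 else 0) := fun x y => by
      split_ifs <;> ring
    have b1 : ∑ x ∈ F, ∑ y ∈ F, (if x * y⁻¹ ∈ L then ‖a‖ ^ 2 / 2 * t x ^ 2 else 0) ≤
        ∑ x ∈ F, L.card * (‖a‖ ^ 2 / 2 * t x ^ 2) := by
      refine Finset.sum_le_sum fun x _ => ?_
      rw [← Finset.sum_filter, Finset.sum_const, nsmul_eq_mul]
      exact mul_le_mul_of_nonneg_right (c1 x) (by positivity)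
    have b2 : ∑ x ∈ F, ∑ y ∈ F, (if x * y⁻¹ ∈ L then ‖a‖ ^ 2 / 2 * t y ^ 2 else 0) ≤
        ∑ y ∈ F, L.card * (‖a‖ ^ 2 / 2 * t y ^ 2) := by
      rw [Finset.sum_comm]
      refine Finset.sum_le_sum fun y _ => ?_
      rw [← Finset.sum_filter, Finset.sum_const, nsmul_eq_mul]
      exact mul_le_mul_of_nonneg_right (c2 y) (by positivity)
    have b3 : ∑ x ∈ F, (L.card : ℝ) * (‖a‖ ^ 2 / 2 * t x ^ 2) = L.card * ‖a‖ ^ 2 / 2 * Q := by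
      rw [hQ, Finset.mul_sum]
      exact Finset.sum_congr rfl fun x _ => by ring
    calc ∑ x ∈ F, ∑ y ∈ F, (⟪w x, w y⟫_ℂ).re
        ≤ ∑ x ∈ F, ∑ y ∈ F, ((if x * y⁻¹ ∈ L then ‖a‖ ^ 2 / 2 * t x ^ 2 else 0) +
          (if x * y⁻¹ ∈ L then ‖a‖ ^ 2 / 2 * t y ^ 2 else 0)) :=
          Finset.sum_le_sum fun x _ => Finset.sum_le_sum fun y _ => (h2 x y).trans_eq (e1 x y)
      _ ≤ L.card * ‖a‖ ^ 2 / 2 * Q + L.card * ‖a‖ ^ 2 / 2 * Q := by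
          simp only [Finset.sum_add_distrib]
          exact add_le_add (b1.trans_eq b3) (b2.trans_eq b3)
      _ = _ := by ring
  have h4 : Q ≤ ‖∑ x ∈ F, w x‖ * ‖u‖ := by
    rw [← h1]
    exact (Complex.re_le_norm _).trans (norm_inner_le_norm _ _)
  have h5 : Q * Q ≤ ((L.card * ‖a‖ ^ 2) * ‖u‖ ^ 2) * Q := by
    calc Q * Q ≤ (‖∑ x ∈ F, w x‖ * ‖u‖) * (‖∑ x ∈ F, w x‖ * ‖u‖) := mul_self_le_mul_self hQ0 h4
      _ = ‖∑ x ∈ F, w x‖ ^ 2 * ‖u‖ ^ 2 := by ring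
      _ ≤ ((L.card * ‖a‖ ^ 2) * Q) * ‖u‖ ^ 2 := mul_le_mul_of_nonneg_right h3 (sq_nonneg _)
      _ = _ := by ring
  rcases hQ0.eq_or_lt with h6 | h6
  · rw [← h6]; positivity
  · exact le_of_mul_le_mul_right h5 h6

/-- finitely wandering operators are square integrable -/
theorem FW.ib (h : ∀ γ, adjoint (lam γ) = lam γ⁻¹) {a : K →L[ℂ] K} (ha : adjoint a = a)
    (hw : FW lam a) : IB lam a :=
  ⟨_, sum_le_of_fin h ha hw.toFinset fun γ hγ => by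
    by_contra hn
    exact hγ (hw.mem_toFinset.2 hn)⟩

theorem IB.exists_pos {a : K →L[ℂ] K} (h : IB lam a) :
    ∃ N : ℝ, 0 < N ∧ ∀ (F : Finset Γ) (η : K), ∑ γ ∈ F, ‖a (lam γ η)‖ ^ 2 ≤ N * ‖η‖ ^ 2 := by
  obtain ⟨N, hN⟩ := h
  exact ⟨max N 1, lt_max_of_lt_right one_pos, fun F η =>
    (hN F η).trans (mul_le_mul_of_nonneg_right (le_max_left _ _) (sq_nonneg _))⟩

end rep

end Vale.Agent.P092EN
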