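import Vale.Agent.P092.RC.Defs

/-!
P092, soft end (helper22): the interface. Operator legs, unital completely positive maps,
uniqueness of a boundary map, movable families.
-/

set_option linter.all false

open scoped InnerProductSpace
open Filter Topology ContinuousLinearMap

namespace Vale.Agent.P092EN

open Vale.Agent.P092.RC (Cm)

section op

variable {K : Type} [NormedAddCommGroup K] [InnerProductSpace ℂ K] [CompleteSpace K]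
  {E Γ S : Type} [Group E] [Group Γ] [Group S]

/-- `a` is square integrable along the group: `∑ γ* a* a γ` is bounded -/
def IB (lam : Γ →* (K →L[ℂ] K)) (a : K →L[ℂ] K) : Prop :=
  ∃ N : ℝ, ∀ (F : Finset Γ) (η : K), ∑ γ ∈ F, ‖a (lam γ η)‖ ^ 2 ≤ N * ‖η‖ ^ 2

/-- `a` is annihilated by all but finitely many of its translates -/
def FW (lam : Γ →* (K →L[ℂ] K)) (a : K →L[ℂ] K) : Prop :=
  {γ | a * (lam γ * a * lam γ⁻¹) ≠ 0}.Finite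

/-- **An operator leg**: a commuting family `C` of selfadjoint operators in the commutant of `W`,
stable under the source `π` and the target `lam`, whose square integrable members have no common
kernel. -/
structure OLeg (π : E →* (K →L[ℂ] K)) (lam : Γ →* (K →L[ℂ] K)) (W C : Set (K →L[ℂ] K)) :
    Prop where
  sa : ∀ a ∈ C, adjoint a = a
  com : ∀ a ∈ C, ∀ b ∈ C, a * b = b * a
  cm : ∀ a ∈ C, Cm W a
  cov : ∀ γ, ∀ a ∈ C, lam γ * a * lam γ⁻¹ ∈ C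
  pcov : ∀ g, ∀ a ∈ C, π g * a * π g⁻¹ ∈ C
  nd : ∀ ξ : K, (∀ a ∈ C, IB lam a → a ξ = 0) → ξ = 0

/-- every infinite subgroup with normaliser of finite index moves a partition of unity in `D` -/
def Mov (lam : Γ →* (K →L[ℂ] K)) (D : Set (K →L[ℂ] K)) : Prop :=
  ∀ Λ : Subgroup Γ, (Subgroup.normalizer (Λ : Set Γ)).FiniteIndex → Infinite Λ →
    ∃ (n : ℕ) (l : Fin n → Γ) (a : Fin n → (K →L[ℂ] K)), (∀ j, l j ∈ Λ) ∧ (∀ j, a j ∈ D) ∧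
      ∑ j, a j = 1 ∧ ∀ j, a j * (lam (l j) * a j * lam (l j)⁻¹) = 0

variable {Y : Type} [TopologicalSpace Y] [CompactSpace Y]

/-- completely positive maps -/
structure Cp (Ψ : C(Y, ℂ) →ₗ[ℂ] (K →L[ℂ] K)) : Prop where
  adj : ∀ f, adjoint (Ψ f) = Ψ (star f)
  cp : ∀ (n : ℕ) (f : Fin n → C(Y, ℂ)) (ζ : Fin n → K),
    0 ≤ (∑ i, ∑ j, ⟪ζ i, Ψ (star (f i) * f j) (ζ j)⟫_ℂ).re

/-- unital completely positive maps -/
structure Ucp (Ψ : C(Y, ℂ) →ₗ[ℂ] (K →L[ℂ] K)) : Prop extends Cp Ψ where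
  one : Ψ 1 = 1

/-- covariance under the target group -/
def Cov [MulAction Γ Y] (lam : Γ →* (K →L[ℂ] K)) (Ψ : C(Y, ℂ) → (K →L[ℂ] K)) : Prop :=
  ∀ γ (f f' : C(Y, ℂ)), (∀ y, f' (γ • y) = f y) → lam γ * Ψ f * lam γ⁻¹ = Ψ f'

/-- **Uniqueness of the boundary map** `Φ`: every unital completely positive covariant map with
values in the commutant of `W`, invariant under `σ`, is equal to `Φ`. -/
def UQ [MulAction Γ Y] (σ : S →* (K →L[ℂ] K)) (lam : Γ →* (K →L[ℂ] K)) (W : Set (K →L[ℂ] K))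
    (Φ : C(Y, ℂ) → (K →L[ℂ] K)) : Prop :=
  ∀ Ψ : C(Y, ℂ) →ₗ[ℂ] (K →L[ℂ] K), Ucp Ψ → (∀ f, Cm W (Ψ f)) → Cov lam Ψ →
    (∀ s f, σ s * Ψ f * σ s⁻¹ = Ψ f) → ∀ f, Ψ f = Φ f

end op

/-- a subgroup with a fixed point and with normaliser of finite index is finite -/
def NF (Γ Y : Type) [Group Γ] [MulAction Γ Y] : Prop :=
  ∀ Λ : Subgroup Γ, (Subgroup.normalizer (Λ : Set Γ)).FiniteIndex → (∃ y : Y, ∀ l ∈ Λ, l • y = y) →
    Finite Λ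

section uleg

variable {K : Type} [NormedAddCommGroup K] [InnerProductSpace ℂ K] [CompleteSpace K]
  {E Γ S : Type} [Group E] [Group Γ] [Group S] {Y : Type} [TopologicalSpace Y] [CompactSpace Y]
  [MulAction Γ Y]

/-- **One leg**: an operator leg `C` which contains a boundary calculus `Φ`, unique among the
covariant maps invariant under the solvable group `S`. -/
structure ULeg (π : E →* (K →L[ℂ] K)) (lam : Γ →* (K →L[ℂ] K)) (W C : Set (K →L[ℂ] K))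
    (ι : S →* E) (Φ : C(Y, ℂ) →⋆ₐ[ℂ] (K →L[ℂ] K)) : Prop where
  leg : OLeg π lam W C
  mem : ∀ f : C(Y, ℂ), star f = f → Φ f ∈ C
  cov : Cov lam Φ
  sol : Group.IsSolvable S
  uq : UQ (π.comp ι) lam W Φ
  nf : NF Γ Y

end uleg

section three

variable {ℋ : Type} [NormedAddCommGroup ℋ] [InnerProductSpace ℂ ℋ] [CompleteSpace ℋ]
  {Λ Γ₁ Γ₂ : Type} [Group Λ] [Group Γ₁] [Group Γ₂]

/-- a finite Parseval family for two commuting representations -/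
def Fr (R₁ : Γ₁ →* (ℋ →L[ℂ] ℋ)) (R₂ : Γ₂ →* (ℋ →L[ℂ] ℋ)) : Prop :=
  ∃ (ι : Type) (_ : Fintype ι) (ξ : ι → ℋ), ∀ η : ℋ,
    HasSum (fun p : ι × Γ₁ × Γ₂ => ‖⟪R₁ p.2.1 (R₂ p.2.2 (ξ p.1)), η⟫_ℂ‖ ^ 2) (‖η‖ ^ 2)

/-- three commuting unitary representations, each pair has a finite Parseval family -/
structure Tri3 (V : Λ →* (ℋ →L[ℂ] ℋ)) (R₁ : Γ₁ →* (ℋ →L[ℂ] ℋ)) (R₂ : Γ₂ →* (ℋ →L[ℂ] ℋ)) :
    Prop where
  adjV : ∀ g, adjoint (V g) = V g⁻¹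
  adj₁ : ∀ g, adjoint (R₁ g) = R₁ g⁻¹
  adj₂ : ∀ g, adjoint (R₂ g) = R₂ g⁻¹
  comm₁ : ∀ g h, V g * R₁ h = R₁ h * V g
  comm₂ : ∀ g h, V g * R₂ h = R₂ h * V g
  comm₁₂ : ∀ g h, R₁ g * R₂ h = R₂ h * R₁ g
  ne : ∃ u : ℋ, u ≠ 0
  f₁₂ : Fr R₁ R₂
  f₀₂ : Fr V R₂
  f₀₁ : Fr V R₁

/-- overlap of the source with the targets (three groups) -/
def Over3 (V : Λ →* (ℋ →L[ℂ] ℋ)) (R₁ : Γ₁ →* (ℋ →L[ℂ] ℋ)) (R₂ : Γ₂ →* (ℋ →L[ℂ] ℋ)) : Prop :=
  ∃ (r : ℕ) (ζ : Fin r → ℋ) (κ : ℝ), 0 < κ ∧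
    ∀ g, ∃ i j, ∃ (a : Γ₁) (b : Γ₂), κ ≤ ‖⟪V g (ζ i), R₁ a (R₂ b (ζ j))⟫_ℂ‖

end three

end Vale.Agent.P092EN
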