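import Vale.Agent.P092EN.Cf

/-!
P092, descent (helper22): a leg for the target group on the induced space gives a leg for the
lattice.
-/

set_option linter.all false

open scoped InnerProductSpace ENNReal
open Filter Topology ContinuousLinearMap TopologicalSpace MeasureTheory

namespace Vale.Agent.P092EN

open Vale.Agent.P092 Vale.Agent.P092.H264
open Vale.Agent.P092.RC (Cm)
open Vale.Agent.P092.H790 Vale.Agent.P092.H85 Vale.Agent.P092.H103 Vale.Agent.P092.H160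
open Vale.Agent.P092.H34 (Dcm)

section defs

variable {K : Type} [NormedAddCommGroup K] [InnerProductSpace ℂ K] [CompleteSpace K]
  {E G S : Type} [Group E] [Group G] [TopologicalSpace G] [Group S]

/-- **A leg for a topological target group**: a commuting family of selfadjoint operators in the
commutant of `W`, stable under both groups, moved continuously in norm by the target, with one
non-zero member which is moved properly. -/
structure CLeg (π : E →* (K →L[ℂ] K)) (ρ : G →* (K →L[ℂ] K)) (W C : Set (K →L[ℂ] K)) :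
    Prop where
  sa : ∀ a ∈ C, adjoint a = a
  com : ∀ a ∈ C, ∀ b ∈ C, a * b = b * a
  cm : ∀ a ∈ C, Cm W a
  cov : ∀ g, ∀ a ∈ C, ρ g * a * ρ g⁻¹ ∈ C
  pcov : ∀ g, ∀ a ∈ C, π g * a * π g⁻¹ ∈ C
  cont : ∀ a ∈ C, Continuous fun g => ρ g * a * ρ g⁻¹
  prp : ∃ a ∈ C, a ≠ 0 ∧ ∃ L, IsCompact L ∧ ∀ g ∉ L, a * (ρ g * a * ρ g⁻¹) = 0

variable {Y : Type} [TopologicalSpace Y] [CompactSpace Y] [MulAction G Y]

/-- a leg which contains a unique boundary calculus -/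
structure CULeg (π : E →* (K →L[ℂ] K)) (ρ : G →* (K →L[ℂ] K)) (W C : Set (K →L[ℂ] K))
    (ι : S →* E) (Φ : C(Y, ℂ) →⋆ₐ[ℂ] (K →L[ℂ] K)) : Prop where
  leg : CLeg π ρ W C
  mem : ∀ f : C(Y, ℂ), star f = f → Φ f ∈ C
  cov : Cov ρ Φ
  sol : Group.IsSolvable S
  uq : UQ (π.comp ι) ρ W Φ

variable [ContinuousSMul G Y]

/-- `f (g • ·)` -/
noncomputable def trl (g : G) (f : C(Y, ℂ)) : C(Y, ℂ) := ⟨fun y => f (g • y), by fun_prop⟩

theorem trl_apply (g : G) (f : C(Y, ℂ)) (y : Y) : trl g f y = f (g • y) := rfl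

theorem trl_one (f : C(Y, ℂ)) : trl (1 : G) f = f :=
  ContinuousMap.ext fun y => by rw [trl_apply, one_smul]

theorem cont_trl (f : C(Y, ℂ)) : Continuous fun g : G => trl g f :=
  ContinuousMap.continuous_of_continuous_uncurry _
    (f.continuous.comp (continuous_fst.smul continuous_snd))

theorem norm_trl (g : G) (f : C(Y, ℂ)) : ‖trl g f‖ ≤ ‖f‖ :=
  (ContinuousMap.norm_le _ (norm_nonneg _)).2 fun _ => f.norm_coe_le_norm _

theorem Cov.trl {ρ : G →* (K →L[ℂ] K)} {Φ : C(Y, ℂ) → (K →L[ℂ] K)} (h : Cov ρ Φ) (g : G)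
    (f : C(Y, ℂ)) : ρ g * Φ f * ρ g⁻¹ = Φ (trl g⁻¹ f) :=
  h g f _ fun y => by rw [trl_apply, inv_smul_smul]

theorem Ucp.cont {Ψ : C(Y, ℂ) →ₗ[ℂ] (K →L[ℂ] K)} (h : Ucp Ψ) : Continuous Ψ :=
  (Ψ.mkContinuous 1 fun f => by rw [one_mul]; exact h.norm_le f).continuous

theorem Cov.cont [ContinuousInv G] {ρ : G →* (K →L[ℂ] K)} {Φ : C(Y, ℂ) →⋆ₐ[ℂ] (K →L[ℂ] K)}
    (h : Cov ρ Φ) (f : C(Y, ℂ)) : Continuous fun g => ρ g * Φ f * ρ g⁻¹ := by
  simp only [h.trl]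
  exact (ucp_lin Φ).cont.comp ((cont_trl f).comp continuous_inv)

end defs

section nd

variable {K : Type} [NormedAddCommGroup K] [InnerProductSpace ℂ K] [CompleteSpace K]
  {E Γ : Type} [Group E] [Group Γ] {π : E →* (K →L[ℂ] K)} {lam : Γ →* (K →L[ℂ] K)}
  {W C : Set (K →L[ℂ] K)}

theorem proj_comm (N : Submodule ℂ K) [N.HasOrthogonalProjection] {u : K →L[ℂ] K}
    (h : ∀ ξ ∈ N, u ξ ∈ N) (h' : ∀ ξ ∈ N, adjoint u ξ ∈ N) :
    N.starProjection * u = u * N.starProjection := by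
  refine ContinuousLinearMap.ext fun a => ?_
  refine Submodule.eq_starProjection_of_mem_orthogonal
    (h _ (Submodule.starProjection_apply_mem _ _)) ?_
  change u a - u _ ∈ _
  rw [← map_sub, Submodule.mem_orthogonal]
  intro b hb
  rw [← adjoint_inner_left]
  exact (Submodule.mem_orthogonal _ _).1 (Submodule.sub_starProjection_mem_orthogonal a) _ (h' b hb)

theorem IB.conj {a u u' : K →L[ℂ] K} (h : IB lam a) (e : Γ → Γ) (he : Function.Injective e)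
    (hu : ∀ γ, u' * lam γ = lam (e γ) * u') : IB lam (u * a * u') := by
  classical
  obtain ⟨N, p, hN⟩ := h.exists_pos
  refine ⟨‖u‖ ^ 2 * (N * ‖u'‖ ^ 2), fun F η => ?_⟩
  have h1 := hN (F.image e) (u' η)
  rw [Finset.sum_image fun x _ y _ h => he h] at h1
  calc ∑ γ ∈ F, ‖(u * a * u') (lam γ η)‖ ^ 2
      ≤ ∑ γ ∈ F, ‖u‖ ^ 2 * ‖a (lam (e γ) (u' η))‖ ^ 2 := Finset.sum_le_sum fun γ _ => by
        have h2 : u' (lam γ η) = lam (e γ) (u' η) := DFunLike.congr_fun (hu γ) η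
        change ‖u (a (u' (lam γ η)))‖ ^ 2 ≤ _
        rw [← mul_pow, h2]
        exact pow_le_pow_left₀ (norm_nonneg _) (u.le_opNorm _) 2
    _ ≤ ‖u‖ ^ 2 * (N * (‖u'‖ * ‖η‖) ^ 2) := by
        rw [← Finset.mul_sum]
        exact mul_le_mul_of_nonneg_left (h1.trans (mul_le_mul_of_nonneg_left
          (pow_le_pow_left₀ (norm_nonneg _) (u'.le_opNorm _) 2) p.le)) (sq_nonneg _)
    _ = _ := by ring

/-- in an irreducible picture one non-zero square integrable member suffices -/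
theorem nd_of_irr (aP : ∀ g, adjoint (π g) = π g⁻¹) (aL : ∀ γ, adjoint (lam γ) = lam γ⁻¹)
    (c : ∀ g γ, π g * lam γ = lam γ * π g) (aW : ∀ w ∈ W, adjoint w ∈ W)
    (irr : ∀ T, Cm W T → (∀ g, T * π g = π g * T) → (∀ γ, T * lam γ = lam γ * T) →
      ∃ z : ℂ, T = z • (1 : K →L[ℂ] K))
    (cm : ∀ a ∈ C, Cm W a) (cov : ∀ γ, ∀ a ∈ C, lam γ * a * lam γ⁻¹ ∈ C)
    (pcov : ∀ g, ∀ a ∈ C, π g * a * π g⁻¹ ∈ C) {a : K →L[ℂ] K} (ha : a ∈ C) (hi : IB lam a)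
    (h0 : a ≠ 0) (ξ : K) (hξ : ∀ a ∈ C, IB lam a → a ξ = 0) : ξ = 0 := by
  obtain ⟨N, hN⟩ : ∃ N : Submodule ℂ K, ∀ η, η ∈ N ↔ ∀ a ∈ C, IB lam a → a η = 0 :=
    ⟨{ carrier := {η | ∀ a ∈ C, IB lam a → a η = 0}
       add_mem' := fun h1 h2 a b1 b2 => by rw [map_add, h1 a b1 b2, h2 a b1 b2, add_zero]
       zero_mem' := fun a _ _ => map_zero a
       smul_mem' := fun c _ h1 a b1 b2 => by rw [map_smul, h1 a b1 b2, smul_zero] },
      fun _ => Iff.rfl⟩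
  have hc : IsClosed (N : Set K) := by
    have e : (N : Set K) = ⋂ a ∈ {a | a ∈ C ∧ IB lam a}, {η | a η = 0} := by
      ext η
      simp only [SetLike.mem_coe, hN, Set.mem_iInter, Set.mem_setOf_eq, and_imp]
    rw [e]
    exact isClosed_biInter fun a _ => isClosed_eq a.continuous continuous_const
  haveI : CompleteSpace N := hc.completeSpace_coe
  have i1 : ∀ w ∈ W, ∀ η ∈ N, w η ∈ N := fun w hw η hη => (hN _).2 fun a b1 b2 => by
    have e : a (w η) = w (a η) := DFunLike.congr_fun (cm a b1 w hw) η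
    rw [e, (hN _).1 hη a b1 b2, map_zero]
  have i2 : ∀ g, ∀ η ∈ N, π g η ∈ N := fun g η hη => (hN _).2 fun a b1 b2 => by
    have e : π g⁻¹ (a (π g⁻¹⁻¹ η)) = 0 := (hN _).1 hη _ (pcov g⁻¹ a b1)
      (b2.conj id Function.injective_id fun γ => c _ γ)
    rw [← ap_inv π g (a (π g η)), ← inv_inv g, inv_inv g⁻¹, e, map_zero]
  have i3 : ∀ γ, ∀ η ∈ N, lam γ η ∈ N := fun g η hη => (hN _).2 fun a b1 b2 => by
    have e : lam g⁻¹ (a (lam g⁻¹⁻¹ η)) = 0 := (hN _).1 hη _ (cov g⁻¹ a b1)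
      (b2.conj (fun γ => g⁻¹⁻¹ * γ * g⁻¹) (fun x y e => by simpa using e) fun γ => by
        rw [← map_mul, ← map_mul, mul_inv_cancel_right])
    rw [← ap_inv lam g (a (lam g η)), ← inv_inv g, inv_inv g⁻¹, e, map_zero]
  obtain ⟨z, hz⟩ := irr N.starProjection
    (fun w hw => proj_comm N (i1 w hw) (i1 _ (aW w hw)))
    (fun g => proj_comm N (i2 g) (by rw [aP]; exact i2 _))
    (fun g => proj_comm N (i3 g) (by rw [aL]; exact i3 _))
  by_contra hn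
  have e1 : N.starProjection ξ = ξ := Submodule.starProjection_eq_self_iff.2 ((hN _).2 hξ)
  have e2 : z = 1 := by
    rw [hz] at e1
    exact smul_left_injective ℂ hn (e1.trans (one_smul ℂ ξ).symm)
  refine h0 (ContinuousLinearMap.ext fun η => (hN η).1 ?_ a ha hi)
  refine Submodule.starProjection_eq_self_iff.1 ?_
  rw [hz, e2, one_smul]
  rfl

end nd

section dsc

variable {G : Type} [Group G] [TopologicalSpace G] [IsTopologicalGroup G] [LocallyCompactSpace G]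
  [SecondCountableTopology G] [T2Space G] [MeasurableSpace G] [BorelSpace G]
  {Γ : Subgroup G} [DiscreteTopology Γ] [MeasurableSpace (G ⧸ Γ)] [BorelSpace (G ⧸ Γ)]
  {ν : Measure (G ⧸ Γ)} [IsProbabilityMeasure ν] [Countable Γ]
  (hν : ∀ g : G, ν.map (fun x => g • x) = ν)
  {K : Type} [NormedAddCommGroup K] [InnerProductSpace ℂ K] [CompleteSpace K]
  {I : Type} [Countable I] (b : HilbertBasis I ℂ K)
  {E S : Type} [Group E] [Group S] {π : E →* (K →L[ℂ] K)} {lam : Γ →* (K →L[ℂ] K)}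
  {W : Set (K →L[ℂ] K)} {π' : E →* (Lp K 2 ν →L[ℂ] Lp K 2 ν)}
  {ρ : G →* (Lp K 2 ν →L[ℂ] Lp K 2 ν)} {C W' : Set (Lp K 2 ν →L[ℂ] Lp K 2 ν)}

/-- the picture of the lattice and the induced picture -/
structure Dat (hν : ∀ g : G, ν.map (fun x => g • x) = ν) (π : E →* (K →L[ℂ] K))
    (lam : Γ →* (K →L[ℂ] K)) (W : Set (K →L[ℂ] K)) (π' : E →* (Lp K 2 ν →L[ℂ] Lp K 2 ν))
    (ρ : G →* (Lp K 2 ν →L[ℂ] Lp K 2 ν)) (W' : Set (Lp K 2 ν →L[ℂ] Lp K 2 ν)) : Prop where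
  aP : ∀ g, adjoint (π g) = π g⁻¹
  aL : ∀ γ, adjoint (lam γ) = lam γ⁻¹
  comm : ∀ g γ, π g * lam γ = lam γ * π g
  aW : ∀ w ∈ W, adjoint w ∈ W
  WL : ∀ w ∈ W, ∀ γ, w * lam γ = lam γ * w
  eP : ∀ g, π' g = (π g).compLpL 2 ν
  eR : ∀ g, ρ g = iro hν lam g
  eW : ∀ T, Cm W' T ↔ Dcm T ∧ ∀ w ∈ W, T * w.compLpL 2 ν = w.compLpL 2 ν * T
  irr : ∀ T, Cm W' T → (∀ g, T * π' g = π' g * T) →
    (∀ g, T * ρ g = ρ g * T) → ∃ z : ℂ, T = z • (1 : Lp K 2 ν →L[ℂ] Lp K 2 ν)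

variable {hν} (D : Dat hν π lam W π' ρ W')
include D

theorem Dat.left {T : Lp K 2 ν →L[ℂ] Lp K 2 ν} {q : G → (K →L[ℂ] K)} (h : CF ν lam T q) (g : G) :
    CF ν lam (ρ g * T * ρ g⁻¹) fun x => q (g⁻¹ * x) := by
  rw [D.eR, D.eR]
  exact h.left hν D.aL g

theorem Dat.conj {T : Lp K 2 ν →L[ℂ] Lp K 2 ν} {q : G → (K →L[ℂ] K)} (h : CF ν lam T q) (g : E) :
    CF ν lam (π' g * T * π' g⁻¹) fun x => π g * q x * π g⁻¹ := by
  rw [D.eP, D.eP]
  exact ((cf_const (D.comm g)).mul h).mul (cf_const (D.comm _))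

theorem Dat.cm_up {T : Lp K 2 ν →L[ℂ] Lp K 2 ν} {q : G → (K →L[ℂ] K)} (h : CF ν lam T q)
    (hq : ∀ x, Cm W (q x)) : Cm W' T :=
  (D.eW T).2 ⟨h.dcm, fun w hw =>
    (h.mul (cf_const (D.WL w hw))).ext ((cf_const (D.WL w hw)).mul h) fun x => hq x w hw⟩

include b

theorem Dat.cm_down {T : Lp K 2 ν →L[ℂ] Lp K 2 ν} {q : G → (K →L[ℂ] K)} (h : CF ν lam T q)
    (hT : Cm W' T) (x : G) : Cm W (q x) := fun w hw =>
  h.comm hν b (D.WL w hw) (((D.eW T).1 hT).2 w hw) x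

theorem Dat.exists_cf {T : Lp K 2 ν →L[ℂ] Lp K 2 ν} (hT : Cm W' T)
    (hc : Continuous fun g => ρ g * T * ρ g⁻¹) : ∃ q, CF ν lam T q :=
  P092EN.exists_cf hν b D.aL ((D.eW T).1 hT).1
    (by simpa only [D.eR] using hc)

theorem Dat.irr₁ (T : K →L[ℂ] K) (h1 : Cm W T) (h2 : ∀ g, T * π g = π g * T)
    (h3 : ∀ γ, T * lam γ = lam γ * T) : ∃ z : ℂ, T = z • (1 : K →L[ℂ] K) := by
  have c : CF ν lam (T.compLpL 2 ν) fun _ => T := cf_const h3
  obtain ⟨z, hz⟩ := D.irr (T.compLpL 2 ν) (D.cm_up c fun _ => h1)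
    (fun g => by rw [D.eP, ← comp_mul, ← comp_mul, h2]) fun g => by
      have e := (D.left c g).ext c fun _ => rfl
      conv_lhs => rw [← e]
      rw [mul_assoc, inv_mul_op, mul_one]
  exact ⟨z, c.uniq hν b (cf_one.smul z) hz 1⟩

/-- **Descent of a leg.** -/
theorem Dat.oleg (h : CLeg π' ρ W' C) :
    OLeg π lam W {a₁ | ∃ a ∈ C, ∃ q, CF ν lam a q ∧ q 1 = a₁} := by
  have cm : ∀ a ∈ {a₁ | ∃ a ∈ C, ∃ q, CF ν lam a q ∧ q 1 = a₁}, Cm W a := by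
    rintro _ ⟨a, ha, q, hq, rfl⟩
    exact D.cm_down b hq (h.cm a ha) 1
  have cov : ∀ γ, ∀ a ∈ {a₁ | ∃ a ∈ C, ∃ q, CF ν lam a q ∧ q 1 = a₁},
      lam γ * a * lam γ⁻¹ ∈ {a₁ | ∃ a ∈ C, ∃ q, CF ν lam a q ∧ q 1 = a₁} := by
    rintro γ _ ⟨a, ha, q, hq, rfl⟩
    refine ⟨_, h.cov γ a ha, _, D.left hq γ, ?_⟩
    have e := hq.equi 1 γ⁻¹
    rwa [inv_inv, Subgroup.coe_inv, one_mul, ← mul_one (γ : G)⁻¹] at e
  have pcov : ∀ g, ∀ a ∈ {a₁ | ∃ a ∈ C, ∃ q, CF ν lam a q ∧ q 1 = a₁},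
      π g * a * π g⁻¹ ∈ {a₁ | ∃ a ∈ C, ∃ q, CF ν lam a q ∧ q 1 = a₁} := by
    rintro g _ ⟨a, ha, q, hq, rfl⟩
    exact ⟨_, h.pcov g a ha, _, D.conj hq g, rfl⟩
  have sa : ∀ a ∈ {a₁ | ∃ a ∈ C, ∃ q, CF ν lam a q ∧ q 1 = a₁}, adjoint a = a := by
    rintro _ ⟨a, ha, q, hq, rfl⟩
    exact (hq.adj b D.aL).uniq hν b hq (h.sa a ha) 1
  obtain ⟨a, ha, a0, L, hL, hp⟩ := h.prp
  obtain ⟨q, hq⟩ := D.exists_cf b (h.cm a ha) (h.cont a ha)
  obtain ⟨x, hx⟩ : ∃ x, q x ≠ 0 := by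
    by_contra hn
    push Not at hn
    exact a0 (hq.ext cf_zero hn)
  have m : q x ∈ {a₁ | ∃ a ∈ C, ∃ q, CF ν lam a q ∧ q 1 = a₁} :=
    ⟨_, h.cov x⁻¹ a ha, _, D.left hq x⁻¹, by beta_reduce; rw [inv_inv, mul_one]⟩
  have fw : FW lam (q x) := by
    have c1 : IsCompact ((fun g => x⁻¹ * g * x) '' L) := hL.image (by fun_prop)
    have c2 := Γ.tendsto_coe_cofinite_of_discrete
      (isDiscrete_iff_discreteTopology.2 ‹DiscreteTopology Γ›) c1.compl_mem_cocompact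
    refine (mem_cofinite.1 c2).subset fun γ hγ h1 => hγ ?_
    have e1 : x * γ * x⁻¹ ∉ L := fun e => h1 ⟨_, e, by group⟩
    have e2 := (hq.mul (D.left hq (x * γ * x⁻¹))).uniq hν b cf_zero (hp _ e1) x
    have e3 := hq.equi x γ⁻¹
    rw [inv_inv] at e3
    rw [← e3, ← e2]
    congr 2
    rw [Subgroup.coe_inv]
    group
  refine ⟨sa, ?_, cm, cov, pcov, nd_of_irr D.aP D.aL D.comm D.aW (D.irr₁ b) cm cov pcov m
    (fw.ib D.aL (sa _ m)) hx⟩
  rintro _ ⟨a, ha, q, hq, rfl⟩ _ ⟨a', ha', q', hq', rfl⟩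
  exact (hq.mul hq').uniq hν b (hq'.mul hq) (h.com a ha a' ha') 1

variable {Y : Type} [TopologicalSpace Y] [CompactSpace Y] [MulAction G Y] [ContinuousSMul G Y]

omit b in
/-- **Ascent of a covariant map.** -/
theorem Dat.ascend {Ψ : C(Y, ℂ) →ₗ[ℂ] (K →L[ℂ] K)} (h : Ucp Ψ) (cov : Cov lam Ψ) :
    ∃ Ψ' : C(Y, ℂ) →ₗ[ℂ] (Lp K 2 ν →L[ℂ] Lp K 2 ν), Ucp Ψ' ∧ Cov ρ Ψ' ∧
      ∀ f, CF ν lam (Ψ' f) fun x => Ψ (trl x f) := by
  have c : ∀ f, CF ν lam (fop ν fun x => Ψ (trl (sec Γ x) f)) fun x => Ψ (trl x f) := fun f =>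
    cf_fop (q := fun x => Ψ (trl x f)) (h.cont.comp (cont_trl f))
      (fun x => (h.norm_le _).trans (norm_trl x f)) fun x v => by
        have e := cov v⁻¹ (trl x f) (trl (x * v) f) fun y => by
          rw [trl_apply, trl_apply, mul_smul]
          exact congrArg (fun z => f (x • z)) (smul_inv_smul v y)
        rw [inv_inv] at e
        exact e.symm
  refine ⟨{ toFun := fun f => fop ν fun x => Ψ (trl (sec Γ x) f)
            map_add' := fun f g => (c _).ext ((c f).add (c g)) fun x => map_add Ψ (trl x f) (trl x g)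
            map_smul' := fun z f => (c _).ext ((c f).smul z) fun x => map_smul Ψ z (trl x f) },
    ⟨⟨fun f => (c f).fld.adjoint (c _).fld (Eventually.of_forall fun x => (h.adj (trl (sec Γ x) f)).symm),
      fun n f ζ => ?_⟩, (c 1).ext cf_one fun x => h.one⟩, fun g f f' e => ?_, c⟩
  · have e1 : ∀ i j, Integrable (fun x => ⟪ζ i x, Ψ (trl (sec Γ x) (star (f i) * f j)) (ζ j x)⟫_ℂ) ν ∧
        ⟪ζ i, (fop ν fun x => Ψ (trl (sec Γ x) (star (f i) * f j))) (ζ j)⟫_ℂ =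
        ∫ x, ⟪ζ i x, Ψ (trl (sec Γ x) (star (f i) * f j)) (ζ j x)⟫_ℂ ∂ν := fun i j =>
      ⟨(L2.integrable_inner (𝕜 := ℂ) (ζ i) _).congr (by
        filter_upwards [(c (star (f i) * f j)).fld (ζ j)] with x hx
        rw [hx]), fld_one.inner (c _).fld _ _⟩
    change 0 ≤ (∑ i, ∑ j, ⟪ζ i, (fop ν fun x => Ψ (trl (sec Γ x) (star (f i) * f j))) (ζ j)⟫_ℂ).re
    simp only [fun i j => (e1 i j).2]
    simp only [← integral_finset_sum _ fun j _ => (e1 _ j).1]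
    rw [← integral_finset_sum _ fun i _ => integrable_finset_sum _ fun j _ => (e1 i j).1]
    rw [← RCLike.re_to_complex, ← integral_re (integrable_finset_sum _ fun i _ =>
      integrable_finset_sum _ fun j _ => (e1 i j).1)]
    exact integral_nonneg fun x => h.cp n (fun i => trl (sec Γ x) (f i)) fun i => ζ i x
  · refine (D.left (c f) g).ext (c f') fun x => congrArg Ψ (ContinuousMap.ext fun y => ?_)
    rw [trl_apply, trl_apply, ← e, mul_smul, smul_inv_smul]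

/-- **Descent.** -/
theorem Dat.uleg [T2Space Y] {ι : S →* E} {Φ : C(Y, ℂ) →⋆ₐ[ℂ] (Lp K 2 ν →L[ℂ] Lp K 2 ν)}
    (h : CULeg π' ρ W' C ι Φ) (nf : NF Γ Y) :
    ∃ (C₁ : Set (K →L[ℂ] K)) (Φ₁ : C(Y, ℂ) →⋆ₐ[ℂ] (K →L[ℂ] K)), ULeg π lam W C₁ ι Φ₁ := by
  choose Q hQ using fun f => D.exists_cf b
    (cm_of_real (fun f hf => h.leg.cm _ (h.mem f hf)) f) (h.cov.cont f)
  have key : ∀ f x, Q f x = Q (trl x f) 1 := fun f x => by
    have e := (D.left (hQ f) x⁻¹).uniq hν b (hQ _) (h.cov.trl x⁻¹ f) 1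
    rwa [inv_inv, mul_one] at e
  refine ⟨_, { toFun := fun f => Q f 1
               map_one' := (hQ 1).uniq hν b cf_one (map_one Φ) 1
               map_mul' := fun f g => (hQ _).uniq hν b ((hQ f).mul (hQ g)) (map_mul Φ f g) 1
               map_zero' := (hQ 0).uniq hν b cf_zero (map_zero Φ) 1
               map_add' := fun f g => (hQ _).uniq hν b ((hQ f).add (hQ g)) (map_add Φ f g) 1
               commutes' := fun z => by
                 rw [Algebra.algebraMap_eq_smul_one, Algebra.algebraMap_eq_smul_one]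
                 exact (hQ _).uniq hν b (cf_one.smul z) (by rw [map_smul, map_one]) 1
               map_star' := fun f => (hQ _).uniq hν b ((hQ f).adj b D.aL) (map_star Φ f) 1 },
    D.oleg b h.leg, fun f hf => ⟨_, h.mem f hf, _, hQ f, rfl⟩, fun γ f f' e => ?_, h.sol,
    fun Ψ u1 u2 u3 u4 f => ?_, nf⟩
  · change lam γ * Q f 1 * lam γ⁻¹ = Q f' 1
    have e1 := (hQ f).equi 1 γ⁻¹
    rw [inv_inv, one_mul, key] at e1
    rw [← e1]
    refine congrArg (fun f => Q f 1) (ContinuousMap.ext fun y => ?_)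
    rw [trl_apply, ← e]
    exact congrArg f' (smul_inv_smul γ y)
  · obtain ⟨Ψ', v1, v2, v3⟩ := D.ascend u1 u3
    have e := h.uq Ψ' v1 (fun f => D.cm_up (v3 f) fun x => u2 _) v2 (fun s f => by
      have e1 := D.conj (v3 f) (ι s)
      rw [← map_inv] at e1
      exact e1.ext (v3 f) fun x => u4 s (trl x f)) f
    have e2 := (v3 f).uniq hν b (hQ f) e 1
    rwa [trl_one] at e2

end dsc

end Vale.Agent.P092EN
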