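import Vale.Agent.P092EN.Abs
import Vale.Agent.P092.H264.AmpB
import Vale.Agent.P092.H34.Trn

/-!
P092, soft end (helper22): decomposable operators on the induced space, lifted to fields on the
group.
-/

set_option linter.all false

open scoped InnerProductSpace ENNReal
open Filter Topology ContinuousLinearMap TopologicalSpace MeasureTheory

namespace Vale.Agent.P092EN

open Vale.Agent.P092 Vale.Agent.P092.H264
open Vale.Agent.P092.H790 Vale.Agent.P092.H85 Vale.Agent.P092.H103 Vale.Agent.P092.H160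
open Vale.Agent.P092.H100 (ae_sec ae_left ae_right coc_inv')

variable {E : Type} [Group E] [TopologicalSpace E] [IsTopologicalGroup E] [LocallyCompactSpace E]
  [SecondCountableTopology E] [T2Space E] [MeasurableSpace E] [BorelSpace E]
  {Λ : Subgroup E} [DiscreteTopology Λ] [MeasurableSpace (E ⧸ Λ)] [BorelSpace (E ⧸ Λ)]
  {ν : Measure (E ⧸ Λ)} [IsProbabilityMeasure ν] [Countable Λ]
  {ℋ : Type} [NormedAddCommGroup ℋ] [InnerProductSpace ℂ ℋ] [CompleteSpace ℋ]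
  {V : Λ →* (ℋ →L[ℂ] ℋ)}

/-- `S` is the field of `G`, lifted to the group -/
def Lift (ν : Measure (E ⧸ Λ)) (V : Λ →* (ℋ →L[ℂ] ℋ)) (G : Lp ℋ 2 ν →L[ℂ] Lp ℋ 2 ν)
    (S : E → (ℋ →L[ℂ] ℋ)) : Prop :=
  ∃ A : E ⧸ Λ → (ℋ →L[ℂ] ℋ), (∀ y, AEStronglyMeasurable (fun x => A x y) ν) ∧ Fld G A ∧
    ∀ g, S g = V (tau Λ g)⁻¹ * A (g : E ⧸ Λ) * V (tau Λ g)

variable {G G' : Lp ℋ 2 ν →L[ℂ] Lp ℋ 2 ν} {S S' : E → (ℋ →L[ℂ] ℋ)}

theorem cj_mul (V : Λ →* (ℋ →L[ℂ] ℋ)) (v : Λ) (B C : ℋ →L[ℂ] ℋ) :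
    (V v⁻¹ * B * V v) * (V v⁻¹ * C * V v) = V v⁻¹ * (B * C) * V v := by
  calc (V v⁻¹ * B * V v) * (V v⁻¹ * C * V v) = V v⁻¹ * B * (V v * V v⁻¹) * C * V v := by
        simp only [mul_assoc]
    _ = V v⁻¹ * (B * C) * V v := by rw [mul_inv_op, mul_one]; simp only [mul_assoc]

theorem exists_lift {I : Type} [Countable I] (b : HilbertBasis I ℂ ℋ) (h : H34.Dcm G) :
    ∃ S, Lift ν V G S := by
  obtain ⟨A, -, h2, h3⟩ := h.exists_fld b
  exact ⟨_, A, h2, h3, fun _ => rfl⟩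

theorem Lift.mul (h : Lift ν V G S) (h' : Lift ν V G' S') :
    Lift ν V (G * G') fun g => S g * S' g := by
  obtain ⟨A, a1, a2, a3⟩ := h
  obtain ⟨B, b1, b2, b3⟩ := h'
  exact ⟨fun x => A x * B x, fun y => aesm_field a1 (b1 y), a2.mul b2,
    fun g => by beta_reduce; rw [a3, b3, cj_mul]⟩

theorem Lift.add (h : Lift ν V G S) (h' : Lift ν V G' S') :
    Lift ν V (G + G') fun g => S g + S' g := by
  obtain ⟨A, a1, a2, a3⟩ := h
  obtain ⟨B, b1, b2, b3⟩ := h'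
  exact ⟨fun x => A x + B x, fun y => (a1 y).add (b1 y), a2.add b2,
    fun g => by beta_reduce; rw [a3, b3, mul_add, add_mul]⟩

theorem lift_const {R : ℋ →L[ℂ] ℋ} (hR : ∀ v, V v * R = R * V v) :
    Lift ν V (R.compLpL 2 ν) fun _ => R :=
  ⟨fun _ => R, fun _ => aestronglyMeasurable_const, fld_comp R,
    fun g => by rw [mul_assoc, ← hR, ← mul_assoc, inv_mul_op, one_mul]⟩

theorem lift_zero : Lift ν V 0 fun _ => 0 :=
  ⟨fun _ => 0, fun _ => aestronglyMeasurable_const, fld_zero, fun g => by rw [mul_zero, zero_mul]⟩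

theorem lift_one : Lift ν V 1 fun _ => 1 :=
  ⟨fun _ => 1, fun _ => aestronglyMeasurable_const, fld_one, fun g => by rw [mul_one, inv_mul_op]⟩

theorem lift_sum {J : Type} (s : Finset J) {G : J → (Lp ℋ 2 ν →L[ℂ] Lp ℋ 2 ν)}
    {S : J → E → (ℋ →L[ℂ] ℋ)} (h : ∀ j, Lift ν V (G j) (S j)) :
    Lift ν V (∑ j ∈ s, G j) fun g => ∑ j ∈ s, S j g := by
  induction s using Finset.cons_induction with
  | empty => simpa using (lift_zero : Lift ν V 0 fun _ => 0)
  | cons a s ha ih => simpa only [Finset.sum_cons] using (h a).add ih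

theorem Lift.right (h : Lift ν V G S) (v : Λ) (g : E) : S g * V v = V v * S (g * (v : E)) := by
  obtain ⟨A, -, -, a3⟩ := h
  have e1 : ((g * (v : E) : E) : E ⧸ Λ) = (g : E ⧸ Λ) := by
    rw [eq_comm, QuotientGroup.eq, inv_mul_cancel_left]
    exact v.2
  rw [a3, a3, tau_mul, e1, mul_inv_rev, map_mul, map_mul]
  simp only [← mul_assoc]
  rw [mul_inv_op, one_mul]

variable (hν : ∀ g : E, ν.map (fun x => g • x) = ν)
include hν

theorem Lift.uniq {I : Type} [Countable I] (b : HilbertBasis I ℂ ℋ) (h : Lift ν V G S)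
    (h' : Lift ν V G S') : ∀ᵐ g ∂(Measure.haar : Measure E), S g = S' g := by
  obtain ⟨A, -, a2, a3⟩ := h
  obtain ⟨B, -, b2, b3⟩ := h'
  filter_upwards [(qmp_quo hν).ae (fld_uniq b a2 b2)] with g hg
  rw [a3, b3, hg]

theorem Lift.eq {I : Type} [Countable I] (b : HilbertBasis I ℂ ℋ) (h : Lift ν V G S)
    (h' : Lift ν V G' S') (e : G = G') : ∀ᵐ g ∂(Measure.haar : Measure E), S g = S' g :=
  Lift.uniq hν b h (e ▸ h')

theorem Lift.meas (h : Lift ν V G S) (u : ℋ) :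
    AEStronglyMeasurable (fun g => S g u) (Measure.haar : Measure E) := by
  obtain ⟨A, a1, -, a3⟩ := h
  simp only [a3]
  refine aesm_countable (k := tau Λ) (F := fun v g => V v⁻¹ (A (g : E ⧸ Λ) (V v u)))
    tau_meas fun v => ?_
  exact (V v⁻¹).continuous.comp_aestronglyMeasurable
    ((a1 (V v u)).comp_quasiMeasurePreserving (qmp_quo hν))

theorem Lift.sa {I : Type} [Countable I] (b : HilbertBasis I ℂ ℋ)
    (hV : ∀ v, adjoint (V v) = V v⁻¹) (h : Lift ν V G S) (hd : H34.Dcm G) (ha : adjoint G = G) :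
    ∀ᵐ g ∂(Measure.haar : Measure E), adjoint (S g) = S g := by
  obtain ⟨A, -, a2, a3⟩ := h
  filter_upwards [(qmp_quo hν).ae (fld_sa b hd ha a2)] with g hg
  rw [a3, ← star_eq_adjoint, star_mul, star_mul, star_eq_adjoint, star_eq_adjoint,
    star_eq_adjoint, hV, hV, hg, inv_inv, mul_assoc]

theorem Lift.eq_zero (h : Lift ν V G S) (h0 : ∀ᵐ g ∂(Measure.haar : Measure E), S g = 0) :
    G = 0 := by
  obtain ⟨A, -, a2, a3⟩ := h
  have h2 : ∀ᵐ g : E ∂(Measure.haar : Measure E), A (g : E ⧸ Λ) = 0 := by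
    filter_upwards [h0] with g hg
    rw [a3] at hg
    have e1 : V (tau Λ g) * (V (tau Λ g)⁻¹ * A (g : E ⧸ Λ) * V (tau Λ g)) * V (tau Λ g)⁻¹ =
        A (g : E ⧸ Λ) := by
      calc _ = (V (tau Λ g) * V (tau Λ g)⁻¹) * A (g : E ⧸ Λ) *
            (V (tau Λ g) * V (tau Λ g)⁻¹) := by simp only [mul_assoc]
        _ = A (g : E ⧸ Λ) := by rw [mul_inv_op, one_mul, mul_one]
    rw [← e1, hg, mul_zero, zero_mul]
  have h3 : ∀ᵐ x ∂ν, A x = 0 := by
    filter_upwards [ae_sec hν h2] with x hx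
    have h4 := hx 1
    rwa [Subgroup.coe_one, mul_one, sec_coe] at h4
  exact a2.ext fld_zero h3

/-- commutation with all conjugates gives commutation at almost all pairs -/
theorem Lift.pairs {I : Type} [Countable I] (b : HilbertBasis I ℂ ℋ)
    (hV : ∀ v, adjoint (V v) = V v⁻¹) (h : Lift ν V G S) (h' : Lift ν V G' S')
    (hc : ∀ m, G * (iro hν V m * G' * iro hν V m⁻¹) = (iro hν V m * G' * iro hν V m⁻¹) * G) :
    ∀ᵐ p ∂((Measure.haar : Measure E).prod (Measure.haar : Measure E)),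
      S p.1 * S' p.2 = S' p.2 * S p.1 := by
  haveI hsep : SeparableSpace ℋ := H34.separable_of_basis b
  have m1 := h.meas hν
  have m2 := h'.meas hν
  obtain ⟨A, -, a2, a3⟩ := h
  obtain ⟨B, -, b2, b3⟩ := h'
  have hSc : ∀ m, ∀ᵐ g ∂(Measure.haar : Measure E), S g * S' (m * g) = S' (m * g) * S g := by
    intro m
    have h1 : Fld (iro hν V m⁻¹ * G' * iro hν V m⁻¹⁻¹) fun y =>
        V (coc Λ m⁻¹ (m⁻¹⁻¹ • y)) * B (m⁻¹⁻¹ • y) * V (coc Λ m⁻¹ (m⁻¹⁻¹ • y))⁻¹ :=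
      H34.Ind.fld_conj (d := cdat ν hν) hV b2 m⁻¹
    have h2 := a2.mul h1
    have h3 := h1.mul a2
    rw [hc m⁻¹] at h2
    filter_upwards [(qmp_quo hν).ae (fld_uniq b h2 h3)] with g hg
    rw [inv_inv] at hg
    have e1 : coc Λ m⁻¹ (m • (g : E ⧸ Λ)) = (coc Λ m (g : E ⧸ Λ))⁻¹ := by
      have := coc_inv' (Λ := Λ) m⁻¹ (g : E ⧸ Λ)
      rwa [inv_inv] at this
    rw [e1, inv_inv] at hg
    have e2 : S' (m * g) = V (tau Λ g)⁻¹ * (V (coc Λ m (g : E ⧸ Λ))⁻¹ *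
        B (m • (g : E ⧸ Λ)) * V (coc Λ m (g : E ⧸ Λ))) * V (tau Λ g) := by
      rw [b3, tau_left, mul_inv_rev, map_mul, map_mul]
      have e3 : ((m * g : E) : E ⧸ Λ) = m • (g : E ⧸ Λ) := rfl
      rw [e3]
      simp only [mul_assoc]
    rw [e2, a3, cj_mul, cj_mul, hg]
  have hr1 : ∀ (p : E → Prop), (∀ᵐ h ∂(Measure.haar : Measure E), p h) → ∀ g,
      ∀ᵐ h ∂(Measure.haar : Measure E), p (h * g) := fun p hp g => ae_right hp g
  have hr2 : ∀ (p : E → Prop) (g : E), (∀ᵐ h ∂(Measure.haar : Measure E), p (h * g)) →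
      ∀ᵐ h ∂(Measure.haar : Measure E), p h := by
    intro p g hp
    filter_upwards [ae_right hp g⁻¹] with h hh
    rwa [inv_mul_cancel_right] at hh
  obtain ⟨s, hs, hsd⟩ := exists_countable_dense ℋ
  have key : ∀ u, ∀ᵐ p ∂((Measure.haar : Measure E).prod (Measure.haar : Measure E)),
      S p.1 (S' p.2 u) = S' p.2 (S p.1 u) := by
    intro u
    refine ae_pairs_left (F := fun p : E × E => S p.1 (S' p.2 u))
      (G := fun p : E × E => S' p.2 (S p.1 u)) ?_ ?_ hr1 hr2 fun m => ?_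
    · exact aesm_field (A := fun p : E × E => S p.1) (fun u => (m1 u).comp_fst) (m2 u).comp_snd
    · exact aesm_field (A := fun p : E × E => S' p.2) (fun u => (m2 u).comp_snd) (m1 u).comp_fst
    · filter_upwards [hSc m] with g hg
      exact congrArg (fun B : ℋ →L[ℂ] ℋ => B u) hg
  have h3 : ∀ᵐ p ∂((Measure.haar : Measure E).prod (Measure.haar : Measure E)), ∀ u ∈ s,
      S p.1 (S' p.2 u) = S' p.2 (S p.1 u) := (ae_ball_iff hs).2 fun u _ => key u
  filter_upwards [h3] with p hp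
  refine ContinuousLinearMap.ext fun u => ?_
  have h4 : IsClosed {u : ℋ | S p.1 (S' p.2 u) = S' p.2 (S p.1 u)} :=
    isClosed_eq ((S p.1).continuous.comp (S' p.2).continuous)
      ((S' p.2).continuous.comp (S p.1).continuous)
  exact (h4.closure_subset_iff.2 hp) (hsd u)

/-- a bounded sum over a Parseval family of constants gives compact fibres -/
theorem Lift.compact {I : Type} [Countable I] (b : HilbertBasis I ℂ ℋ)
    (h : Lift ν V G S) (hd : H34.Dcm G) (ha : adjoint G = G)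
    {P : Type} [Countable P] {e : P → ℋ} (he : ∀ η, HasSum (fun p => ‖⟪e p, η⟫_ℂ‖ ^ 2) (‖η‖ ^ 2))
    {C : ℝ} (hC : ∀ F : Finset P, ∑ p ∈ F, ‖G (Lp.const 2 ν (e p))‖ ^ 2 ≤ C) :
    ∀ᵐ g ∂(Measure.haar : Measure E), IsCompactOperator (S g) := by
  obtain ⟨A, a1, a2, a3⟩ := h
  have en : ∀ {F : Type} [NormedAddCommGroup F] (x : F), ‖x‖ₑ ^ 2 = ENNReal.ofReal (‖x‖ ^ 2) :=
    fun x => by rw [← ofReal_norm_eq_enorm, ENNReal.ofReal_pow (norm_nonneg _)]
  have h1 : ∀ p, ∫⁻ x, ‖A x (e p)‖ₑ ^ 2 ∂ν = ‖G (Lp.const 2 ν (e p))‖ₑ ^ 2 := by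
    intro p
    rw [H34.Ind.enorm_sq_lint]
    refine lintegral_congr_ae ?_
    filter_upwards [a2 (Lp.const 2 ν (e p)), Lp.coeFn_const (p := 2) (μ := ν) (e p)] with x b1 b2
    rw [b1, b2]
    rfl
  have hm : ∀ p, AEMeasurable (fun x => ‖A x (e p)‖ₑ ^ 2) ν := fun p =>
    ((a1 (e p)).enorm).pow_const 2
  have h2 : ∫⁻ x, ∑' p, ‖A x (e p)‖ₑ ^ 2 ∂ν ≠ ∞ := by
    rw [lintegral_tsum hm]
    refine ne_top_of_le_ne_top (ENNReal.ofReal_ne_top (r := C)) ?_
    rw [ENNReal.tsum_eq_iSup_sum]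
    refine iSup_le fun F => ?_
    simp only [h1]
    simp only [en]
    rw [← ENNReal.ofReal_sum_of_nonneg fun _ _ => sq_nonneg _]
    exact ENNReal.ofReal_le_ofReal (hC F)
  have h3 := ae_lt_top' (AEMeasurable.tsum hm) h2
  have h4 : ∀ᵐ x ∂ν, IsCompactOperator (A x) := by
    filter_upwards [h3, fld_sa b hd ha a2] with x b1 b2
    refine compact_of_prs he b2 (C := (∑' p, ‖A x (e p)‖ₑ ^ 2).toReal) fun F => ?_
    rw [← ENNReal.ofReal_le_iff_le_toReal b1.ne,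
      ENNReal.ofReal_sum_of_nonneg fun _ _ => sq_nonneg _]
    simp only [← en]
    exact ENNReal.sum_le_tsum F
  filter_upwards [(qmp_quo hν).ae h4] with g hg
  rw [a3]
  exact (hg.comp_clm (V (tau Λ g))).clm_comp (V (tau Λ g)⁻¹)

end Vale.Agent.P092EN
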