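import Vale.Agent.P092EN.Dsc
import Mathlib.Dynamics.Ergodic.Conservative

/-!
P092, descent (helper22): builders for legs, and the fixed point property from north-south
dynamics.
-/

set_option linter.all false

open scoped InnerProductSpace ENNReal
open Filter Topology ContinuousLinearMap TopologicalSpace MeasureTheory

namespace Vale.Agent.P092EN

open Vale.Agent.P092 Vale.Agent.P092.H264
open Vale.Agent.P092.RC (Cm)
open Vale.Agent.P092.H100 (ae_sec ae_left ae_right)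
open Vale.Agent.P092.H85

section bic

variable {K : Type} [NormedAddCommGroup K] [InnerProductSpace ℂ K] [CompleteSpace K]
  {E G S : Type} [Group E] [Group G] [TopologicalSpace G] [Group S] {π : E →* (K →L[ℂ] K)}
  {ρ : G →* (K →L[ℂ] K)} {W D : Set (K →L[ℂ] K)}

/-- the selfadjoint members of the bicommutant which move continuously -/
def Bic (ρ : G →* (K →L[ℂ] K)) (D : Set (K →L[ℂ] K)) : Set (K →L[ℂ] K) :=
  {a | adjoint a = a ∧ Cm {b | Cm D b} a ∧ Continuous fun g => ρ g * a * ρ g⁻¹}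

theorem mem_bic {a : K →L[ℂ] K} (h : a ∈ D) (sa : adjoint a = a)
    (c : Continuous fun g => ρ g * a * ρ g⁻¹) : a ∈ Bic ρ D :=
  ⟨sa, fun b hb => (hb a h).symm, c⟩

theorem bic_com (com : ∀ a ∈ D, Cm D a) {a b : K →L[ℂ] K} (ha : a ∈ Bic ρ D) (hb : b ∈ Bic ρ D) :
    a * b = b * a := ha.2.1 b fun d hd => hb.2.1 d (com d hd)

theorem conj_mul' {H : Type} [Group H] (ρ : H →* (K →L[ℂ] K)) (g : H) (a b : K →L[ℂ] K) :
    ρ g * (a * b) * ρ g⁻¹ = (ρ g * a * ρ g⁻¹) * (ρ g * b * ρ g⁻¹) := by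
  calc _ = ρ g * a * (ρ g⁻¹ * ρ g) * b * ρ g⁻¹ := by rw [inv_mul_op, mul_one, ← mul_assoc]
    _ = _ := by simp only [mul_assoc]

theorem bic_mul (com : ∀ a ∈ D, Cm D a) {a b : K →L[ℂ] K} (ha : a ∈ Bic ρ D) (hb : b ∈ Bic ρ D) :
    a * b ∈ Bic ρ D := by
  refine ⟨?_, cm_mul ha.2.1 hb.2.1, ?_⟩
  · rw [← star_eq_adjoint, star_mul, star_eq_adjoint, star_eq_adjoint, ha.1, hb.1, bic_com com ha hb]
  · simp only [conj_mul']
    exact ha.2.2.mul hb.2.2

theorem bic_one : (1 : K →L[ℂ] K) ∈ Bic ρ D :=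
  ⟨star_one _, cm_one, by simp only [mul_one, mul_inv_op]; exact continuous_const⟩

theorem bic_prod (com : ∀ a ∈ D, Cm D a) (l : List (K →L[ℂ] K)) (h : ∀ x ∈ l, x ∈ Bic ρ D) :
    l.prod ∈ Bic ρ D := by
  induction l with
  | nil => exact bic_one
  | cons x l ih =>
    rw [List.prod_cons]
    exact bic_mul com (h x List.mem_cons_self) (ih fun y hy => h y (List.mem_cons_of_mem _ hy))

theorem adj_conj {H : Type} [Group H] {σ : H →* (K →L[ℂ] K)} (h : ∀ g, adjoint (σ g) = σ g⁻¹)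
    (g : H) (a : K →L[ℂ] K) : adjoint (σ g * a * σ g⁻¹) = σ g * adjoint a * σ g⁻¹ := by
  rw [← star_eq_adjoint, star_mul, star_mul, star_eq_adjoint, star_eq_adjoint, star_eq_adjoint, h,
    h, inv_inv, mul_assoc]

theorem bic_conj {H : Type} [Group H] {σ : H →* (K →L[ℂ] K)}
    (cov : ∀ g, ∀ a ∈ D, σ g * a * σ g⁻¹ ∈ D) (g : H) {a : K →L[ℂ] K} (h : Cm {b | Cm D b} a) :
    Cm {b | Cm D b} (σ g * a * σ g⁻¹) :=
  cm_conj (mul_inv_op σ g) (fun w hw => cm_conj (inv_mul_op σ g) (cov g) hw) h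

theorem conj_conj (c : ∀ g h, π g * ρ h = ρ h * π g) (g : E) (h : G) (a : K →L[ℂ] K) :
    ρ h * (π g * a * π g⁻¹) * ρ h⁻¹ = π g * (ρ h * a * ρ h⁻¹) * π g⁻¹ := by
  calc _ = (ρ h * π g) * a * (π g⁻¹ * ρ h⁻¹) := by simp only [mul_assoc]
    _ = _ := by rw [← c, c g⁻¹]; simp only [mul_assoc]

/-- **A leg from a commuting family** and a product of members which is moved properly. -/
theorem cleg_of_list [ContinuousMul G] (aP : ∀ g, adjoint (π g) = π g⁻¹)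
    (aR : ∀ g, adjoint (ρ g) = ρ g⁻¹) (c : ∀ g h, π g * ρ h = ρ h * π g)
    (com : ∀ a ∈ D, Cm D a) (cm : ∀ a ∈ D, Cm W a) (cov : ∀ g, ∀ a ∈ D, ρ g * a * ρ g⁻¹ ∈ D)
    (pcov : ∀ g, ∀ a ∈ D, π g * a * π g⁻¹ ∈ D) (l : List (K →L[ℂ] K))
    (hl : ∀ x ∈ l, x ∈ Bic ρ D) (h0 : l.prod ≠ 0) {L : Set G} (hL : IsCompact L)
    (hp : ∀ g ∉ L, ∃ x ∈ l, x * (ρ g * x * ρ g⁻¹) = 0) : CLeg π ρ W (Bic ρ D) where
  sa a ha := ha.1
  com a ha b hb := bic_com com ha hb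
  cm a ha w hw := ha.2.1 w fun d hd => (cm d hd w hw).symm
  cov g a ha := ⟨by rw [adj_conj aR, ha.1], bic_conj cov g ha.2.1, by
    have e : ∀ h, ρ h * (ρ g * a * ρ g⁻¹) * ρ h⁻¹ = ρ (h * g) * a * ρ (h * g)⁻¹ := fun h => by
      rw [mul_inv_rev, map_mul, map_mul]; simp only [mul_assoc]
    simp only [e]
    exact ha.2.2.comp (continuous_mul_const g)⟩
  pcov g a ha := ⟨by rw [adj_conj aP, ha.1], bic_conj pcov g ha.2.1, by
    simp only [conj_conj c]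
    exact (continuous_const.mul ha.2.2).mul continuous_const⟩
  cont a ha := ha.2.2
  prp := ⟨_, bic_prod com l hl, h0, L, hL, fun g hg => by
    obtain ⟨x, hx, e⟩ := hp g hg
    obtain ⟨l₁, l₂, rfl⟩ := List.append_of_mem hx
    have m₁ := bic_prod com l₁ fun y hy => hl y (List.mem_append_left _ hy)
    have m₂ := bic_prod com l₂ fun y hy =>
      hl y (List.mem_append_right _ (List.mem_cons_of_mem _ hy))
    rw [List.prod_append, List.prod_cons]
    conv_lhs => congr; rw [bic_com com (hl x hx) m₂, ← mul_assoc]; rfl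
    rw [← mul_assoc l₁.prod x, bic_com com m₁ (hl x hx), mul_assoc x, conj_mul', mul_assoc,
      ← mul_assoc x, e, zero_mul, mul_zero]⟩

variable {Y : Type} [TopologicalSpace Y] [CompactSpace Y] [MulAction G Y] [ContinuousSMul G Y]
  {Φ : C(Y, ℂ) →⋆ₐ[ℂ] (K →L[ℂ] K)}

/-- **A leg from a boundary calculus** whose translates commute. -/
theorem culeg_of_list [IsTopologicalGroup G] (aP : ∀ g, adjoint (π g) = π g⁻¹)
    (aR : ∀ g, adjoint (ρ g) = ρ g⁻¹) (c : ∀ g h, π g * ρ h = ρ h * π g)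
    (pW : ∀ T, Cm W T → ∀ g, Cm W (π g * T * π g⁻¹)) (cm : ∀ f, Cm W (Φ f)) (cov : Cov ρ Φ)
    (com : ∀ g f f', Φ f * (π g * Φ f' * π g⁻¹) = (π g * Φ f' * π g⁻¹) * Φ f)
    {ι : S →* E} (sol : Group.IsSolvable S) (uq : UQ (π.comp ι) ρ W Φ)
    (l : List (E × C(Y, ℂ))) (hl : ∀ p ∈ l, star p.2 = p.2)
    (h0 : (l.map fun p => π p.1 * Φ p.2 * π p.1⁻¹).prod ≠ 0) {L : Set G} (hL : IsCompact L)
    (hp : ∀ g ∉ L, ∃ p ∈ l, ∀ y, p.2 y = 0 ∨ p.2 (g • y) = 0) :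
    ∃ C, CULeg π ρ W C ι Φ := by
  obtain ⟨D, hD⟩ : ∃ D : Set (K →L[ℂ] K), D = {a | ∃ g f, π g * Φ f * π g⁻¹ = a} := ⟨_, rfl⟩
  have e0 : ∀ (g h : E) (a : K →L[ℂ] K),
      π h * (π g * a * π g⁻¹) * π h⁻¹ = π (h * g) * a * π (h * g)⁻¹ := fun g h a => by
    rw [mul_inv_rev, map_mul, map_mul]; simp only [mul_assoc]
  have m : ∀ g f, star f = f → π g * Φ f * π g⁻¹ ∈ Bic ρ D := fun g f hf =>
    mem_bic (hD ▸ ⟨g, f, rfl⟩) (by rw [adj_conj aP, ← star_eq_adjoint, ← map_star, hf]) (by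
      simp only [conj_conj c]
      exact (continuous_const.mul (cov.cont f)).mul continuous_const)
  refine ⟨Bic ρ D, cleg_of_list aP aR c ?_ ?_ ?_ ?_ _ ?_ h0 hL fun g hg => ?_, fun f hf => ?_, cov,
    sol, uq⟩
  · subst hD
    rintro _ ⟨g, f, rfl⟩ _ ⟨g', f', rfl⟩
    have e1 : π g' * Φ f' * π g'⁻¹ = π g * (π (g⁻¹ * g') * Φ f' * π (g⁻¹ * g')⁻¹) * π g⁻¹ := by
      rw [e0, mul_inv_cancel_left]
    rw [e1, ← conj_mul', ← conj_mul', com]
  · subst hD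
    rintro _ ⟨g, f, rfl⟩
    exact pW _ (cm f) g
  · subst hD
    rintro h _ ⟨g, f, rfl⟩
    exact ⟨g, _, by rw [conj_conj c, cov.trl]⟩
  · subst hD
    rintro h _ ⟨g, f, rfl⟩
    exact ⟨_, f, (e0 g h _).symm⟩
  · intro x hx
    obtain ⟨p, hp, rfl⟩ := List.mem_map.1 hx
    exact m _ _ (hl p hp)
  · obtain ⟨p, h1, h2⟩ := hp g hg
    refine ⟨_, List.mem_map.2 ⟨p, h1, rfl⟩, ?_⟩
    have e1 : p.2 * trl g⁻¹ p.2 = 0 := ContinuousMap.ext fun y => by
      have e2 := h2 (g⁻¹ • y)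
      rw [smul_inv_smul] at e2
      exact mul_eq_zero.2 e2.symm
    rw [conj_conj c, cov.trl, ← conj_mul', ← map_mul, e1, map_zero, mul_zero, zero_mul]
  · have e1 := m 1 f hf
    rwa [inv_one, map_one, one_mul, mul_one] at e1

/-- the action is proper on triples of distinct points -/
def PT (G Y : Type) [Group G] [TopologicalSpace G] [TopologicalSpace Y] [MulAction G Y] : Prop :=
  ∀ A : Fin 3 → Set Y, (∀ i, IsCompact (A i)) → (∀ i j, i ≠ j → Disjoint (A i) (A j)) →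
    ∃ L : Set G, IsCompact L ∧ ∀ g, (∀ i, ∃ y ∈ A i, g • y ∈ A i) → g ∈ L

/-- **A leg from a boundary calculus**, rank one -/
theorem culeg_of_tri [IsTopologicalGroup G] (aP : ∀ g, adjoint (π g) = π g⁻¹)
    (aR : ∀ g, adjoint (ρ g) = ρ g⁻¹) (c : ∀ g h, π g * ρ h = ρ h * π g)
    (pW : ∀ T, Cm W T → ∀ g, Cm W (π g * T * π g⁻¹)) (cm : ∀ f, Cm W (Φ f)) (cov : Cov ρ Φ)
    (com : ∀ g f f', Φ f * (π g * Φ f' * π g⁻¹) = (π g * Φ f' * π g⁻¹) * Φ f)
    {ι : S →* E} (sol : Group.IsSolvable S) (uq : UQ (π.comp ι) ρ W Φ) (pt : PT G Y)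
    (g : Fin 3 → E) (f : Fin 3 → C(Y, ℂ)) (hf : ∀ i, star (f i) = f i)
    (hd : ∀ i j, i ≠ j → Disjoint (tsupport (f i)) (tsupport (f j)))
    (h0 : (π (g 0) * Φ (f 0) * π (g 0)⁻¹) * (π (g 1) * Φ (f 1) * π (g 1)⁻¹) *
      (π (g 2) * Φ (f 2) * π (g 2)⁻¹) ≠ 0) : ∃ C, CULeg π ρ W C ι Φ := by
  obtain ⟨L, hL, h⟩ := pt (fun i => tsupport (f i)) (fun i => (isClosed_tsupport _).isCompact) hd
  refine culeg_of_list aP aR c pW cm cov com sol uq [(g 0, f 0), (g 1, f 1), (g 2, f 2)]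
    (fun p hp => ?_) ?_ hL fun x hx => ?_
  · simp only [List.mem_cons, List.not_mem_nil, or_false] at hp
    rcases hp with rfl | rfl | rfl <;> exact hf _
  · simp only [List.map_cons, List.map_nil, List.prod_cons, List.prod_nil, mul_one]
    rwa [← mul_assoc]
  · by_contra hn
    push Not at hn
    refine hx (h x fun i => ?_)
    obtain ⟨y, h1, h2⟩ := hn (g i, f i) (by fin_cases i <;> simp)
    exact ⟨y, subset_tsupport _ h1, subset_tsupport _ h2⟩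

end bic

section nf

variable {G : Type} [Group G] [TopologicalSpace G] [IsTopologicalGroup G] [LocallyCompactSpace G]
  [SecondCountableTopology G] [T2Space G] [MeasurableSpace G] [BorelSpace G]
  {Γ : Subgroup G} [DiscreteTopology Γ] [MeasurableSpace (G ⧸ Γ)] [BorelSpace (G ⧸ Γ)]
  {ν : Measure (G ⧸ Γ)} [IsProbabilityMeasure ν] [Countable Γ]
  (hν : ∀ g : G, ν.map (fun x => g • x) = ν)
  {Y : Type} [TopologicalSpace Y] [CompactSpace Y] [T2Space Y] [MulAction G Y] [ContinuousSMul G Y]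

/-- north-south dynamics on a homogeneous space; the kernel of the action is bounded -/
structure NS (G Y : Type) [Group G] [TopologicalSpace G] [IsTopologicalGroup G]
    [LocallyCompactSpace G] [MeasurableSpace G] [BorelSpace G] [TopologicalSpace Y]
    [MulAction G Y] : Prop where
  tra : ∀ y y' : Y, ∃ g : G, g • y = y'
  att : ∃ (a : G) (y₀ : Y), ∀ y : Y, ∀ᵐ g ∂(Measure.haar : Measure G),
    Tendsto (fun n : ℕ => a ^ n • g • y) atTop (𝓝 y₀)
  ker : ∃ L : Set G, IsCompact L ∧ ∀ g : G, (∀ y : Y, g • y = y) → g ∈ L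

include hν in
/-- subgroups of finite index of a lattice act minimally -/
theorem NS.min (h : NS G Y) {N : Subgroup Γ} [N.FiniteIndex] {F : Set Y} (hF : IsClosed F)
    {y : Y} (hy : y ∈ F) (hN : ∀ n ∈ N, ∀ z ∈ F, n • z ∈ F) : F = Set.univ := by
  by_contra hn
  obtain ⟨z, hz⟩ := (Set.ne_univ_iff_exists_notMem F).1 hn
  obtain ⟨a, y₀, ha⟩ := h.att
  obtain ⟨g₀, hg₀⟩ := h.tra z y₀
  have c1 : IsCompact ((fun x => g₀ • x) '' F) := hF.isCompact.image (continuous_const_smul g₀)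
  have c2 : y₀ ∈ ((fun x => g₀ • x) '' F)ᶜ := by
    rintro ⟨x, h1, h2⟩
    exact hz (MulAction.injective g₀ (h2.trans hg₀.symm) ▸ h1)
  obtain ⟨B, b1, b2, b3⟩ := exists_mem_nhds_isClosed_subset (c1.isClosed.isOpen_compl.mem_nhds c2)
  obtain ⟨T, hT⟩ : ∃ T : Set G, T = {g | ∀ x ∈ F, g • x ∈ Bᶜ} := ⟨_, rfl⟩
  have t1 : IsOpen T := by
    rw [hT, isOpen_iff_mem_nhds]
    intro g hg
    exact hF.isCompact.eventually_forall_of_forall_eventually (P := fun g x => g • x ∈ Bᶜ)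
      fun x hx => (continuous_smul.continuousAt (x := (g, x))).eventually
        (b2.isOpen_compl.mem_nhds (hg x hx))
  have t2 : g₀ ∈ T := by
    rw [hT]
    exact fun x hx e => b3 e ⟨x, hx, rfl⟩
  have t3 : IsOpen ((fun g : G => (g : G ⧸ Γ)) '' T) := QuotientGroup.isOpenMap_coe T t1
  have r := (MeasurePreserving.conservative (f := fun x : G ⧸ Γ => a • x)
    ⟨smul_meas Γ a, hν a⟩).ae_mem_imp_frequently_image_mem t3.measurableSet.nullMeasurableSet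
  have s : ∀ᵐ g ∂(Measure.haar : Measure G), ∀ γ : Γ,
      Tendsto (fun n : ℕ => a ^ n • g • γ • y) atTop (𝓝 y₀) := ae_all_iff.2 fun γ => ha _
  obtain ⟨g, g1, g2, g3⟩ := (Measure.dense_of_ae ((H34.Grp.ae_up hν r).and s)).inter_open_nonempty
    T t1 ⟨g₀, t2⟩
  haveI : Finite (Γ ⧸ N) := Subgroup.finite_quotient_of_finiteIndex
  have e1 : ∀ᶠ n : ℕ in atTop, ∀ c : Γ ⧸ N, a ^ n • g • c.out • y ∈ B :=
    eventually_all.2 fun c => g3 _ b1
  obtain ⟨n, ⟨t, n1, n2⟩, n3⟩ := ((g2 ⟨g, g1, rfl⟩).and_eventually e1).exists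
  have e2 : (fun x : G ⧸ Γ => a • x)^[n] (g : G ⧸ Γ) = ((a ^ n * g : G) : G ⧸ Γ) := by
    rw [smul_iterate]
    rfl
  rw [e2] at n2
  obtain ⟨γ, hγ⟩ : ∃ γ : Γ, t = a ^ n * g * γ :=
    ⟨⟨_, QuotientGroup.eq.1 n2.symm⟩, by simp only [mul_inv_cancel_left]⟩
  obtain ⟨m, hm⟩ := QuotientGroup.mk_out_eq_mul N γ
  rw [hT] at n1
  refine n1 _ (hN m m.2 y hy) ?_
  have e3 := n3 (γ : Γ ⧸ N)
  rw [hm, mul_smul γ] at e3
  rw [hγ, mul_smul, mul_smul]
  exact e3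

include hν in
/-- **The fixed point property.** -/
theorem NS.nf (h : NS G Y) : NF Γ Y := by
  rintro Λ hΛ ⟨y, hy⟩
  have e := h.min hν (N := Subgroup.normalizer (Λ : Set Γ)) (F := {z | ∀ l ∈ Λ, l • z = z})
    (by
      simp only [Set.setOf_forall]
      exact isClosed_iInter fun l => isClosed_iInter fun _ =>
        isClosed_eq (continuous_const_smul (l : G)) continuous_id) hy fun n hn z hz l hl => by
      have e1 := hz (n⁻¹ * l * n) (by
        rw [(Subgroup.mem_normalizer_iff.1 hn)]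
        simpa only [mul_assoc, mul_inv_cancel_left, mul_inv_cancel, mul_one] using hl)
      rw [mul_smul, mul_smul, inv_smul_eq_iff] at e1
      exact e1
  obtain ⟨L, hL, k⟩ := h.ker
  have c2 := Γ.tendsto_coe_cofinite_of_discrete
    (isDiscrete_iff_discreteTopology.2 ‹DiscreteTopology Γ›) hL.compl_mem_cocompact
  refine ((mem_cofinite.1 c2).subset fun l hl h1 => h1 (k _ fun z => ?_)).to_subtype
  exact (e.symm ▸ Set.mem_univ z : z ∈ {z | ∀ l ∈ Λ, l • z = z}) l hl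

end nf

end Vale.Agent.P092EN
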