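import Vale.Agent.P092EN.Cp

/-!
P092, soft end (helper22): the boundary calculus of one leg commutes with the other leg.
-/

set_option linter.all false

open scoped InnerProductSpace
open Filter Topology ContinuousLinearMap

namespace Vale.Agent.P092EN

open Vale.Agent.P092.RC (Cm)
open Vale.Agent.P092.H494.PW (WLim exists_wlim_lin)

variable {K : Type} [NormedAddCommGroup K] [InnerProductSpace ℂ K] [CompleteSpace K]

section alg

variable {W : Set (K →L[ℂ] K)} {S T : K →L[ℂ] K}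

theorem cm_mul (hS : Cm W S) (hT : Cm W T) : Cm W (S * T) := fun w hw => by
  rw [mul_assoc, hT w hw, ← mul_assoc, hS w hw, mul_assoc]

theorem cm_add (hS : Cm W S) (hT : Cm W T) : Cm W (S + T) := fun w hw => by
  rw [add_mul, mul_add, hS w hw, hT w hw]

theorem cm_sub (hS : Cm W S) (hT : Cm W T) : Cm W (S - T) := fun w hw => by
  rw [sub_mul, mul_sub, hS w hw, hT w hw]

theorem cm_smul (c : ℂ) (hS : Cm W S) : Cm W (c • S) := fun w hw => by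
  rw [smul_mul_assoc, mul_smul_comm, hS w hw]

theorem cm_one : Cm W (1 : K →L[ℂ] K) := fun w _ => by rw [one_mul, mul_one]

theorem cm_zero : Cm W (0 : K →L[ℂ] K) := fun w _ => by rw [zero_mul, mul_zero]

theorem cm_conj {u u' : K →L[ℂ] K} (h1 : u * u' = 1) (hW : ∀ w ∈ W, u' * w * u ∈ W)
    (hT : Cm W T) : Cm W (u * T * u') := fun w hw => by
  calc u * T * u' * w = u * T * u' * w * (u * u') := by rw [h1, mul_one]
    _ = u * (T * (u' * w * u)) * u' := by simp only [mul_assoc]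
    _ = (u * u') * w * (u * T * u') := by rw [hT _ (hW w hw)]; simp only [mul_assoc]
    _ = _ := by rw [h1, one_mul]

/-- the Cayley transform -/
theorem exists_cay {a : K →L[ℂ] K} (ha : adjoint a = a) : ∃ u : K →L[ℂ] K,
    adjoint u * u = 1 ∧ u * adjoint u = 1 ∧
    (∀ T, T * a = a * T → T * u = u * T ∧ T * adjoint u = adjoint u * T) ∧
    ∀ T, T * u = u * T → T * a = a * T := by
  have hsa : IsSelfAdjoint a := by rw [IsSelfAdjoint, star_eq_adjoint, ha]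
  have hI : Complex.I ∉ spectrum ℂ a := fun h => by
    have h1 := congrArg Complex.im (hsa.mem_spectrum_eq_re h)
    simp at h1
  obtain ⟨w, hw⟩ := spectrum.notMem_iff.1 hI
  obtain ⟨b, hb⟩ : ∃ b : K →L[ℂ] K, b = Complex.I • (1 : K →L[ℂ] K) - a := ⟨_, rfl⟩
  have hwb : (w : K →L[ℂ] K) = b := by rw [hw, hb, Algebra.algebraMap_eq_smul_one]
  obtain ⟨v, hv⟩ : ∃ v : K →L[ℂ] K, v = ((w⁻¹ : (K →L[ℂ] K)ˣ) : K →L[ℂ] K) := ⟨_, rfl⟩
  have h1 : b * v = 1 := by rw [← hwb, hv]; exact w.mul_inv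
  have h2 : v * b = 1 := by rw [← hwb, hv]; exact w.inv_mul
  have hbs : star b = (-Complex.I) • (1 : K →L[ℂ] K) - a := by
    rw [hb, star_sub, star_smul, star_one, hsa.star_eq, Complex.star_def, Complex.conj_I]
  have h3 : star v * star b = 1 := by rw [← star_mul, h1, star_one]
  have h4 : star b * star v = 1 := by rw [← star_mul, h2, star_one]
  have inv : ∀ {x y T : K →L[ℂ] K}, x * y = 1 → y * x = 1 → T * x = x * T → T * y = y * T := by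
    intro x y T e1 e2 e3
    calc T * y = (y * x) * T * y := by rw [e2, one_mul]
      _ = y * (T * x) * y := by rw [e3]; simp only [mul_assoc]
      _ = y * T * (x * y) := by simp only [mul_assoc]
      _ = _ := by rw [e1, mul_one]
  have cb : ∀ T, T * a = a * T → T * b = b * T := fun T hT => by
    rw [hb, mul_sub, sub_mul, hT, mul_smul_comm, smul_mul_assoc, mul_one, one_mul]
  have cb' : ∀ T, T * a = a * T → T * star b = star b * T := fun T hT => by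
    rw [hbs, mul_sub, sub_mul, hT, mul_smul_comm, smul_mul_assoc, mul_one, one_mul]
  have hab : b * a = a * b := (cb a rfl).symm
  have hn : b * star b = star b * b := cb' b hab
  have hvb : v * star b = star b * v := (inv h1 h2 hn.symm).symm
  have hvv : v * star v = star v * v := inv h4 h3 hvb
  have hu : star b * v = 1 - (2 * Complex.I) • v := by
    have e : star b = b - (2 * Complex.I) • (1 : K →L[ℂ] K) := by
      rw [hbs, hb, sub_right_comm, ← sub_smul]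
      congr 2
      ring
    rw [e, sub_mul, h1, smul_mul_assoc, one_mul]
  refine ⟨star b * v, ?_, ?_, fun T hT => ⟨?_, ?_⟩, fun T hT => ?_⟩
  · rw [← star_eq_adjoint, star_mul, star_star]
    calc star v * b * (star b * v) = star v * (b * star b) * v := by simp only [mul_assoc]
      _ = (star v * star b) * (b * v) := by rw [hn]; simp only [mul_assoc]
      _ = 1 := by rw [h3, h1, mul_one]
  · rw [← star_eq_adjoint, star_mul, star_star]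
    calc star b * v * (star v * b) = star b * (v * star v) * b := by simp only [mul_assoc]
      _ = (star b * star v) * (v * b) := by rw [hvv]; simp only [mul_assoc]
      _ = 1 := by rw [h4, h2, mul_one]
  · rw [← mul_assoc, cb' T hT, mul_assoc, inv h1 h2 (cb T hT), mul_assoc]
  · rw [← star_eq_adjoint, star_mul, star_star, ← mul_assoc, inv h4 h3 (cb' T hT), mul_assoc,
      cb T hT, mul_assoc]
  · rw [hu, mul_sub, sub_mul, mul_one, one_mul, sub_right_inj, mul_smul_comm, smul_mul_assoc] at hT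
    have e1 : T * v = v * T :=
      smul_right_injective _ (mul_ne_zero two_ne_zero Complex.I_ne_zero) hT
    have e2 := inv h2 h1 e1
    rwa [hb, mul_sub, sub_mul, mul_smul_comm, smul_mul_assoc, mul_one, one_mul,
      sub_right_inj] at e2

end alg

section cls

variable {Γ : Type} [Group Γ] {Y : Type} [TopologicalSpace Y] [CompactSpace Y] [MulAction Γ Y]

/-- subunital covariant completely positive maps into the commutant of `W` -/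
structure Pz (lam : Γ →* (K →L[ℂ] K)) (W : Set (K →L[ℂ] K))
    (Ψ : C(Y, ℂ) →ₗ[ℂ] (K →L[ℂ] K)) : Prop where
  cp : Cp Ψ
  le : ∀ η, (⟪η, Ψ 1 η⟫_ℂ).re ≤ ‖η‖ ^ 2
  cm : ∀ f, Cm W (Ψ f)
  cov : Cov lam Ψ

variable {lam : Γ →* (K →L[ℂ] K)} {W : Set (K →L[ℂ] K)}

theorem cov_add {Ψ Φ : C(Y, ℂ) →ₗ[ℂ] (K →L[ℂ] K)} (h : Cov lam Ψ) (h' : Cov lam Φ) :
    Cov lam (Ψ + Φ : C(Y, ℂ) →ₗ[ℂ] (K →L[ℂ] K)) := fun γ f f' e => by
  rw [LinearMap.add_apply, LinearMap.add_apply, mul_add, add_mul, h γ f f' e, h' γ f f' e]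

theorem cov_smul {Ψ : C(Y, ℂ) →ₗ[ℂ] (K →L[ℂ] K)} (c : ℂ) (h : Cov lam Ψ) :
    Cov lam (c • Ψ : C(Y, ℂ) →ₗ[ℂ] (K →L[ℂ] K)) := fun γ f f' e => by
  rw [LinearMap.smul_apply, LinearMap.smul_apply, mul_smul_comm, smul_mul_assoc, h γ f f' e]

theorem cov_cj {Ψ : C(Y, ℂ) →ₗ[ℂ] (K →L[ℂ] K)} {u : K →L[ℂ] K}
    (hu : ∀ γ, u * lam γ = lam γ * u) (hu' : ∀ γ, adjoint u * lam γ = lam γ * adjoint u)
    (h : Cov lam Ψ) : Cov lam (cj u Ψ) := fun γ f f' e => by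
  rw [cj_apply, cj_apply, ← h γ f f' e]
  calc lam γ * (u * Ψ f * adjoint u) * lam γ⁻¹
      = (lam γ * u) * Ψ f * (adjoint u * lam γ⁻¹) := by simp only [mul_assoc]
    _ = _ := by rw [← hu, hu']; simp only [mul_assoc]

theorem cov_lim {ι : Type} {l : Filter ι} [l.NeBot] {Θ : ι → (C(Y, ℂ) →ₗ[ℂ] (K →L[ℂ] K))}
    {Ψ : C(Y, ℂ) →ₗ[ℂ] (K →L[ℂ] K)} (h : ∀ i, Cov lam (Θ i))
    (hl : ∀ f, WLim l (fun i => Θ i f) (Ψ f)) : Cov lam Ψ := fun γ f f' e =>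
  ((((hl f).mul_left (lam γ)).mul_right (lam γ⁻¹)).congr fun i => h i γ f f' e).unique (hl f')

theorem cls_Pz : Cls {Ψ : C(Y, ℂ) →ₗ[ℂ] (K →L[ℂ] K) | Pz lam W Ψ} where
  conv Ψ h Φ h' a b ha hb hab := by
    refine ⟨(h.cp.smul ha).add (h'.cp.smul hb), fun η => ?_,
      fun f => cm_add (cm_smul _ (h.cm f)) (cm_smul _ (h'.cm f)),
      cov_add (cov_smul _ h.cov) (cov_smul _ h'.cov)⟩
    simp only [LinearMap.add_apply, LinearMap.smul_apply, ContinuousLinearMap.add_apply,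
      ContinuousLinearMap.smul_apply, inner_add_right, inner_smul_right, Complex.add_re,
      Complex.re_ofReal_mul]
    have h1 := mul_le_mul_of_nonneg_left (h.le η) ha
    have h2 := mul_le_mul_of_nonneg_left (h'.le η) hb
    have h3 : a * ‖η‖ ^ 2 + b * ‖η‖ ^ 2 = ‖η‖ ^ 2 := by rw [← add_mul, hab, one_mul]
    linarith
  bdd f := ⟨‖f‖, fun Ψ h => h.cp.norm_le h.le f⟩
  lim l _ Φ Ψ h hl :=
    ⟨Cp.lim (fun i => (h i).cp) hl, fun η => le_of_tendsto' ((hl 1).re η η) fun i => (h i).le η,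
      fun f w hw => (hl f).comm (Eventually.of_forall fun i => (h i).cm f w hw),
      cov_lim (fun i => (h i).cov) hl⟩

theorem cls_Pu : Cls {Ψ : C(Y, ℂ) →ₗ[ℂ] (K →L[ℂ] K) | Pz lam W Ψ ∧ Ψ 1 = 1} where
  conv Ψ h Φ h' a b ha hb hab := by
    refine ⟨(cls_Pz (lam := lam) (W := W)).conv Ψ h.1 Φ h'.1 a b ha hb hab, ?_⟩
    rw [LinearMap.add_apply, LinearMap.smul_apply, LinearMap.smul_apply, h.2, h'.2, ← add_smul,
      ← Complex.ofReal_add, hab, Complex.ofReal_one, one_smul]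
  bdd f := ⟨‖f‖, fun Ψ h => h.1.cp.norm_le h.1.le f⟩
  lim l _ Φ Ψ h hl :=
    ⟨(cls_Pz (lam := lam) (W := W)).lim l Φ Ψ (fun i => (h i).1) hl,
      ((hl 1).congr fun i => (h i).2).unique (WLim.const 1)⟩

theorem pz_of_one {Ψ : C(Y, ℂ) →ₗ[ℂ] (K →L[ℂ] K)} (h : Cp Ψ) (h1 : Ψ 1 = 1)
    (h2 : ∀ f, Cm W (Ψ f)) (h3 : Cov lam Ψ) : Pz lam W Ψ ∧ Ψ 1 = 1 :=
  ⟨⟨h, fun η => by rw [h1]; exact (re_self η).le, h2, h3⟩, h1⟩

/-- **Step 1**: a map with values in the commutant of a commuting family -/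
theorem step1 {X C : Set (K →L[ℂ] K)} (sa : ∀ a ∈ C, adjoint a = a)
    (com : ∀ a ∈ C, ∀ b ∈ C, a * b = b * a) (cm : ∀ a ∈ C, Cm (X ∪ Set.range lam) a)
    {E : C(Y, ℂ) →ₗ[ℂ] (K →L[ℂ] K)} (hE : Pz lam X E ∧ E 1 = 1) :
    ∃ Ψ : C(Y, ℂ) →ₗ[ℂ] (K →L[ℂ] K), Pz lam (X ∪ C) Ψ ∧ Ψ 1 = 1 := by
  choose u u1 u2 u3 u4 using fun a : C => exists_cay (sa a.1 a.2)
  have hw : ∀ a : C, ∀ w ∈ X ∪ Set.range lam, u a * w = w * u a ∧
      adjoint (u a) * w = w * adjoint (u a) := fun a w hw =>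
    ⟨(u3 a w (cm a.1 a.2 w hw).symm).1.symm, (u3 a w (cm a.1 a.2 w hw).symm).2.symm⟩
  obtain ⟨Ψ, hΨ, h1⟩ := (cls_Pu (lam := lam) (W := X)).fix_comm ⟨E, hE⟩ u
    (fun a b => (u3 b (u a) (u3 a b.1 (com b.1 b.2 a.1 a.2)).1.symm).1)
    (fun a Ψ h => pz_of_one (h.1.cp.cj _) (by rw [cj_apply, h.2, mul_one, u2])
      (fun f => cm_mul (cm_mul (fun w hw' => (hw a w (Or.inl hw')).1) (h.1.cm f))
        fun w hw' => (hw a w (Or.inl hw')).2)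
      (cov_cj (fun γ => (hw a _ (Or.inr ⟨γ, rfl⟩)).1) (fun γ => (hw a _ (Or.inr ⟨γ, rfl⟩)).2)
        h.1.cov))
  refine ⟨Ψ, ⟨hΨ.1.cp, hΨ.1.le, fun f w hw' => ?_, hΨ.1.cov⟩, hΨ.2⟩
  rcases hw' with hw' | hw'
  · exact hΨ.1.cm f w hw'
  · refine u4 ⟨w, hw'⟩ _ ?_
    have h2 : u ⟨w, hw'⟩ * Ψ f * adjoint (u ⟨w, hw'⟩) = Ψ f := LinearMap.congr_fun (h1 ⟨w, hw'⟩) f
    calc Ψ f * u ⟨w, hw'⟩ = u ⟨w, hw'⟩ * Ψ f * adjoint (u ⟨w, hw'⟩) * u ⟨w, hw'⟩ := by rw [h2]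
      _ = _ := by rw [mul_assoc, u1, mul_one]

variable {Γ₁ : Type} [Group Γ₁] {lam₁ : Γ₁ →* (K →L[ℂ] K)}

theorem summable_pin {b T : K →L[ℂ] K} {N : ℝ}
    (hN : ∀ (F : Finset Γ₁) (η : K), ∑ γ ∈ F, ‖b (lam₁ γ η)‖ ^ 2 ≤ N * ‖η‖ ^ 2) (η ζ : K) :
    Summable fun γ => ⟪b (lam₁ γ η), T (b (lam₁ γ ζ))⟫_ℂ := by
  have h1 : ∀ x, Summable fun γ => ‖b (lam₁ γ x)‖ ^ 2 := fun x =>
    summable_of_sum_le (fun γ => sq_nonneg _) fun F => hN F x
  refine Summable.of_norm_bounded (((h1 η).add (h1 ζ)).mul_left (‖T‖ / 2)) fun γ => ?_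
  have h2 := T.le_opNorm (b (lam₁ γ ζ))
  have h3 := norm_inner_le_norm (𝕜 := ℂ) (b (lam₁ γ η)) (T (b (lam₁ γ ζ)))
  have h4 := mul_le_mul_of_nonneg_left h2 (norm_nonneg (b (lam₁ γ η)))
  have h5 : 0 ≤ ‖T‖ * (‖b (lam₁ γ η)‖ - ‖b (lam₁ γ ζ)‖) ^ 2 := by positivity
  nlinarith

/-- the pinching sum -/
theorem exists_pin (adj₁ : ∀ γ, adjoint (lam₁ γ) = lam₁ γ⁻¹) {b : K →L[ℂ] K}
    (hN : ∀ (F : Finset Γ₁) (η : K), ∑ γ ∈ F, ‖b (lam₁ γ η)‖ ^ 2 ≤ 1 * ‖η‖ ^ 2)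
    {Ψ₀ : C(Y, ℂ) →ₗ[ℂ] (K →L[ℂ] K)} (h₀ : Cp Ψ₀) (h1 : Ψ₀ 1 = 1)
    (hcm : ∀ γ f, Cm W (cj (adjoint (b * lam₁ γ)) Ψ₀ f))
    (hcov : ∀ γ, Cov lam (cj (adjoint (b * lam₁ γ)) Ψ₀)) :
    ∃ Θ : C(Y, ℂ) →ₗ[ℂ] (K →L[ℂ] K), Cp Θ ∧ (∀ f, Cm (W ∪ Set.range lam₁) (Θ f)) ∧ Cov lam Θ ∧
      ∀ η, HasSum (fun γ => ‖b (lam₁ γ η)‖ ^ 2) (⟪η, Θ 1 η⟫_ℂ).re := by
  classical
  obtain ⟨t, ht⟩ : ∃ t : Γ₁ → (C(Y, ℂ) →ₗ[ℂ] (K →L[ℂ] K)),
      ∀ γ, t γ = cj (adjoint (b * lam₁ γ)) Ψ₀ := ⟨_, fun _ => rfl⟩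
  have hti : ∀ γ f η ζ, ⟪η, t γ f ζ⟫_ℂ = ⟪b (lam₁ γ η), Ψ₀ f (b (lam₁ γ ζ))⟫_ℂ := by
    intro γ f η ζ
    rw [ht, inner_cj, adjoint_adjoint]
    rfl
  have hsi : ∀ (F : Finset Γ₁) f η ζ, ⟪η, (∑ γ ∈ F, t γ) f ζ⟫_ℂ =
      ∑ γ ∈ F, ⟪b (lam₁ γ η), Ψ₀ f (b (lam₁ γ ζ))⟫_ℂ := by
    intro F f η ζ
    rw [LinearMap.sum_apply, ContinuousLinearMap.sum_apply, inner_sum]
    exact Finset.sum_congr rfl fun γ _ => hti γ f η ζ
  have hP : ∀ F : Finset Γ₁, Pz lam W (∑ γ ∈ F, t γ) := by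
    intro F
    refine ⟨Cp.sum F fun γ => by rw [ht]; exact h₀.cj _, fun η => ?_, fun f => ?_, ?_⟩
    · rw [hsi, h1, Complex.re_sum]
      simp only [ContinuousLinearMap.one_apply, re_self]
      exact (hN F η).trans_eq (one_mul _)
    · rw [LinearMap.sum_apply]
      exact Finset.sum_induction _ (Cm W) (fun _ _ => cm_add) cm_zero fun γ _ => by
        rw [ht]; exact hcm γ f
    · exact Finset.sum_induction _ (fun Θ : C(Y, ℂ) →ₗ[ℂ] (K →L[ℂ] K) => Cov lam Θ)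
        (fun _ _ => cov_add) (fun γ f f' _ => by simp) fun γ _ => by rw [ht]; exact hcov γ
  obtain ⟨Θ, hΘ⟩ := exists_wlim_lin (Ultrafilter.of (atTop : Filter (Finset Γ₁)))
    (fun F => ∑ γ ∈ F, t γ) fun f => ⟨‖f‖, fun F => (hP F).cp.norm_le (hP F).le f⟩
  have hz : Pz lam W Θ := (cls_Pz (lam := lam) (W := W)).lim _ _ Θ hP hΘ
  have hs : ∀ f η ζ, HasSum (fun γ => ⟪b (lam₁ γ η), Ψ₀ f (b (lam₁ γ ζ))⟫_ℂ) ⟪η, Θ f ζ⟫_ℂ := by
    intro f η ζ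
    have h2 := (summable_pin (T := Ψ₀ f) hN η ζ).hasSum
    have h3 := hΘ f ζ η
    simp only [hsi] at h3
    have h4 := tendsto_nhds_unique h3 (Tendsto.mono_left h2 (Ultrafilter.of_le _))
    rwa [h4]
  refine ⟨Θ, hz.cp, fun f w hw => ?_, hz.cov, fun η => ?_⟩
  · rcases hw with hw | ⟨δ, rfl⟩
    · exact hz.cm f w hw
    · refine ContinuousLinearMap.ext fun ζ => ext_inner_left ℂ fun η => ?_
      change ⟪η, Θ f (lam₁ δ ζ)⟫_ℂ = ⟪η, lam₁ δ (Θ f ζ)⟫_ℂ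
      rw [inner_r adj₁]
      have h2 := (Equiv.mulRight δ).hasSum_iff.2 (hs f (lam₁ δ⁻¹ η) ζ)
      have e : ((fun γ => ⟪b (lam₁ γ (lam₁ δ⁻¹ η)), Ψ₀ f (b (lam₁ γ ζ))⟫_ℂ) ∘
          ⇑(Equiv.mulRight δ)) = fun γ => ⟪b (lam₁ γ η), Ψ₀ f (b (lam₁ γ (lam₁ δ ζ)))⟫_ℂ := by
        funext γ
        rw [Function.comp_apply, Equiv.coe_mulRight, mul_ap, mul_ap, ap_inv]
      rw [e] at h2
      exact (hs f η (lam₁ δ ζ)).unique h2
  · have h2 := Complex.hasSum_re (hs 1 η η)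
    simp only [h1, ContinuousLinearMap.one_apply, re_self] at h2
    exact h2

/-- **Step 2**: a map which also commutes with the first target group -/
theorem step2 {X C : Set (K →L[ℂ] K)} (adj₁ : ∀ γ, adjoint (lam₁ γ) = lam₁ γ⁻¹)
    (c12 : ∀ a b, lam₁ a * lam b = lam b * lam₁ a) (x1 : ∀ γ, Cm X (lam₁ γ))
    (sa : ∀ a ∈ C, adjoint a = a) (com : ∀ a ∈ C, ∀ b ∈ C, a * b = b * a)
    (cm : ∀ a ∈ C, Cm (X ∪ Set.range lam) a) (cov : ∀ γ, ∀ a ∈ C, lam₁ γ * a * lam₁ γ⁻¹ ∈ C)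
    (nd : ∀ ξ : K, (∀ a ∈ C, IB lam₁ a → a ξ = 0) → ξ = 0)
    {Ψ₀ : C(Y, ℂ) →ₗ[ℂ] (K →L[ℂ] K)} (h₀ : Pz lam (X ∪ C) Ψ₀ ∧ Ψ₀ 1 = 1) :
    ∃ Ψ : C(Y, ℂ) →ₗ[ℂ] (K →L[ℂ] K), Pz lam ((X ∪ C) ∪ Set.range lam₁) Ψ ∧ Ψ 1 = 1 := by
  have hz : Pz lam ((X ∪ C) ∪ Set.range lam₁) (0 : C(Y, ℂ) →ₗ[ℂ] (K →L[ℂ] K)) :=
    ⟨Cp.zero, fun η => by simp, fun f => cm_zero, fun γ f f' _ => by simp⟩
  obtain ⟨Ψ, hΨ, h1⟩ := (cls_Pz (lam := lam) (W := (X ∪ C) ∪ Set.range lam₁)).exists_top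
    ⟨0, hz⟩ 1 (fun Ψ h => h.le) (fun Ψ h ξ hξ => by
      have h : Pz lam ((X ∪ C) ∪ Set.range lam₁) Ψ := h
      obtain ⟨r, hr⟩ : ∃ r : K →L[ℂ] K, r = 1 - Ψ 1 := ⟨_, rfl⟩
      have hra : adjoint r = r := by
        rw [hr, map_sub, h.cp.adj_one, ← star_eq_adjoint, star_one]
      have hrW : Cm ((X ∪ C) ∪ Set.range lam₁) r := by rw [hr]; exact cm_sub cm_one (h.cm 1)
      have hrl : ∀ γ, r * lam γ = lam γ * r := fun γ => by
        have e := h.cov γ 1 1 fun _ => rfl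
        have e2 : Ψ 1 * lam γ = lam γ * Ψ 1 := by
          calc Ψ 1 * lam γ = lam γ * Ψ 1 * lam γ⁻¹ * lam γ := by rw [e]
            _ = _ := by rw [mul_assoc, inv_mul_op, mul_one]
        rw [hr, sub_mul, mul_sub, e2, one_mul, mul_one]
      have hrn : ∀ η, (⟪η, Ψ 1 η⟫_ℂ).re + ‖r η‖ ^ 2 ≤ ‖η‖ ^ 2 := fun η => by
        have e := h.cp.ks h.le 1 η
        rw [star_one, one_mul] at e
        have e2 : r η = η - Ψ 1 η := by rw [hr]; rfl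
        rw [e2, @norm_sub_sq ℂ]
        change _ + (_ - 2 * (⟪η, Ψ 1 η⟫_ℂ).re + _) ≤ _
        linarith
      have hrξ : r ξ ≠ 0 := fun h0 => by
        have e2 : r ξ = ξ - Ψ 1 ξ := by rw [hr]; rfl
        rw [e2, sub_eq_zero] at h0
        rw [← h0, re_self] at hξ
        exact lt_irrefl _ hξ
      obtain ⟨a, ha, hib, haξ⟩ : ∃ a ∈ C, IB lam₁ a ∧ a (r ξ) ≠ 0 := by
        by_contra hn
        push Not at hn
        exact hrξ (nd _ hn)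
      obtain ⟨N, hN0, hN⟩ := hib.exists_pos
      obtain ⟨c, hc⟩ : ∃ c : ℝ, c = (Real.sqrt N)⁻¹ := ⟨_, rfl⟩
      have hc0 : 0 < c := by rw [hc]; exact inv_pos.2 (Real.sqrt_pos.2 hN0)
      have hcN : c ^ 2 * N = 1 := by
        rw [hc, inv_pow, Real.sq_sqrt hN0.le, inv_mul_cancel₀ hN0.ne']
      obtain ⟨b, hb⟩ : ∃ b : K →L[ℂ] K, b = (c : ℂ) • (a * r) := ⟨_, rfl⟩
      have har : r * a = a * r := hrW a (Or.inl (Or.inr ha))
      have hba : adjoint b = b := by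
        rw [hb, ← star_eq_adjoint, star_smul, star_mul, star_eq_adjoint, star_eq_adjoint, hra,
          sa a ha, har, Complex.star_def, Complex.conj_ofReal]
      have hbn : ∀ γ η, ‖b (lam₁ γ η)‖ = c * ‖a (lam₁ γ (r η))‖ := fun γ η => by
        have e : r (lam₁ γ η) = lam₁ γ (r η) :=
          congrArg (fun T : K →L[ℂ] K => T η) (hrW _ (Or.inr ⟨γ, rfl⟩))
        rw [hb, ContinuousLinearMap.smul_apply, ContinuousLinearMap.mul_apply, e, norm_smul,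
          Complex.norm_real, Real.norm_eq_abs, abs_of_pos hc0]
      have hbs : ∀ (F : Finset Γ₁) η, ∑ γ ∈ F, ‖b (lam₁ γ η)‖ ^ 2 ≤ ‖r η‖ ^ 2 := fun F η => by
        simp only [hbn, mul_pow]
        rw [← Finset.mul_sum]
        calc c ^ 2 * ∑ γ ∈ F, ‖a (lam₁ γ (r η))‖ ^ 2 ≤ c ^ 2 * (N * ‖r η‖ ^ 2) :=
              mul_le_mul_of_nonneg_left (hN F _) (sq_nonneg _)
          _ = _ := by rw [← mul_assoc, hcN, one_mul]
      have hbW : Cm (X ∪ C) b := by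
        rw [hb]
        refine cm_smul _ (cm_mul (fun w hw => ?_) fun w hw => hrW w (Or.inl hw))
        rcases hw with hw | hw
        · exact cm a ha w (Or.inl hw)
        · exact com a ha w hw
      have hbl : ∀ γ, b * lam γ = lam γ * b := fun γ => by
        rw [hb, smul_mul_assoc, mul_smul_comm, mul_assoc, hrl, ← mul_assoc,
          cm a ha _ (Or.inr ⟨γ, rfl⟩), mul_assoc]
      have hadj : ∀ γ, adjoint (b * lam₁ γ) = lam₁ γ⁻¹ * b := fun γ => by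
        rw [← star_eq_adjoint, star_mul, star_eq_adjoint, star_eq_adjoint, adj₁, hba]
      obtain ⟨Θ, t1, t2, t3, t4⟩ := exists_pin (lam := lam) (W := X ∪ C) adj₁ (b := b)
        (fun F η => by
          have e1 := hbs F η
          have e2 := hrn η
          have e3 := h.cp.pos_one η
          linarith) h₀.1.cp h₀.2
        (fun γ f => by
          rw [cj_apply, adjoint_adjoint, hadj]
          have e : lam₁ γ⁻¹ * b * Ψ₀ f * (b * lam₁ γ) = lam₁ γ⁻¹ * (b * Ψ₀ f * b) * lam₁ γ := by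
            simp only [mul_assoc]
          rw [e]
          refine cm_conj (inv_mul_op lam₁ γ) (fun w hw => ?_)
            (cm_mul (cm_mul hbW (h₀.1.cm f)) hbW)
          rcases hw with hw | hw
          · rw [x1 γ w hw, mul_assoc, mul_inv_op, mul_one]
            exact Or.inl hw
          · exact Or.inr (cov γ w hw))
        (fun γ => cov_cj
          (fun δ => by rw [hadj, mul_assoc, hbl, ← mul_assoc, c12, mul_assoc])
          (fun δ => by rw [adjoint_adjoint, mul_assoc, c12, ← mul_assoc, hbl, mul_assoc])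
          h₀.1.cov)
      have e0 : ∀ η, (⟪η, (Ψ + Θ) 1 η⟫_ℂ).re = (⟪η, Ψ 1 η⟫_ℂ).re + (⟪η, Θ 1 η⟫_ℂ).re := fun η => by
        rw [LinearMap.add_apply, ContinuousLinearMap.add_apply, inner_add_right, Complex.add_re]
      refine ⟨Ψ + Θ, ⟨h.cp.add t1, fun η => ?_, fun f => cm_add (h.cm f) (t2 f),
        cov_add h.cov t3⟩, fun η => ?_, ?_⟩
      · rw [e0]
        have e1 := hasSum_le_of_sum_le (t4 η) fun F => hbs F η
        have e2 := hrn η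
        linarith
      · rw [e0]
        have e1 := t1.pos_one η
        linarith
      · rw [e0]
        have e1 := le_hasSum (t4 ξ) 1 fun _ _ => sq_nonneg _
        rw [hbn, map_one, ContinuousLinearMap.one_apply] at e1
        have e2 : 0 < (c * ‖a (r ξ)‖) ^ 2 := pow_pos (mul_pos hc0 (norm_pos_iff.2 haξ)) 2
        linarith)
  have hΨ : Pz lam ((X ∪ C) ∪ Set.range lam₁) Ψ := hΨ
  refine ⟨Ψ, hΨ, ContinuousLinearMap.ext fun η => ?_⟩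
  have e := hΨ.cp.ks hΨ.le 1 η
  rw [star_one, one_mul, h1] at e
  have e2 : ‖η - Ψ 1 η‖ ^ 2 ≤ 0 := by
    rw [@norm_sub_sq ℂ]
    change _ - 2 * (⟪η, Ψ 1 η⟫_ℂ).re + _ ≤ _
    rw [h1]
    linarith
  have e3 : ‖η - Ψ 1 η‖ = 0 := pow_eq_zero_iff two_ne_zero |>.1 (le_antisymm e2 (sq_nonneg _))
  exact (sub_eq_zero.1 (norm_eq_zero.1 e3)).symm

/-- **[XC]** A boundary map of the second leg which is unique commutes with the first leg. -/
theorem xc {S : Type} [Group S] [Group.IsSolvable S] {σ : S →* (K →L[ℂ] K)}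
    {X C : Set (K →L[ℂ] K)} (adjS : ∀ s, adjoint (σ s) = σ s⁻¹)
    (adj₁ : ∀ γ, adjoint (lam₁ γ) = lam₁ γ⁻¹) (c12 : ∀ a b, lam₁ a * lam b = lam b * lam₁ a)
    (s1 : ∀ s γ, σ s * lam₁ γ = lam₁ γ * σ s) (s2 : ∀ s γ, σ s * lam γ = lam γ * σ s)
    (sX : ∀ s, ∀ x ∈ X, σ s * x * σ s⁻¹ ∈ X) (x1 : ∀ γ, Cm X (lam₁ γ))
    (hC : OLeg σ lam₁ (X ∪ Set.range lam) C)
    {E : C(Y, ℂ) →ₗ[ℂ] (K →L[ℂ] K)} (hE : Ucp E) (cmE : ∀ f, Cm X (E f)) (covE : Cov lam E)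
    {Φ : C(Y, ℂ) → (K →L[ℂ] K)} (uq : UQ σ lam (X ∪ Set.range lam₁) Φ) :
    ∀ f, Cm C (Φ f) := by
  obtain ⟨Ψ₀, h₀⟩ := step1 hC.sa hC.com hC.cm (pz_of_one hE.toCp hE.one cmE covE)
  obtain ⟨Ψ₁, h₁⟩ := step2 adj₁ c12 x1 hC.sa hC.com hC.cm hC.cov hC.nd h₀
  obtain ⟨Ψ, hΨ, h2⟩ := (cls_Pu (lam := lam) (W := (X ∪ C) ∪ Set.range lam₁)).fix_solv ⟨Ψ₁, h₁⟩ σ
    (fun s Ψ h => pz_of_one (h.1.cp.cj _) (by rw [cj_apply, h.2, mul_one, adjS, mul_inv_op])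
      (fun f => by
        rw [cj_apply, adjS]
        refine cm_conj (mul_inv_op σ s) (fun w hw => ?_) (h.1.cm f)
        rcases hw with (hw | hw) | ⟨γ, rfl⟩
        · have e := sX s⁻¹ w hw
          rw [inv_inv] at e
          exact Or.inl (Or.inl e)
        · have e := hC.pcov s⁻¹ w hw
          rw [inv_inv] at e
          exact Or.inl (Or.inr e)
        · rw [s1, mul_assoc, inv_mul_op, mul_one]
          exact Or.inr ⟨γ, rfl⟩)
      (cov_cj (s2 s) (fun γ => by rw [adjS, s2]) h.1.cov))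
  intro f w hw
  rw [← uq Ψ ⟨hΨ.1.cp, hΨ.2⟩ (fun f w hw => hΨ.1.cm f w (hw.elim (fun e => Or.inl (Or.inl e)) Or.inr))
    hΨ.1.cov (fun s f => by rw [← adjS]; exact LinearMap.congr_fun (h2 s) f) f]
  exact hΨ.1.cm f w (Or.inl (Or.inr hw))

end cls

end Vale.Agent.P092EN
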