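import Vale.Agent.P092EN.Iro
import Vale.Agent.P092EN.Xc
import Vale.Agent.P092.H678.O.Sys

/-!
P092, soft end (helper22): two operator legs give overlap.
-/

set_option linter.all false

open scoped InnerProductSpace ENNReal
open Filter Topology ContinuousLinearMap TopologicalSpace MeasureTheory

namespace Vale.Agent.P092EN

open Vale.Agent.P092 Vale.Agent.P092.H264
open Vale.Agent.P092.RC (Cm)
open Vale.Agent.P092.H790 Vale.Agent.P092.H85 Vale.Agent.P092.H103 Vale.Agent.P092.H160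

section fam

variable {K : Type} [NormedAddCommGroup K] [InnerProductSpace ℂ K] [CompleteSpace K]
  {Γ Γ' : Type} [Group Γ] [Group Γ'] {lam : Γ →* (K →L[ℂ] K)} {lam' : Γ' →* (K →L[ℂ] K)}

/-- a countable family which witnesses `Mov` -/
theorem exists_fam [Countable Γ] {D : Set (K →L[ℂ] K)}
    (hD : ∀ γ, ∀ a ∈ D, lam γ * a * lam γ⁻¹ ∈ D) (h : Mov lam D) :
    ∃ (I : Type) (_ : Countable I) (G : I → (K →L[ℂ] K)), (∀ i, G i ∈ D) ∧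
      (∀ γ, ∃ σ : I → I, ∀ i, G i * lam γ = lam γ * G (σ i)) ∧
      ∀ L : Subgroup Γ, (Subgroup.normalizer (L : Set Γ)).FiniteIndex → Infinite L →
        ∃ (n : ℕ) (l : Fin n → Γ) (ix : Fin n → I), (∀ j, l j ∈ L) ∧ ∑ j, G (ix j) = 1 ∧
          ∀ j, G (ix j) * (lam (l j) * G (ix j) * lam (l j)⁻¹) = 0 := by
  let Gd : (Σ n : ℕ, Fin n → Γ) → Prop := fun t => ∃ a : Fin t.1 → (K →L[ℂ] K),
    (∀ j, a j ∈ D) ∧ ∑ j, a j = 1 ∧ ∀ j, a j * (lam (t.2 j) * a j * lam (t.2 j)⁻¹) = 0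
  choose a a1 a2 a3 using fun t : {t // Gd t} => t.2
  refine ⟨Γ × Σ t : {t // Gd t}, Fin t.1.1, inferInstance,
    fun i => lam i.1 * a i.2.1 i.2.2 * lam i.1⁻¹, fun i => hD _ _ (a1 _ _),
    fun δ => ⟨fun i => (δ⁻¹ * i.1, i.2), fun i => ?_⟩, fun L h1 h2 => ?_⟩
  · change lam i.1 * a i.2.1 i.2.2 * lam i.1⁻¹ * lam δ =
      lam δ * (lam (δ⁻¹ * i.1) * a i.2.1 i.2.2 * lam (δ⁻¹ * i.1)⁻¹)
    rw [mul_inv_rev, inv_inv, map_mul, map_mul]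
    simp only [← mul_assoc]
    rw [mul_inv_op, one_mul]
  · obtain ⟨n, l, b, b1, b2, b3, b4⟩ := h L h1 h2
    have hG : Gd ⟨n, l⟩ := ⟨b, b2, b3, b4⟩
    refine ⟨n, l, fun j => (1, ⟨⟨⟨n, l⟩, hG⟩, j⟩), b1, ?_, fun j => ?_⟩
    · simp only [inv_one, map_one, one_mul, mul_one]
      exact a2 ⟨⟨n, l⟩, hG⟩
    · simp only [inv_one, map_one, one_mul, mul_one]
      exact a3 ⟨⟨n, l⟩, hG⟩ j

theorem ib_prod {a b : K →L[ℂ] K} {N N' : ℝ} (hN' : 0 ≤ N')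
    (ha : ∀ (F : Finset Γ) (η : K), ∑ γ ∈ F, ‖a (lam γ η)‖ ^ 2 ≤ N * ‖η‖ ^ 2)
    (hb : ∀ (F : Finset Γ') (η : K), ∑ γ ∈ F, ‖b (lam' γ η)‖ ^ 2 ≤ N' * ‖η‖ ^ 2)
    (hc : ∀ γ δ, lam γ * lam' δ = lam' δ * lam γ) (hab : ∀ δ, a * lam' δ = lam' δ * a)
    (F : Finset (Γ × Γ')) (η : K) :
    ∑ x ∈ F, ‖b (a (lam x.1 (lam' x.2 η)))‖ ^ 2 ≤ N' * (N * ‖η‖ ^ 2) := by
  classical
  have h1 : F ⊆ F.image Prod.fst ×ˢ F.image Prod.snd := Finset.subset_product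
  have e : ∀ γ δ, a (lam γ (lam' δ η)) = lam' δ (a (lam γ η)) := fun γ δ => by
    have e1 : lam γ (lam' δ η) = lam' δ (lam γ η) := congrArg (fun T : K →L[ℂ] K => T η) (hc γ δ)
    rw [e1]
    exact congrArg (fun T : K →L[ℂ] K => T (lam γ η)) (hab δ)
  refine (Finset.sum_le_sum_of_subset_of_nonneg h1 fun _ _ _ => sq_nonneg _).trans ?_
  rw [Finset.sum_product]
  simp only [e]
  refine (Finset.sum_le_sum fun γ _ => hb _ _).trans ?_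
  rw [← Finset.mul_sum]
  exact mul_le_mul_of_nonneg_left (ha _ _) hN'

variable {Y : Type} [TopologicalSpace Y] [CompactSpace Y] [T2Space Y] [MulAction Γ Y]
  [ContinuousConstSMul Γ Y]

/-- no common fixed point gives a moved partition of unity -/
theorem mov_of_nf (nf : NF Γ Y) {Φ : C(Y, ℂ) →⋆ₐ[ℂ] (K →L[ℂ] K)} (cov : Cov lam Φ)
    {D : Set (K →L[ℂ] K)} (mem : ∀ f : C(Y, ℂ), star f = f → Φ f ∈ D) : Mov lam D := by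
  intro L h1 h2
  have h3 : ∀ y : Y, ∃ l ∈ L, ∃ U : Set Y, IsOpen U ∧ y ∈ U ∧ ∀ z ∈ U, l • z ∉ U := by
    intro y
    obtain ⟨l, hl, hy⟩ : ∃ l ∈ L, l • y ≠ y := by
      by_contra hn
      push Not at hn
      haveI := nf L h1 ⟨y, hn⟩
      exact not_finite L
    obtain ⟨U₁, U₂, u1, u2, u3, u4, u5⟩ := t2_separation hy
    refine ⟨l, hl, U₂ ∩ (fun z => l • z) ⁻¹' U₁,
      u2.inter (u1.preimage (continuous_const_smul l)), ⟨u4, u3⟩, fun z hz hz' => ?_⟩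
    exact Set.disjoint_left.1 u5 hz.2 hz'.1
  choose l hl U hU hy hd using h3
  obtain ⟨t, ht⟩ := isCompact_univ.elim_finite_subcover U hU fun y _ => Set.mem_iUnion.2 ⟨y, hy y⟩
  obtain ⟨n, ⟨e⟩⟩ : ∃ n : ℕ, Nonempty (Fin n ≃ t) := ⟨_, ⟨t.equivFin.symm⟩⟩
  obtain ⟨f, f1, f2, -, -⟩ := exists_continuous_sum_one_of_isOpen_isCompact
    (s := fun i : Fin n => U (e i)) (t := Set.univ) (fun i => hU _) isCompact_univ (by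
      intro x hx
      obtain ⟨g, hg⟩ := Set.mem_iUnion.1 (ht hx)
      obtain ⟨hg1, hg2⟩ := Set.mem_iUnion.1 hg
      refine Set.mem_iUnion.2 ⟨e.symm ⟨g, hg1⟩, ?_⟩
      simpa using hg2)
  let g : Fin n → C(Y, ℂ) := fun j => ⟨fun y => ((f j y : ℝ) : ℂ), by fun_prop⟩
  refine ⟨n, fun j => l (e j), fun j => Φ (g j), fun j => hl _, fun j => mem _ ?_, ?_, fun j => ?_⟩
  · ext y
    exact Complex.conj_ofReal _
  · rw [← map_sum, ← map_one Φ]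
    congr 1
    ext y
    have h4 := f2 (Set.mem_univ y)
    simp only [ContinuousMap.coe_sum, Finset.sum_apply, Pi.one_apply] at h4
    simp only [ContinuousMap.coe_sum, Finset.sum_apply, ContinuousMap.one_apply]
    change ∑ j, ((f j y : ℝ) : ℂ) = 1
    rw [← Complex.ofReal_sum, h4, Complex.ofReal_one]
  · let g' : C(Y, ℂ) := ⟨fun y => g j ((l (e j))⁻¹ • y),
      (g j).continuous.comp (continuous_const_smul _)⟩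
    have h4 : g j * g' = 0 := by
      ext y
      change ((f j y : ℝ) : ℂ) * ((f j ((l (e j))⁻¹ • y) : ℝ) : ℂ) = 0
      by_contra hn
      have h5 : f j y ≠ 0 := fun h => hn (by rw [h, Complex.ofReal_zero, zero_mul])
      have h6 : f j ((l (e j))⁻¹ • y) ≠ 0 := fun h => hn (by rw [h, Complex.ofReal_zero, mul_zero])
      refine hd _ _ (f1 j (subset_tsupport _ h6)) ?_
      rw [smul_inv_smul]
      exact f1 j (subset_tsupport _ h5)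
    change Φ (g j) * (lam (l (e j)) * Φ (g j) * lam (l (e j))⁻¹) = 0
    rw [cov _ (g j) g' fun y => by change g j _ = _; rw [inv_smul_smul], ← map_mul, h4, map_zero]

/-- a property of the selfadjoint values passes to all values -/
theorem cm_of_real {W : Set (K →L[ℂ] K)} {Φ : C(Y, ℂ) →⋆ₐ[ℂ] (K →L[ℂ] K)}
    (h : ∀ f : C(Y, ℂ), star f = f → Cm W (Φ f)) (f : C(Y, ℂ)) : Cm W (Φ f) := by
  have e : f = (1 / 2 : ℂ) • (f + star f) +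
      (Complex.I / 2) • (Complex.I • (star f - f)) := by
    ext y
    simp only [ContinuousMap.add_apply, ContinuousMap.smul_apply, ContinuousMap.sub_apply,
      smul_eq_mul]
    linear_combination ((star f) y - f y) / 2 * (-Complex.I_sq)
  rw [e, map_add, map_smul, map_smul]
  refine cm_add (cm_smul _ (h _ ?_)) (cm_smul _ (h _ ?_))
  · rw [star_add, star_star, add_comm]
  · rw [star_smul, star_sub, star_star, Complex.star_def, Complex.conj_I, neg_smul, ← smul_neg,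
      neg_sub]

end fam

section conc

variable {E : Type} [Group E] [TopologicalSpace E] [IsTopologicalGroup E] [LocallyCompactSpace E]
  [SecondCountableTopology E] [T2Space E] [MeasurableSpace E] [BorelSpace E]
  {Λ : Subgroup E} [DiscreteTopology Λ] [MeasurableSpace (E ⧸ Λ)] [BorelSpace (E ⧸ Λ)]
  {ν : Measure (E ⧸ Λ)} [IsProbabilityMeasure ν] [Countable Λ]
  (hν : ∀ g : E, ν.map (fun x => g • x) = ν)
  {ℋ : Type} [NormedAddCommGroup ℋ] [InnerProductSpace ℂ ℋ] [CompleteSpace ℋ]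
  {Γ₁ Γ₂ : Type} [Group Γ₁] [Group Γ₂] [Countable Γ₁] [Countable Γ₂]
  {V : Λ →* (ℋ →L[ℂ] ℋ)} {R₁ : Γ₁ →* (ℋ →L[ℂ] ℋ)} {R₂ : Γ₂ →* (ℋ →L[ℂ] ℋ)}

theorem Tri3.basis (h : Tri3 V R₁ R₂) :
    ∃ (I : Type) (_ : Countable I), Nonempty (HilbertBasis I ℂ ℋ) := by
  obtain ⟨ι, _, ξ, hξ⟩ := h.f₁₂
  exact Amp.exists_basis (R := fun x => prd R₁ R₂ h.comm₁₂ x) (ξ := ξ)
    ⟨⟨map_one _, map_mul _, prd_adj _ h.adj₁ h.adj₂⟩, hξ⟩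

include hν in
/-- the compact field in the commutant of the family -/
theorem exists_cpt (h : Tri3 V R₁ R₂) {lam₁ : Γ₁ →* (Lp ℋ 2 ν →L[ℂ] Lp ℋ 2 ν)}
    {lam₂ : Γ₂ →* (Lp ℋ 2 ν →L[ℂ] Lp ℋ 2 ν)} (e₁ : ∀ γ, lam₁ γ = (R₁ γ).compLpL 2 ν)
    (e₂ : ∀ γ, lam₂ γ = (R₂ γ).compLpL 2 ν) {π : E →* (Lp ℋ 2 ν →L[ℂ] Lp ℋ 2 ν)}
    {X C₁ C₂ : Set (Lp ℋ 2 ν →L[ℂ] Lp ℋ 2 ν)}
    (hX : ∀ S, MeasurableSet S → H790.ind ν ℋ S ∈ X)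
    (h₁ : OLeg π lam₁ (X ∪ Set.range lam₂) C₁) (h₂ : OLeg π lam₂ (X ∪ Set.range lam₁) C₂) :
    ∃ (T : Lp ℋ 2 ν →L[ℂ] Lp ℋ 2 ν) (S : E → (ℋ →L[ℂ] ℋ)), T ≠ 0 ∧ Lift ν V T S ∧
      (∀ G, Cm (C₁ ∪ C₂) G → T * G = G * T) ∧
      ∀ᵐ g ∂(Measure.haar : Measure E), adjoint (S g) = S g ∧ IsCompactOperator (S g) := by
  obtain ⟨I, _, ⟨b⟩⟩ := h.basis
  obtain ⟨u, hu⟩ := h.ne
  obtain ⟨ι, _, ξ, hξ⟩ := h.f₁₂
  have hO : (Lp.const 2 ν u : Lp ℋ 2 ν) ≠ 0 := by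
    intro h0
    have h1 := Lp.norm_const' (p := 2) (μ := ν) u (by simp) (by simp)
    rw [h0, norm_zero] at h1
    simp only [probReal_univ, Real.one_rpow, mul_one] at h1
    exact hu (norm_eq_zero.1 h1.symm)
  obtain ⟨a₁, m₁, i₁, n₁⟩ : ∃ a ∈ C₁, IB lam₁ a ∧ a (Lp.const 2 ν u) ≠ 0 := by
    by_contra hn
    push Not at hn
    exact hO (h₁.nd _ hn)
  obtain ⟨a₂, m₂, i₂, n₂⟩ : ∃ a ∈ C₂, IB lam₂ a ∧ a (a₁ (Lp.const 2 ν u)) ≠ 0 := by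
    by_contra hn
    push Not at hn
    exact n₁ (h₂.nd _ hn)
  obtain ⟨N₁, -, hN₁⟩ := i₁.exists_pos
  obtain ⟨N₂, p₂, hN₂⟩ := i₂.exists_pos
  have c₁ : Cm X a₁ := fun w hw => h₁.cm a₁ m₁ w (Or.inl hw)
  have c₂ : Cm X a₂ := fun w hw => h₂.cm a₂ m₂ w (Or.inl hw)
  have hd : H34.Dcm (a₁ * a₂ * (a₂ * a₁)) := fun S hS =>
    cm_mul (cm_mul c₁ c₂) (cm_mul c₂ c₁) _ (hX S hS)
  have ha : adjoint (a₁ * a₂ * (a₂ * a₁)) = a₁ * a₂ * (a₂ * a₁) := by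
    rw [← star_eq_adjoint, star_mul, star_mul, star_mul, star_eq_adjoint, star_eq_adjoint,
      h₁.sa a₁ m₁, h₂.sa a₂ m₂]
  obtain ⟨S, hS⟩ := exists_lift (V := V) b hd
  have hl : ∀ γ δ, lam₁ γ * lam₂ δ = lam₂ δ * lam₁ γ := fun γ δ => by
    rw [e₁, e₂, ← comp_mul, ← comp_mul, h.comm₁₂]
  have hk : ∀ (R : ℋ →L[ℂ] ℋ) v, R.compLpL 2 ν (Lp.const 2 ν v) = Lp.const 2 ν (R v) := by
    intro R v
    refine Lp.ext ?_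
    filter_upwards [fld_comp (μ := ν) R (Lp.const 2 ν v), Lp.coeFn_const (p := 2) (μ := ν) v,
      Lp.coeFn_const (p := 2) (μ := ν) (R v)] with x b1 b2 b3
    rw [b1, b2, b3]
    rfl
  refine ⟨_, S, fun h0 => n₂ ?_, hS, fun G hG => ?_, (hS.sa hν b h.adjV hd ha).and
    (hS.compact hν b hd ha hξ (C := ∑ i, ‖a₁ * a₂‖ ^ 2 *
      (N₂ * (N₁ * ‖(Lp.const 2 ν (ξ i) : Lp ℋ 2 ν)‖ ^ 2)))
      (sum_prod_le _ (fun p => sq_nonneg _) _ fun i F => ?_))⟩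
  · have h1 : ⟪Lp.const 2 ν u, (a₁ * a₂ * (a₂ * a₁)) (Lp.const 2 ν u)⟫_ℂ =
        ⟪a₂ (a₁ (Lp.const 2 ν u)), a₂ (a₁ (Lp.const 2 ν u))⟫_ℂ := by
      change ⟪_, a₁ (a₂ (a₂ (a₁ _)))⟫_ℂ = _
      rw [← adjoint_inner_left a₁, h₁.sa a₁ m₁, ← adjoint_inner_left a₂, h₂.sa a₂ m₂]
    rw [h0, ContinuousLinearMap.zero_apply, inner_zero_right] at h1
    exact inner_self_eq_zero.1 h1.symm
  · have g₁ : Commute a₁ G := (hG a₁ (Or.inl m₁)).symm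
    have g₂ : Commute a₂ G := (hG a₂ (Or.inr m₂)).symm
    exact ((g₁.mul_left g₂).mul_left (g₂.mul_left g₁)).eq
  · refine le_trans (Finset.sum_le_sum fun x _ => ?_) ((Finset.mul_sum _ _ _).symm.le.trans
      (mul_le_mul_of_nonneg_left (ib_prod p₂.le hN₁ hN₂ hl
        (fun δ => h₁.cm a₁ m₁ _ (Or.inr ⟨δ, rfl⟩)) F (Lp.const 2 ν (ξ i))) (sq_nonneg _)))
    rw [← mul_pow, e₁, e₂, hk, hk]
    exact pow_le_pow_left₀ (norm_nonneg _) ((a₁ * a₂).le_opNorm _) 2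

include hν in
/-- **The soft end**, abstract form. -/
theorem over_of_mov (h : Tri3 V R₁ R₂) {lam₁ : Γ₁ →* (Lp ℋ 2 ν →L[ℂ] Lp ℋ 2 ν)}
    {lam₂ : Γ₂ →* (Lp ℋ 2 ν →L[ℂ] Lp ℋ 2 ν)} (e₁ : ∀ γ, lam₁ γ = (R₁ γ).compLpL 2 ν)
    (e₂ : ∀ γ, lam₂ γ = (R₂ γ).compLpL 2 ν) {π : E →* (Lp ℋ 2 ν →L[ℂ] Lp ℋ 2 ν)}
    (eπ : ∀ g, π g = iro hν V g) {X C₁ C₂ : Set (Lp ℋ 2 ν →L[ℂ] Lp ℋ 2 ν)}
    (hX : ∀ S, MeasurableSet S → H790.ind ν ℋ S ∈ X)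
    (h₁ : OLeg π lam₁ (X ∪ Set.range lam₂) C₁) (h₂ : OLeg π lam₂ (X ∪ Set.range lam₁) C₂)
    (m₁ : Mov lam₁ {a | a ∈ C₁ ∧ Cm C₂ a}) (m₂ : Mov lam₂ {a | a ∈ C₂ ∧ Cm C₁ a}) :
    Over3 V R₁ R₂ := by
  obtain ⟨T, S, t0, t1, t2, t3⟩ := exists_cpt hν h e₁ e₂ hX h₁ h₂
  obtain ⟨I, _, ⟨b⟩⟩ := h.basis
  obtain ⟨I₁, _, G₁, g1, g2, g3⟩ := exists_fam (D := {a | a ∈ C₁ ∧ Cm C₂ a})
    (fun γ a ha => ⟨h₁.cov γ a ha.1,
    cm_conj (mul_inv_op lam₁ γ) (fun w hw => by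
      rw [← h₂.cm w hw _ (Or.inr ⟨γ⁻¹, rfl⟩), mul_assoc, inv_mul_op, mul_one]; exact hw) ha.2⟩) m₁
  obtain ⟨I₂, _, G₂, k1, k2, k3⟩ := exists_fam (D := {a | a ∈ C₂ ∧ Cm C₁ a})
    (fun γ a ha => ⟨h₂.cov γ a ha.1,
    cm_conj (mul_inv_op lam₂ γ) (fun w hw => by
      rw [← h₁.cm w hw _ (Or.inr ⟨γ⁻¹, rfl⟩), mul_assoc, inv_mul_op, mul_one]; exact hw) ha.2⟩) m₂
  obtain ⟨G, hG1, hG2⟩ : ∃ G : I₁ ⊕ I₂ → (Lp ℋ 2 ν →L[ℂ] Lp ℋ 2 ν),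
      (∀ i, G (.inl i) = G₁ i) ∧ ∀ i, G (.inr i) = G₂ i :=
    ⟨Sum.elim G₁ G₂, fun _ => rfl, fun _ => rfl⟩
  have gm : ∀ i, G i ∈ C₁ ∪ C₂ := fun i => by
    cases i with
    | inl i => rw [hG1]; exact Or.inl (g1 i).1
    | inr i => rw [hG2]; exact Or.inr (k1 i).1
  have gc : ∀ i, Cm (C₁ ∪ C₂) (G i) := fun i w hw => by
    cases i with
    | inl i => rw [hG1]; exact hw.elim (h₁.com _ (g1 i).1 w) ((g1 i).2 w)
    | inr i => rw [hG2]; exact hw.elim ((k1 i).2 w) (h₂.com _ (k1 i).1 w)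
  have gd : ∀ i, H34.Dcm (G i) := fun i S hS =>
    (gm i).elim (fun e => h₁.cm _ e _ (Or.inl (hX S hS))) fun e => h₂.cm _ e _ (Or.inl (hX S hS))
  have ga : ∀ i, adjoint (G i) = G i := fun i => (gm i).elim (h₁.sa _) (h₂.sa _)
  have gp : ∀ m, ∀ w ∈ C₁ ∪ C₂, π m * w * π m⁻¹ ∈ C₁ ∪ C₂ := fun m w hw =>
    hw.elim (fun e => Or.inl (h₁.pcov m w e)) fun e => Or.inr (h₂.pcov m w e)
  choose A hA using fun i => exists_lift (V := V) b (gd i)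
  have l₁ : ∀ γ, Lift ν V (lam₁ γ) fun _ => R₁ γ := fun γ => by
    rw [e₁]; exact lift_const fun v => h.comm₁ v γ
  have l₂ : ∀ γ, Lift ν V (lam₂ γ) fun _ => R₂ γ := fun γ => by
    rw [e₂]; exact lift_const fun v => h.comm₂ v γ
  have p1 : ∀ᵐ s ∂(Measure.haar : Measure E), ∀ᵐ s' ∂(Measure.haar : Measure E),
      ∀ i, S s * A i s' = A i s' * S s :=
    Measure.ae_ae_of_ae_prod (ae_all_iff.2 fun i => t1.pairs hν b h.adjV (hA i) fun m => by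
      rw [← eπ, ← eπ]
      refine t2 _ (cm_conj (mul_inv_op π m) (fun w hw => ?_) (gc i))
      have := gp m⁻¹ w hw
      rwa [inv_inv] at this)
  obtain ⟨s, s0, ⟨s1, s2⟩, s3⟩ := ((not_eventually.1 fun e => t0 (t1.eq_zero hν e)).and_eventually
    (t3.and p1)).exists
  refine over_abs (ν := (Measure.haar : Measure E)) (A := A) h
    (ae_all_iff.2 fun i => (hA i).sa hν b h.adjV (gd i) (ga i))
    (Measure.ae_ae_of_ae_prod (ae_all_iff.2 fun i => ae_all_iff.2 fun j =>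
      (hA i).pairs hν b h.adjV (hA j) fun m => by
        rw [← eπ, ← eπ]
        exact gc i _ (gp m _ (gm j)))) s0 s1 s2 s3
    (fun v => ⟨fun g => g * (v : E), quasiMeasurePreserving_mul_right _ _,
      Eventually.of_forall fun g i => (hA i).right v g⟩)
    (fun γ => (g2 γ).imp fun σ hσ => ae_all_iff.2 fun i =>
      ((hA _).mul (l₁ γ)).eq hν b ((l₁ γ).mul (hA _)) (by rw [hG1, hG1, hσ]))
    (fun γ => (k2 γ).imp fun σ hσ => ae_all_iff.2 fun i =>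
      ((hA _).mul (l₂ γ)).eq hν b ((l₂ γ).mul (hA _)) (by rw [hG2, hG2, hσ]))
    (fun γ => ae_all_iff.2 fun i => ((hA _).mul (l₂ γ)).eq hν b ((l₂ γ).mul (hA _))
      (by rw [hG1]; exact h₁.cm _ (g1 i).1 _ (Or.inr ⟨γ, rfl⟩)))
    (fun γ => ae_all_iff.2 fun i => ((hA _).mul (l₁ γ)).eq hν b ((l₁ γ).mul (hA _))
      (by rw [hG2]; exact h₂.cm _ (k1 i).1 _ (Or.inr ⟨γ, rfl⟩))) (fun L f1 f2 => ?_)
    fun L f1 f2 => ?_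
  · obtain ⟨n, l, ix, q1, q2, q3⟩ := g3 L f1 f2
    refine ⟨n, l, ix, q1, Eventually.and ?_ (ae_all_iff.2 fun j => ?_)⟩
    · exact (lift_sum Finset.univ fun j => hA (.inl (ix j))).eq hν b lift_one
        (by simp only [hG1]; exact q2)
    · exact ((hA _).mul (((l₁ _).mul (hA _)).mul (l₁ _))).eq hν b lift_zero
        (by rw [hG1]; exact q3 j)
  · obtain ⟨n, l, ix, q1, q2, q3⟩ := k3 L f1 f2
    refine ⟨n, l, ix, q1, Eventually.and ?_ (ae_all_iff.2 fun j => ?_)⟩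
    · exact (lift_sum Finset.univ fun j => hA (.inr (ix j))).eq hν b lift_one
        (by simp only [hG2]; exact q2)
    · exact ((hA _).mul (((l₂ _).mul (hA _)).mul (l₂ _))).eq hν b lift_zero
        (by rw [hG2]; exact q3 j)

/-- the cross commutation for a leg -/
theorem ULeg.xc {K : Type} [NormedAddCommGroup K] [InnerProductSpace ℂ K] [CompleteSpace K]
    {E Γ Γ' S : Type} [Group E] [Group Γ] [Group Γ'] [Group S] {π : E →* (K →L[ℂ] K)}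
    {lam : Γ →* (K →L[ℂ] K)} {lam' : Γ' →* (K →L[ℂ] K)} {X C C' : Set (K →L[ℂ] K)}
    {Y : Type} [TopologicalSpace Y] [CompactSpace Y] [T2Space Y] [MulAction Γ Y]
    [ContinuousConstSMul Γ Y] {ι : S →* E} {Φ : C(Y, ℂ) →⋆ₐ[ℂ] (K →L[ℂ] K)}
    (h : ULeg π lam (X ∪ Set.range lam') C ι Φ) (h' : OLeg π lam' (X ∪ Set.range lam) C')
    (adjP : ∀ g, adjoint (π g) = π g⁻¹) (adj' : ∀ γ, adjoint (lam' γ) = lam' γ⁻¹)
    (c : ∀ a b, lam' a * lam b = lam b * lam' a) (p : ∀ g γ, π g * lam γ = lam γ * π g)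
    (p' : ∀ g γ, π g * lam' γ = lam' γ * π g) (pX : ∀ g, ∀ x ∈ X, π g * x * π g⁻¹ ∈ X)
    (x' : ∀ γ, Cm X (lam' γ)) : Mov lam {a | a ∈ C ∧ Cm C' a} := by
  haveI := h.sol
  have e : ∀ s, (π.comp ι) s⁻¹ = π (ι s)⁻¹ := fun s => by rw [MonoidHom.comp_apply, map_inv]
  have h1 := P092EN.xc (σ := π.comp ι) (E := lin Φ) (fun s => by rw [e]; exact adjP _) adj' c
    (fun s γ => p' _ γ) (fun s γ => p _ γ) (fun s x hx => by rw [e]; exact pX _ x hx) x'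
    ⟨h'.sa, h'.com, h'.cm, h'.cov, fun s a ha => by rw [e]; exact h'.pcov _ a ha, h'.nd⟩
    (ucp_lin Φ) (cm_of_real fun f hf w hw => h.leg.cm _ (h.mem f hf) w (Or.inl hw)) h.cov h.uq
  exact mov_of_nf h.nf h.cov fun f hf => ⟨h.mem f hf, h1 f⟩

include hν in
/-- **The soft end.** -/
theorem over_of_ulegs (h : Tri3 V R₁ R₂)
    {X C₁ C₂ : Set (Lp ℋ 2 (cdat ν hν).μ →L[ℂ] Lp ℋ 2 (cdat ν hν).μ)}
    (hX : ∀ S, MeasurableSet S → H790.ind (cdat ν hν).μ ℋ S ∈ X)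
    (pX : ∀ g, ∀ x ∈ X, H34.Ind.pi (cdat ν hν) (V := V) h.adjV g * x *
      H34.Ind.pi (cdat ν hν) (V := V) h.adjV g⁻¹ ∈ X)
    (x₁ : ∀ γ, Cm X (H34.Ind.lam (cdat ν hν) R₁ γ)) (x₂ : ∀ γ, Cm X (H34.Ind.lam (cdat ν hν) R₂ γ))
    {S₁ S₂ Y₁ Y₂ : Type} [Group S₁] [Group S₂]
    [TopologicalSpace Y₁] [CompactSpace Y₁] [T2Space Y₁] [MulAction Γ₁ Y₁]
    [ContinuousConstSMul Γ₁ Y₁] [TopologicalSpace Y₂] [CompactSpace Y₂] [T2Space Y₂]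
    [MulAction Γ₂ Y₂] [ContinuousConstSMul Γ₂ Y₂] {ι₁ : S₁ →* E} {ι₂ : S₂ →* E}
    {Φ₁ : C(Y₁, ℂ) →⋆ₐ[ℂ] (Lp ℋ 2 (cdat ν hν).μ →L[ℂ] Lp ℋ 2 (cdat ν hν).μ)}
    {Φ₂ : C(Y₂, ℂ) →⋆ₐ[ℂ] (Lp ℋ 2 (cdat ν hν).μ →L[ℂ] Lp ℋ 2 (cdat ν hν).μ)}
    (h₁ : ULeg (H34.Ind.pi (cdat ν hν) (V := V) h.adjV) (H34.Ind.lam (cdat ν hν) R₁)
      (X ∪ Set.range (H34.Ind.lam (cdat ν hν) R₂)) C₁ ι₁ Φ₁)
    (h₂ : ULeg (H34.Ind.pi (cdat ν hν) (V := V) h.adjV) (H34.Ind.lam (cdat ν hν) R₂)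
      (X ∪ Set.range (H34.Ind.lam (cdat ν hν) R₁)) C₂ ι₂ Φ₂) : Over3 V R₁ R₂ := by
  have hl : ∀ a b, H34.Ind.lam (cdat ν hν) R₁ a * H34.Ind.lam (cdat ν hν) R₂ b =
      H34.Ind.lam (cdat ν hν) R₂ b * H34.Ind.lam (cdat ν hν) R₁ a := by
    intro a b
    have e1 : H34.Ind.lam (cdat ν hν) R₁ a * H34.Ind.lam (cdat ν hν) R₂ b =
        (R₁ a * R₂ b).compLpL 2 ν := by rw [comp_mul]; rfl
    have e2 : H34.Ind.lam (cdat ν hν) R₂ b * H34.Ind.lam (cdat ν hν) R₁ a =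
        (R₂ b * R₁ a).compLpL 2 ν := by rw [comp_mul]; rfl
    rw [e1, e2, h.comm₁₂]
  have p₁ := H34.Ind.pi_lam (cdat ν hν) h.adjV h.comm₁
  have p₂ := H34.Ind.pi_lam (cdat ν hν) h.adjV h.comm₂
  have aP := H34.Ind.adjoint_pi (cdat ν hν) h.adjV
  exact over_of_mov hν h (fun _ => rfl) (fun _ => rfl) (fun _ => rfl) hX h₁.leg h₂.leg
    (h₁.xc h₂.leg aP (H34.Ind.adjoint_lam _ h.adj₂) (fun a b => (hl b a).symm) p₁ p₂ pX x₂)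
    (h₂.xc h₁.leg aP (H34.Ind.adjoint_lam _ h.adj₁) hl p₂ p₁ pX x₁)

include hν in
/-- **The soft end**, `X` the multiplications by indicator functions. -/
theorem over_of_ulegsX (h : Tri3 V R₁ R₂)
    {C₁ C₂ : Set (Lp ℋ 2 (cdat ν hν).μ →L[ℂ] Lp ℋ 2 (cdat ν hν).μ)}
    {S₁ S₂ Y₁ Y₂ : Type} [Group S₁] [Group S₂]
    [TopologicalSpace Y₁] [CompactSpace Y₁] [T2Space Y₁] [MulAction Γ₁ Y₁]
    [ContinuousConstSMul Γ₁ Y₁] [TopologicalSpace Y₂] [CompactSpace Y₂] [T2Space Y₂]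
    [MulAction Γ₂ Y₂] [ContinuousConstSMul Γ₂ Y₂] {ι₁ : S₁ →* E} {ι₂ : S₂ →* E}
    {Φ₁ : C(Y₁, ℂ) →⋆ₐ[ℂ] (Lp ℋ 2 (cdat ν hν).μ →L[ℂ] Lp ℋ 2 (cdat ν hν).μ)}
    {Φ₂ : C(Y₂, ℂ) →⋆ₐ[ℂ] (Lp ℋ 2 (cdat ν hν).μ →L[ℂ] Lp ℋ 2 (cdat ν hν).μ)}
    (h₁ : ULeg (H34.Ind.pi (cdat ν hν) (V := V) h.adjV) (H34.Ind.lam (cdat ν hν) R₁)
      (H34.Ind.Xset (cdat ν hν) ℋ ∪ Set.range (H34.Ind.lam (cdat ν hν) R₂)) C₁ ι₁ Φ₁)
    (h₂ : ULeg (H34.Ind.pi (cdat ν hν) (V := V) h.adjV) (H34.Ind.lam (cdat ν hν) R₂)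
      (H34.Ind.Xset (cdat ν hν) ℋ ∪ Set.range (H34.Ind.lam (cdat ν hν) R₁)) C₂ ι₂ Φ₂) :
    Over3 V R₁ R₂ := by
  refine over_of_ulegs hν h (X := H34.Ind.Xset (cdat ν hν) ℋ) (fun S hS => ⟨S, hS, rfl⟩) ?_ ?_ ?_
    h₁ h₂
  · rintro g _ ⟨S, hS, rfl⟩
    refine ⟨_, ((cdat ν hν).mp g⁻¹).measurable hS, ?_⟩
    rw [H34.Ind.pi_ind _ h.adjV g hS, mul_assoc, mul_inv_op, mul_one]
  · rintro γ _ ⟨S, hS, rfl⟩
    exact ind_comp hS (R₁ γ)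
  · rintro γ _ ⟨S, hS, rfl⟩
    exact ind_comp hS (R₂ γ)

end conc

section sys

variable {Γ ℋ : Type} [Group Γ] [NormedAddCommGroup ℋ] [InnerProductSpace ℂ ℋ] [CompleteSpace ℋ]
  {V R₁ R₂ : Γ →* (ℋ →L[ℂ] ℋ)}

theorem tri3_of_sys (h : H678.OV.Sys V R₁ R₂) : Tri3 V R₁ R₂ := by
  obtain ⟨κ, _, ξ, t, -⟩ := h.t₁
  obtain ⟨κ₁, _, ξ₁, t₁⟩ := h.g₁
  obtain ⟨κ₂, _, ξ₂, t₂⟩ := h.g₂
  obtain ⟨k, hk⟩ := t.ne
  exact ⟨t.adjV, t.adj₁, t.adj₂, t.comm₁, t.comm₂, t.comm₁₂, ⟨_, hk⟩,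
    ⟨κ, inferInstance, ξ, t.frame⟩,
    ⟨κ₁, inferInstance, ξ₁, t₁.frame⟩, ⟨κ₂, inferInstance, ξ₂, t₂.frame⟩⟩

theorem overV_iff : H678.OV.OverV V R₁ R₂ ↔ Over3 V R₁ R₂ := Iff.rfl

end sys

end Vale.Agent.P092EN
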