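import Vale.Agent.P092EN.Fin
import Vale.Agent.P092RS.Defs
import Vale.Agent.P092RG.Cell
import Vale.Agent.P092RG.Vol
import Vale.Agent.P092CP.Pos

/-!
P092, descent (helper22): the output of rank one gives the core statement.
-/

set_option linter.all false

open scoped InnerProductSpace ENNReal NNReal
open Filter Topology ContinuousLinearMap TopologicalSpace MeasureTheory

namespace Vale.Agent.P092EN

open Vale.Agent.P092 Vale.Agent.P092.H793.Re Vale.Agent.P092RG Vale.Agent.P092CP Vale.Agent.P092RS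

variable {n : ℕ} {G : Type} [Group G] [TopologicalSpace G] [IsTopologicalGroup G]
  [LocallyCompactSpace G] [SecondCountableTopology G] [T2Space G] [MeasurableSpace G]
  [BorelSpace G] {ρ : G →* SLn n} {w : Fin n → ℝ}

theorem r1_sep (h : R1 ρ w) {A B : Set h.Y} (hA : IsCompact A) (hB : IsCompact B)
    (d : Disjoint A B) : ∃ δ, 0 < δ ∧ ∀ y ∈ A, ∀ y' ∈ B, δ ≤ h.dv y y' := by
  rcases (A ×ˢ B).eq_empty_or_nonempty with e | e
  · exact ⟨1, one_pos, fun y a y' b => (e.subset (Set.mk_mem_prod a b)).elim⟩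
  obtain ⟨p, p1, p2⟩ := (hA.prod hB).exists_isMinOn e h.continuous_dv.continuousOn
  exact ⟨_, h.dv_pos fun e : p.1 = p.2 => Set.disjoint_left.1 d p1.1 (e ▸ p1.2),
    fun y a y' b => p2 (Set.mk_mem_prod a b)⟩

theorem r1_pt (h : R1 ρ w) : PT G h.Y := by
  intro A hA d
  obtain ⟨a, a0, ha⟩ := r1_sep h (hA 0) (hA 1) (d 0 1 (by decide))
  obtain ⟨b, b0, hb⟩ := r1_sep h (hA 0) (hA 2) (d 0 2 (by decide))
  obtain ⟨c, c0, hc⟩ := r1_sep h (hA 1) (hA 2) (d 1 2 (by decide))
  obtain ⟨R, hR⟩ := h.proper_triples (lt_min a0 (lt_min b0 c0))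
  refine ⟨_, h.isCompact_ball R, fun g hg => ?_⟩
  choose y y1 y2 using hg
  have e1 : min a (min b c) ≤ a := min_le_left _ _
  have e2 : min a (min b c) ≤ b := (min_le_right _ _).trans (min_le_left _ _)
  have e3 : min a (min b c) ≤ c := (min_le_right _ _).trans (min_le_right _ _)
  exact hR g (y 0) (y 1) (y 2) (e1.trans (ha _ (y1 0) _ (y1 1))) (e2.trans (hb _ (y1 0) _ (y1 2)))
    (e3.trans (hc _ (y1 1) _ (y1 2))) (e1.trans (ha _ (y2 0) _ (y2 1)))
    (e2.trans (hb _ (y2 0) _ (y2 2))) (e3.trans (hc _ (y2 1) _ (y2 2)))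

theorem r1_ns (h : R1 ρ w) : NS G h.Y := by
  have tra : ∀ y y' : h.Y, ∃ g : G, g • y = y' := fun y y' => MulAction.exists_smul_eq G y y'
  refine ⟨tra, ⟨h.a 1, h.y0, fun y => ?_⟩, ?_⟩
  · obtain ⟨x, rfl⟩ := tra h.y0 y
    filter_upwards [h.ae_haar_bd Measure.haar h.w0⁻¹ x] with g hg
    have e1 : h.y1 ≠ g • x • h.y0 := fun e => by
      have e2 : (h.w0⁻¹ * g * x) • h.y0 = h.y0 := by
        rw [mul_smul, mul_smul, ← e, inv_smul_eq_iff, h.smul_y0]; rfl
      exact hg.ne' (h.bd_eq_zero.2 (h.smul_y0_eq.1 e2))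
    have e3 : ∀ k : ℕ, h.a 1 ^ k = h.a k := fun k => by
      induction k with
      | zero => rw [pow_zero, Nat.cast_zero, h.a_zero]
      | succ k ih => rw [pow_succ, ih, Nat.cast_succ, h.a_add]
    refine tendsto_def.2 fun U hU => ?_
    obtain ⟨ε, p, hε⟩ := h.exists_dv_ball hU
    have e4 : Tendsto (fun k : ℕ => Real.exp (-(2 * (k : ℝ)))) atTop (𝓝 0) :=
      Real.tendsto_exp_neg_atTop_nhds_zero.comp
        (tendsto_natCast_atTop_atTop.const_mul_atTop two_pos)
    filter_upwards [e4.eventually (gt_mem_nhds (mul_pos p (h.dv_pos e1)))] with k hk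
    refine hε _ (lt_of_mul_lt_mul_right ?_ (h.dv_nonneg h.y1 (g • x • h.y0)))
    beta_reduce
    rw [e3]
    exact ((h.north_south_a k _).trans (mul_le_of_le_one_right (Real.exp_pos _).le
      (h.dv_le_one _ _))).trans_lt hk
  · obtain ⟨y, y1⟩ : ∃ y : h.Y, y ∉ ({h.y0, h.y1} : Set h.Y) := by
      haveI : Nontrivial (Vale.Agent.P092RK.Eu h.m1) :=
        Module.nontrivial_of_finrank_pos (R := ℝ) (by
          rw [finrank_euclideanSpace_fin]; exact h.m1_pos)
      obtain ⟨p, hp⟩ := exists_ne (0 : h.EN)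
      exact ⟨h.cell p, fun e => e.elim (h.cell_ne p) fun e =>
        hp (h.cell_inj (e.trans h.cell_zero.symm))⟩
    obtain ⟨L, l1, l2⟩ := r1_pt h (fun i => {![h.y0, h.y1, y] i}) (fun _ => isCompact_singleton) (by
      have a := h.y1_ne
      have b : y ≠ h.y0 := fun e => y1 (Or.inl e)
      have c : y ≠ h.y1 := fun e => y1 (Or.inr e)
      intro i j e
      rw [Set.disjoint_singleton]
      fin_cases i <;> fin_cases j <;> simp_all [eq_comm])
    exact ⟨L, l1, fun g hg => l2 g fun i => ⟨_, rfl, hg _⟩⟩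

variable {n' : ℕ} {E : Type} [Group E] [TopologicalSpace E] [IsTopologicalGroup E]
  [LocallyCompactSpace E] [SecondCountableTopology E] [T2Space E] [MeasurableSpace E]
  [BorelSpace E] {ρ' : E →* SLn n'} {w' : Fin n' → ℝ}

theorem hasLeg_of_bout (hO : BOut) (h' : R1 ρ' w') (h : R1 ρ w) (m' : 2 ≤ h'.m2) (m : 2 ≤ h.m2)
    (μ' : Measure E) [μ'.IsHaarMeasure] (μ : Measure G) [μ.IsHaarMeasure] : HasLeg μ' μ := by
  intro K _ _ _ W C
  obtain ⟨Φ, o⟩ := hO h' h C m' m
  obtain ⟨g, f, f1, f2, f3⟩ := o.tri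
  obtain ⟨D, hD⟩ := culeg_of_tri C.s.adj C.t.adj C.comm C.s.conj o.cm o.cov o.com h'.solvable_B
    o.uq (r1_pt h) g f f1 f2 f3
  exact ⟨_, _, _, _, inferInstance, inferInstance, _, inferInstance, _, D, Φ, hD, r1_ns h⟩

omit [MeasurableSpace G] [BorelSpace G] in
/-- **Rank one**: the core statement. -/
theorem overStmt_of_bout (hI : Inst) (hO : BOut) (h : R1 ρ w) (m : 2 ≤ h.m2) :
    H678.OV.OverStmt G := by
  letI : MeasurableSpace G := borel _
  haveI : BorelSpace G := ⟨rfl⟩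
  exact overStmt_of_hasLeg hI (hasLeg_of_bout hO h h m m Measure.haar Measure.haar)

end Vale.Agent.P092EN
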